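import Vale.Agent.P245.Poly.Defs
import Vale.Agent.P245.Tilt
import Vale.Agent.P245.M5.Nice
import Vale.Agent.P245.SLC.Lsi

/-!
# P245, module G: the tilt process and Bregman divergences of the log-Laplace transform
-/

namespace Vale.Agent.P245.Poly

open MeasureTheory ProbabilityTheory Filter Topology M2
open scoped RealInnerProductSpace

variable {n : ℕ}

/-- Sum of two independent Gaussians. -/
lemma gam_add {a b : ℝ} (ha : 0 ≤ a) (hb : 0 ≤ b) :
    ((gam n).prod (gam n)).map (fun p : Rn n × Rn n => Real.sqrt a • p.1 + Real.sqrt b • p.2)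
      = (gam n).map (fun z => Real.sqrt (a + b) • z) := by
  refine Measure.ext_of_charFun (funext fun ξ => ?_)
  rw [charFun_apply, integral_map (by fun_prop) (by fun_prop),
    charFun_apply, integral_map (by fun_prop) (by fun_prop)]
  have h : ∀ p : Rn n × Rn n,
      Complex.exp ((⟪Real.sqrt a • p.1 + Real.sqrt b • p.2, ξ⟫ : ℝ) * Complex.I)
        = Complex.exp ((⟪p.1, Real.sqrt a • ξ⟫ : ℝ) * Complex.I)
          * Complex.exp ((⟪p.2, Real.sqrt b • ξ⟫ : ℝ) * Complex.I) := by
    intro p
    rw [← Complex.exp_add, ← add_mul, ← Complex.ofReal_add, inner_add_left]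
    simp only [real_inner_smul_left, real_inner_smul_right]
  have h' : ∀ z : Rn n, (⟪Real.sqrt (a + b) • z, ξ⟫ : ℝ) = ⟪z, Real.sqrt (a + b) • ξ⟫ :=
    fun z => by simp only [real_inner_smul_left, real_inner_smul_right]
  simp only [h, h']
  rw [integral_prod_mul (f := fun x : Rn n => Complex.exp ((⟪x, Real.sqrt a • ξ⟫ : ℝ) * Complex.I))
    (g := fun y : Rn n => Complex.exp ((⟪y, Real.sqrt b • ξ⟫ : ℝ) * Complex.I)),
    ← charFun_apply, ← charFun_apply, ← charFun_apply, charFun_stdGaussian, charFun_stdGaussian,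
    charFun_stdGaussian, ← Complex.exp_add]
  congr 1
  simp only [norm_smul, Real.norm_eq_abs, abs_of_nonneg (Real.sqrt_nonneg _), ← Complex.ofReal_pow,
    mul_pow, Real.sq_sqrt ha, Real.sq_sqrt hb, Real.sq_sqrt (add_nonneg ha hb)]
  push_cast
  ring

lemma integral_gam_add {a b : ℝ} (ha : 0 ≤ a) (hb : 0 ≤ b) {φ : Rn n → ℝ} (hφ : Measurable φ) :
    ∫ p, φ (Real.sqrt a • p.1 + Real.sqrt b • p.2) ∂((gam n).prod (gam n))
      = ∫ z, φ (Real.sqrt (a + b) • z) ∂gam n := by
  rw [← integral_map (φ := fun p : Rn n × Rn n => Real.sqrt a • p.1 + Real.sqrt b • p.2)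
    (by fun_prop) hφ.aestronglyMeasurable, gam_add ha hb,
    integral_map (by fun_prop) hφ.aestronglyMeasurable]

variable {μ : Measure (Rn n)} [IsProbabilityMeasure μ]

lemma obs_prob (t : ℝ) : IsProbabilityMeasure (obs μ t) :=
  Measure.isProbabilityMeasure_map (by fun_prop)

lemma obs_zero : obs μ 0 = Measure.dirac 0 := by
  simp [obs, Measure.map_const]

lemma ex_zero (h : Rn n → ℝ) : ex μ 0 0 h = ∫ x, h x ∂μ := by
  simp [ex, num, zt, texp]

/-- The mixture identity, also at time zero. -/
lemma mix (hb : BddSupp μ) {t : ℝ} (ht : 0 ≤ t) {H : Rn n → Rn n → ℝ}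
    (hm : Measurable (Function.uncurry H)) {C : ℝ} (hC : ∀ᵐ x ∂μ, ∀ th, |H th x| ≤ C) :
    ∫ th, ex μ t th (H th) ∂(obs μ t)
      = ∫ p, H (t • p.1 + Real.sqrt t • p.2) p.1 ∂(μ.prod (gam n)) := by
  rcases eq_or_lt_of_le ht with h | h
  · subst h
    rw [obs_zero, integral_dirac, ex_zero]
    simp only [Real.sqrt_zero, zero_smul, add_zero]
    rw [integral_fun_fst]
    simp
  · exact (mixture_ae hb h hm hC).2.symm

/-- `ObsStep`. -/
theorem obsStep : ObsStep := by
  intro n μ hμ hb t h ht hh f hf ⟨M, hM⟩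
  set H : Rn n → Rn n → ℝ := fun th x => ∫ z, f (th + h • x + Real.sqrt h • z) ∂gam n with hH
  have hF : StronglyMeasurable (fun p : (Rn n × Rn n) × Rn n =>
      f (p.1.1 + h • p.1.2 + Real.sqrt h • p.2)) :=
    (hf.comp (by fun_prop)).stronglyMeasurable
  have hm : Measurable (Function.uncurry H) := hF.integral_prod_right'.measurable
  have hHb : ∀ th x, |H th x| ≤ M := fun th x =>
    (norm_integral_le_of_norm_le_const (C := M)
      (ae_of_all _ fun z => (Real.norm_eq_abs _).le.trans (hM _))).trans (by simp)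
  show ∫ th, ex μ t th (H th) ∂(obs μ t) = _
  rw [mix hb ht hm (C := M) (ae_of_all _ fun x th => hHb th x),
    M2.integral_obs hf (t + h)]
  have hi1 : Integrable (fun p : Rn n × Rn n => H (t • p.1 + Real.sqrt t • p.2) p.1)
      (μ.prod (gam n)) :=
    Integrable.of_bound (hm.comp ((by fun_prop : Measurable fun p : Rn n × Rn n =>
      t • p.1 + Real.sqrt t • p.2).prodMk measurable_fst)).aestronglyMeasurable M
      (ae_of_all _ fun p => hHb _ _)
  have hi2 : Integrable (fun p : Rn n × Rn n => f ((t + h) • p.1 + Real.sqrt (t + h) • p.2))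
      (μ.prod (gam n)) :=
    Integrable.of_bound (hf.comp (by fun_prop)).aestronglyMeasurable M
      (ae_of_all _ fun p => by simpa using hM _)
  rw [integral_prod _ hi1, integral_prod _ hi2]
  refine integral_congr_ae (ae_of_all _ fun x => ?_)
  simp only [hH]
  have hmx : Measurable fun w : Rn n => f ((t + h) • x + w) := hf.comp (by fun_prop)
  rw [← integral_gam_add ht hh hmx, integral_prod]
  · refine integral_congr_ae (ae_of_all _ fun z => integral_congr_ae (ae_of_all _ fun w => ?_))
    simp only [add_smul]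
    congr 1
    abel
  · exact Integrable.of_bound (hmx.comp (by fun_prop)).aestronglyMeasurable M
      (ae_of_all _ fun p => by simpa using hM _)

/-- Linear form. -/
noncomputable abbrev lin (d : Rn n) : Rn n → ℝ := fun x => ⟪d, x⟫

omit [IsProbabilityMeasure μ] in
lemma good_lin (hb : BddSupp μ) (d : Rn n) : Good μ (lin d) :=
  Good.of_continuous hb (by fun_prop)

omit [IsProbabilityMeasure μ] in
lemma good_exp (hb : BddSupp μ) (d : Rn n) : Good μ fun x => Real.exp ⟪d, x⟫ :=
  Good.of_continuous hb (by fun_prop)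

lemma ex_const (hb : BddSupp μ) (c t : ℝ) (th : Rn n) : ex μ t th (fun _ => c) = c := by
  have e := ex_const_mul (μ := μ) c (fun _ => 1) t th
  simp only [mul_one] at e
  rw [e, ex, ← zt, div_self (zt_pos hb t th).ne', mul_one]

lemma ex_mono (hb : BddSupp μ) {f g : Rn n → ℝ} (hf : Good μ f) (hg : Good μ g)
    (hfg : ∀ᵐ x ∂μ, f x ≤ g x) (t : ℝ) (th : Rn n) : ex μ t th f ≤ ex μ t th g :=
  div_le_div_of_nonneg_right (integral_mono_ae (integrable_num hb hf t th)
    (integrable_num hb hg t th)
    (hfg.mono fun x hx => mul_le_mul_of_nonneg_right hx (Real.exp_pos _).le)) (zt_pos hb t th).le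

omit [IsProbabilityMeasure μ] in
lemma num_exp (t : ℝ) (th d : Rn n) (g : Rn n → ℝ) :
    num μ t th (fun x => Real.exp ⟪d, x⟫ * g x) = num μ t (th + d) g := by
  refine integral_congr_ae (ae_of_all _ fun x => ?_)
  show Real.exp ⟪d, x⟫ * g x * Real.exp (texp t th x) = g x * Real.exp (texp t (th + d) x)
  rw [show texp t (th + d) x = ⟪d, x⟫ + texp t th x by simp [texp, inner_add_left]; ring,
    Real.exp_add]
  ring

omit [IsProbabilityMeasure μ] in
lemma ex_exp (t : ℝ) (th d : Rn n) :
    ex μ t th (fun x => Real.exp ⟪d, x⟫) = zt μ t (th + d) / zt μ t th := by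
  have h := num_exp (μ := μ) t th d fun _ => 1
  simp only [mul_one] at h
  rw [ex, h]
  rfl

lemma bg_eq (hb : BddSupp μ) (t : ℝ) (th d : Rn n) :
    Bg μ t th d = Real.log (ex μ t th fun x => Real.exp ⟪d, x⟫) - ex μ t th (lin d) := by
  rw [ex_exp, Real.log_div (zt_pos hb t _).ne' (zt_pos hb t _).ne', Bg]

lemma exp_ex_le (hb : BddSupp μ) (t : ℝ) (th d : Rn n) :
    Real.exp (ex μ t th (lin d)) ≤ ex μ t th fun x => Real.exp ⟪d, x⟫ := by
  set m := ex μ t th (lin d)
  have e : ex μ t th (fun x => Real.exp m * (⟪d, x⟫ + (1 - m))) = Real.exp m := by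
    rw [ex_const_mul, ex_add hb (good_lin hb d) (Good.const _) t th, ex_const hb]
    simp [m]
  rw [← e]
  refine ex_mono hb (Good.of_continuous hb (by fun_prop)) (good_exp hb d)
    (ae_of_all _ fun x => ?_) t th
  have h1 := Real.add_one_le_exp (⟪d, x⟫ - m)
  calc Real.exp m * (⟪d, x⟫ + (1 - m)) ≤ Real.exp m * Real.exp (⟪d, x⟫ - m) :=
        mul_le_mul_of_nonneg_left (by linarith) (Real.exp_pos _).le
    _ = _ := by rw [← Real.exp_add]; ring_nf

lemma bg_nonneg (hb : BddSupp μ) (t : ℝ) (th d : Rn n) : 0 ≤ Bg μ t th d := by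
  rw [bg_eq hb]
  have h := Real.log_le_log (Real.exp_pos _) (exp_ex_le hb t th d)
  rw [Real.log_exp] at h
  linarith

omit [IsProbabilityMeasure μ] in
lemma exl_smul (t : ℝ) (th d : Rn n) (r : ℝ) :
    ex μ t th (lin (r • d)) = r * ex μ t th (lin d) := by
  rw [← ex_const_mul]
  exact congrArg (ex μ t th) (funext fun x => real_inner_smul_left _ _ _)

lemma exl_add (hb : BddSupp μ) (t : ℝ) (th d e : Rn n) :
    ex μ t th (lin (d + e)) = ex μ t th (lin d) + ex μ t th (lin e) := by
  rw [← ex_add hb (good_lin hb d) (good_lin hb e)]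
  exact congrArg (ex μ t th) (funext fun x => inner_add_left _ _ _)

omit [IsProbabilityMeasure μ] in
/-- Bregman divergences compose along a broken line. -/
lemma bg_chain (hl : ∀ th d e : Rn n, ∀ t,
      ex μ t th (lin (d + e)) = ex μ t th (lin d) + ex μ t th (lin e)) (t : ℝ) (th d e : Rn n) :
    Bg μ t th (d + e) = Bg μ t th d + Bg μ t (th + d) e
      + (ex μ t (th + d) (lin e) - ex μ t th (lin e)) := by
  have := hl th d e t
  simp only [Bg] at *
  rw [this, add_assoc th d e]
  ring

lemma exl_eq_sum (hb : BddSupp μ) (t : ℝ) (th d : Rn n) :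
    ex μ t th (lin d) = ∑ i, d i * ex μ t th fun x => x i := by
  simp only [← ex_const_mul]
  rw [← ex_sum hb _ fun i => (Good.const (d i)).mul (Good.coord hb i)]
  refine congrArg (ex μ t th) (funext fun x => ?_)
  simp [lin, PiLp.inner_apply, mul_comm]

/-- `BgBasic`. -/
theorem bgBasic : BgBasic := by
  intro n μ hμ hb t
  have hz : Continuous fun th => zt μ t th := by
    simp only [zt, num_eq]
    exact (contDiff_expInt hb (Good.const 1)).continuous.comp (continuous_const.prodMk continuous_id)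
  have hx : ∀ i, Continuous fun th => ex μ t th fun x => x i := fun i =>
    (contDiff_ex hb (Good.coord hb i)).continuous.comp (continuous_const.prodMk continuous_id)
  refine ⟨?_, fun th d => ⟨bg_nonneg hb t th d, fun r hr0 hr1 => ?_, ?_⟩⟩
  · have e : (fun p : Rn n × Rn n => Bg μ t p.1 p.2) = fun p =>
        Real.log (zt μ t (p.1 + p.2)) - Real.log (zt μ t p.1)
          - ∑ i, p.2 i * ex μ t p.1 (fun x => x i) := by
      funext p
      rw [Bg, ← exl_eq_sum hb]
    rw [e]
    refine (((hz.comp (continuous_fst.add continuous_snd)).log fun p => (zt_pos hb t _).ne').sub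
      ((hz.comp continuous_fst).log fun p => (zt_pos hb t _).ne')).sub ?_
    exact continuous_finsetSum _ fun i _ =>
      ((PiLp.continuous_apply 2 _ i).comp continuous_snd).mul ((hx i).comp continuous_fst)
  · have h1 := bg_chain (fun th d e t => exl_add hb t th d e) t th (r • d) ((1 - r) • d)
    have h2 := bg_chain (fun th d e t => exl_add hb t th d e) t th (r • d) (-r • d)
    rw [← add_smul, add_sub_cancel, one_smul] at h1
    rw [← add_smul, add_neg_cancel, zero_smul] at h2
    have h0 : Bg μ t th 0 = 0 := by simp [Bg, ex, num]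
    rw [h0] at h2
    simp only [exl_smul] at h1 h2
    have := bg_nonneg hb t (th + r • d) ((1 - r) • d)
    have := bg_nonneg hb t th (r • d)
    have := bg_nonneg hb t (th + r • d) (-r • d)
    rcases eq_or_lt_of_le hr0 with hr | hr
    · subst hr
      rw [zero_smul, h0]
      exact bg_nonneg hb t th d
    · have : ex μ t th (lin d) ≤ ex μ t (th + r • d) (lin d) := by nlinarith
      nlinarith
  · have h := bg_chain (fun th d e t => exl_add hb t th d e) t th d d
    rw [← two_smul ℝ d] at h
    have := bg_nonneg hb t (th + d) d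
    have := bg_nonneg hb t th d
    linarith

lemma hasDerivAt_shift {G : Rn n → ℝ} {p q : Rn n} {r v : ℝ}
    (h : HasDerivAt (fun s : ℝ => G (p + r • q + s • q)) v 0) :
    HasDerivAt (fun s : ℝ => G (p + s • q)) v r := by
  have h' : HasDerivAt (fun s : ℝ => G (p + r • q + s • q)) v (r - r) := by rwa [sub_self]
  refine (h'.comp_sub_const r r).congr_of_eventuallyEq (Eventually.of_forall fun s => ?_)
  show G (p + s • q) = G (p + r • q + (s - r) • q)
  rw [add_assoc, ← add_smul, add_sub_cancel]

/-- The log-Laplace transform of a tilt at time `w` is `1 / w`-smooth. -/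
lemma bg_upper (hslc : IsSLC 0 μ) (hb : BddSupp μ) {w : ℝ} (hw : 0 < w) (p q : Rn n) :
    Bg μ w p q ≤ ‖q‖ ^ 2 / (2 * w) := by
  set m : ℝ → ℝ := fun r => ex μ w (p + r • q) (lin q) with hmdef
  set c : ℝ := ‖q‖ ^ 2 / w with hc
  set φ : ℝ → ℝ := fun r => Real.log (zt μ w (p + r • q)) with hφdef
  have hφ : ∀ r, HasDerivAt φ (m r) r := by
    intro r
    refine hasDerivAt_shift (G := fun y => Real.log (zt μ w y)) ?_
    have h1 := hasDerivAt_num hb (Good.const (μ := μ) 1) w (p + r • q) 0 q
    simp only [mul_zero, add_zero, zero_div, zero_mul, sub_zero, one_mul] at h1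
    refine (h1.log (by simpa [zt] using (zt_pos hb w (p + r • q)).ne')).congr_deriv ?_
    simp [hmdef, ex, zt]
  have hm : ∀ r, HasDerivAt m (cv μ w (p + r • q) (lin q) (lin q)) r := by
    intro r
    refine hasDerivAt_shift (G := fun y => ex μ w y (lin q)) ?_
    have h1 := hasDerivAt_ex hb (good_lin hb q) w (p + r • q) 0 q
    simpa using h1
  have hcv : ∀ r : ℝ, cv μ w (p + r • q) (lin q) (lin q) ≤ c := by
    intro r
    obtain ⟨hP, hB, hS, hI⟩ := tiltSLC n 0 w (p + r • q) μ inferInstance hb hslc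
    have h := linVarSLC n w (tilt μ w (p + r • q)) hP hw (by simpa using hS) hB q
    rw [one_div, inv_mul_eq_div] at h
    refine le_trans (le_of_eq ?_) h
    set m' := ex μ w (p + r • q) (lin q) with hm'
    have e1 : ∫ y, ⟪y, q⟫ ∂tilt μ w (p + r • q) = m' := by
      rw [hI]; exact congrArg (ex μ w _) (funext fun y => real_inner_comm _ _)
    rw [vr, e1, hI]
    have e2 : (fun x => (⟪x, q⟫ - m') ^ 2)
        = fun x => lin q x * lin q x + ((-2 * m') * lin q x + m' ^ 2) := by
      funext x; simp only [lin, real_inner_comm x q]; ring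
    rw [e2, ex_add hb ((good_lin hb q).mul (good_lin hb q)) (Good.of_continuous hb (by fun_prop)),
      ex_add hb ((Good.const _).mul (good_lin hb q)) (Good.const _), ex_const_mul, ex_const hb, cv,
      ← hm']
    ring
  have hχ : Antitone fun r => m r - c * r := by
    refine antitone_of_deriv_nonpos (fun r => ((hm r).sub
      ((hasDerivAt_id' r).const_mul c)).differentiableAt) fun r => ?_
    rw [((hm r).fun_sub ((hasDerivAt_id' r).const_mul c)).deriv]
    linarith [hcv r]
  have hψ : AntitoneOn (fun r => φ r - m 0 * r - c / 2 * r ^ 2) (Set.Icc 0 1) := by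
    have hd : ∀ r, HasDerivAt (fun r => φ r - m 0 * r - c / 2 * r ^ 2) (m r - m 0 - c * r) r := by
      intro r
      refine (((hφ r).fun_sub ((hasDerivAt_id' r).const_mul (m 0))).fun_sub
        ((hasDerivAt_pow 2 r).const_mul (c / 2))).congr_deriv ?_
      push_cast
      ring
    refine antitoneOn_of_deriv_nonpos (convex_Icc 0 1)
      (fun r _ => (hd r).continuousAt.continuousWithinAt)
      (fun r _ => (hd r).differentiableAt.differentiableWithinAt) fun r hr => ?_
    rw [interior_Icc] at hr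
    rw [(hd r).deriv]
    have := hχ hr.1.le
    simp only [mul_zero, sub_zero] at this
    linarith
  have := hψ (Set.left_mem_Icc.2 zero_le_one) (Set.right_mem_Icc.2 zero_le_one) zero_le_one
  simp only [hφdef, hmdef, zero_smul, add_zero, one_smul, mul_zero, mul_one, sub_zero, one_pow,
    zero_pow two_ne_zero] at this
  rw [Bg, show ‖q‖ ^ 2 / (2 * w) = c / 2 by rw [hc]; ring]
  linarith

/-- The change of the mean along `d` is controlled by the Bregman divergence. -/
lemma mean_shift (hslc : IsSLC 0 μ) (hb : BddSupp μ) {w : ℝ} (hw : 0 < w) (th d : Rn n) :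
    w * ∑ i, (ex μ w (th + d) (fun x => x i) - ex μ w th (fun x => x i)) ^ 2
      ≤ 2 * Bg μ w th d := by
  set e : Rn n := WithLp.toLp 2
    fun i => ex μ w (th + d) (fun x => x i) - ex μ w th (fun x => x i) with he
  have hk : ∀ v : Rn n, ex μ w (th + d) (lin v) - ex μ w th (lin v) = ⟪v, e⟫ := by
    intro v
    rw [exl_eq_sum hb, exl_eq_sum hb, ← Finset.sum_sub_distrib]
    simp [PiLp.inner_apply, he, mul_comm, mul_sub]
  have hs : ∑ i, (ex μ w (th + d) (fun x => x i) - ex μ w th (fun x => x i)) ^ 2 = ‖e‖ ^ 2 := by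
    rw [EuclideanSpace.real_norm_sq_eq]
  have h1 := bg_chain (fun th d e t => exl_add hb t th d e) w th d (-w • e)
  rw [hk, real_inner_smul_left, real_inner_self_eq_norm_sq] at h1
  have h2 := bg_upper hslc hb hw (th + d) (-w • e)
  rw [norm_smul, mul_pow, Real.norm_eq_abs, sq_abs, neg_sq,
    show w ^ 2 * ‖e‖ ^ 2 / (2 * w) = w * ‖e‖ ^ 2 / 2 by field_simp] at h2
  have h3 := bg_nonneg hb w th (d + -w • e)
  rw [hs]
  linarith

lemma nice_ex (hb : BddSupp μ) {h : Rn n → ℝ} (hh : Good μ h) :
    M5.Nice fun v η => ex μ v η h := by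
  have bd : ∀ g : Rn n → ℝ, Good μ g → M5.Bd fun v η => ex μ v η g := fun g hg => by
    obtain ⟨C, hC⟩ := hg.2
    exact ⟨C, fun v η => abs_ex_le hb (hC.mono fun x hx => by simpa using hx) v η⟩
  have bc : ∀ f g : Rn n → ℝ, Good μ f → Good μ g → M5.Bd fun v η => cv μ v η f g :=
    fun f g hf hg => ((bd _ (hf.mul hg)).add ((M5.Bd.const (-1)).mul ((bd f hf).mul (bd g hg)))).of_eq
      fun v η => by simp only [cv]; ring
  have hc := fun i => Good.coord hb (μ := μ) i
  have hsq : Good μ fun x : Rn n => ‖x‖ ^ 2 := Good.of_continuous hb (by fun_prop)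
  exact ⟨contDiff_ex hb hh, bd h hh,
    ((M5.Bd.const (-(2⁻¹ : ℝ))).mul (bc h _ hh hsq)).of_eq fun v η => dt_ex hb hh v η,
    fun i => (bc h _ hh (hc i)).of_eq fun v η => D1_ex hb hh v η i,
    fun i => ((bc h _ hh ((hc i).mul (hc i))).add
      ((M5.Bd.const (-2)).mul ((bd _ (hc i)).mul (bc h _ hh (hc i))))).of_eq fun v η => by
        rw [D2_ex hb hh]; ring⟩

/-- The generator of the Bregman divergence. -/
lemma bg_gen (hb : BddSupp μ) (d : Rn n) :
    M5.Nice (fun v η => Bg μ v η d) ∧ ∀ v η, gen μ (fun v η => Bg μ v η d) v η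
      = -(2⁻¹) * ∑ i, (ex μ v (η + d) (fun x => x i) - ex μ v η (fun x => x i)) ^ 2 := by
  obtain ⟨R, hR⟩ := hb
  have hb : BddSupp μ := ⟨R, hR⟩
  set c := Real.exp (‖d‖ * |R|) with hc
  have hc0 : 0 < c := Real.exp_pos _
  set h : Rn n → ℝ := fun x => c * Real.exp ⟪d, x⟫ with hh
  have hg : Good μ h := Good.of_continuous hb (by fun_prop)
  have h1 : ∀ v η, 1 ≤ ex μ v η h := fun v η => by
    rw [← ex_const hb 1 v η]
    refine ex_mono hb (Good.const 1) hg (hR.mono fun x hx => ?_) v η
    simp only [hh, hc, ← Real.exp_add]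
    refine Real.one_le_exp ?_
    have := (abs_real_inner_le_norm d x).trans
      (mul_le_mul_of_nonneg_left (hx.trans (le_abs_self R)) (norm_nonneg d))
    linarith [(abs_le.1 this).1]
  have hL := M5.comp_rules (μ := μ) (f := fun v η => ex μ v η h) (φ := Real.log)
    (φ₁ := fun x => x⁻¹) (φ₂ := fun x => -(x ^ 2)⁻¹) (nice_ex hb hg) h1
    (fun x hx => Real.hasDerivAt_log hx.ne') (fun x hx => hasDerivAt_inv hx.ne')
    (fun x hx => Real.contDiffAt_log.2 hx.ne')
    (((continuous_pow 2).continuousOn.inv₀ fun x hx => pow_ne_zero _ (ne_of_gt hx)).neg)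
  have hx : ∀ i, M5.Nice fun v η => (-d i) * ex μ v η fun x => x i := fun i =>
    (M5.Nice.const (-d i)).mul (nice_ex hb (Good.coord hb i))
  have hgx : ∀ i v η, gen μ (fun v η => (-d i) * ex μ v η fun x => x i) v η = 0 := fun i v η => by
    rw [M5.gen_mul (M5.Nice.const (-d i)) (nice_ex hb (Good.coord hb i)), M5.gen_const,
      gen_ex hb (Good.coord hb i)]
    simp [D1]
  have hS := M5.sum_rules (μ := μ) hx Finset.univ
  have hA := hL.1.add (M5.Nice.const (-Real.log c))
  have e : (fun v η => Bg μ v η d) = fun v η => (Real.log (ex μ v η h) + -Real.log c)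
      + ∑ i, (-d i) * ex μ v η fun x => x i := by
    funext v η
    rw [bg_eq hb, hh, ex_const_mul, Real.log_mul hc0.ne'
      ((Real.exp_pos _).trans_le (exp_ex_le hb v η d)).ne', exl_eq_sum hb]
    simp only [neg_mul, Finset.sum_neg_distrib]
    ring
  rw [e]
  refine ⟨hA.add hS.1, fun v η => ?_⟩
  have hp : ex μ v η h ≠ 0 := (lt_of_lt_of_le one_pos (h1 v η)).ne'
  have hD : ∀ i, D1 i (fun q => ex μ v q h) η
      = ex μ v η h * (ex μ v (η + d) (fun x => x i) - ex μ v η (fun x => x i)) := by
    intro i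
    have z0 := (zt_pos hb v η).ne'
    have z1 := (zt_pos hb v (η + d)).ne'
    rw [D1_ex hb hg, cv, mul_sub]
    congr 1
    simp only [hh, mul_assoc, ex_const_mul, ex_exp]
    congr 1
    rw [ex, num_exp, ex]
    field_simp
  rw [M5.gen_add hA hS.1, (hS.2 v η).1, M5.gen_add hL.1 (M5.Nice.const _), M5.gen_const, hL.2,
    gen_ex hb hg, Finset.sum_eq_zero fun i _ => hgx i v η]
  simp only [hD, mul_pow, ← Finset.mul_sum]
  field_simp
  ring

omit [IsProbabilityMeasure μ] in
lemma num_tilt (t v : ℝ) (th η : Rn n) (h : Rn n → ℝ) :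
    num (tilt μ t th) v η h = num μ (t + v) (th + η) h / zt μ t th := by
  simp only [num, tilt, zt]
  rw [integral_tilted, ← integral_div]
  refine integral_congr_ae (ae_of_all _ fun x => ?_)
  simp only [smul_eq_mul, one_mul]
  rw [show texp (t + v) (th + η) x = texp t th x + texp v η x by
    simp [texp, inner_add_left]; ring, Real.exp_add]
  ring

lemma ex_tilt (hb : BddSupp μ) (t v : ℝ) (th η : Rn n) (h : Rn n → ℝ) :
    ex (tilt μ t th) v η h = ex μ (t + v) (th + η) h := by
  simp only [ex, zt, num_tilt]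
  have := (zt_pos hb t th).ne'
  simp only [zt] at this
  field_simp

/-- `BregTransfer`. -/
theorem bregTransfer : BregTransfer := by
  intro n μ hμ hslc hb t u ht htu th d
  obtain ⟨hP, hB, -, hI⟩ := tiltSLC n 0 t th μ hμ hb hslc
  set ν := tilt μ t th with hν
  have hbg : ∀ v η, Bg ν v η d = Bg μ (t + v) (th + η) d := fun v η => by
    rw [bg_eq hB, bg_eq hb, ex_tilt hb, ex_tilt hb]
  set G : ℝ → Rn n → ℝ := fun v η => Bg ν v η d with hG
  obtain ⟨hN, hgen⟩ := bg_gen hB (μ := ν) d
  set T : ℝ := u - t + 1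
  have hT : 0 < T := by linarith
  obtain ⟨hcont, hder⟩ := generator_aux hB hT (hN.admissible T)
  set Φ : ℝ → ℝ := fun v => ∫ η, G v η ∂(obs ν v) with hΦ
  have hmono : MonotoneOn (fun v => (t + v) * Φ v) (Set.Icc 0 T) := by
    refine monotoneOn_of_deriv_nonneg (convex_Icc 0 T)
      ((continuousOn_const.add continuousOn_id).mul hcont) ?_ ?_
    all_goals intro v hv; rw [interior_Icc] at hv
    · exact (((hasDerivAt_id' v).const_add t).mul (hder v hv)).differentiableAt.differentiableWithinAt
    · rw [(((hasDerivAt_id' v).const_add t).fun_mul (hder v hv)).deriv, one_mul]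
      have := obs_prob (μ := ν) v
      obtain ⟨hgc, C, hC⟩ := M5.gen_bounded (μ := ν) hN
        (fun i => (nice_ex hB (Good.coord hB i)).b0)
        (fun i s => (nice_ex hB (Good.coord hB i)).continuous_space s) v
      obtain ⟨D, hD⟩ := hN.b0
      have i1 : Integrable (G v) (obs ν v) :=
        Integrable.of_bound (hN.continuous_space v).aestronglyMeasurable D
          (ae_of_all _ fun η => hD v η)
      have i2 : Integrable (fun η => (t + v) * gen ν G v η) (obs ν v) :=
        (Integrable.of_bound hgc.aestronglyMeasurable C (ae_of_all _ fun η => hC η)).const_mul _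
      rw [hΦ, ← integral_const_mul, ← integral_add i1 i2]
      refine integral_nonneg fun η => ?_
      show 0 ≤ G v η + (t + v) * gen ν (fun v η => Bg ν v η d) v η
      rw [hgen, hG]
      simp only [hbg]
      simp only [hν, ex_tilt hb]
      have := mean_shift hslc hb (w := t + v) (by linarith [hv.1]) (th + η) d
      rw [← add_assoc th η d]
      nlinarith
  have h0 := hmono (Set.left_mem_Icc.2 hT.le) (show u - t ∈ Set.Icc 0 T from
    ⟨by linarith, by linarith⟩) (by linarith : (0:ℝ) ≤ u - t)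
  simp only [hΦ, add_zero, obs_zero, integral_dirac, add_sub_cancel] at h0
  have hend : ∫ η, G (u - t) η ∂(obs ν (u - t)) = step μ t (u - t) th fun q => Bg μ u q d := by
    rw [M2.integral_obs (hN.continuous_space _).measurable]
    obtain ⟨D, hD⟩ := hN.b0
    refine (integral_prod _ (Integrable.of_bound
      ((hN.continuous_space (u - t)).comp (by fun_prop)).aestronglyMeasurable D
      (ae_of_all _ fun p => hD _ _))).trans ?_
    rw [hI]
    refine congrArg (ex μ t th) (funext fun x => integral_congr_ae (ae_of_all _ fun z => ?_))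
    simp only [hG, hbg, add_sub_cancel, add_assoc, Function.comp_apply]
  rw [hend] at h0
  simp only [hG, hbg, add_zero] at h0
  rw [div_mul_eq_mul_div, le_div_iff₀ ht]
  linarith

lemma subG_exp (hb : BddSupp μ) (hS : SubG μ) (w : Rn n) :
    ∫ x, Real.exp ⟪w, x⟫ ∂μ ≤ 4 * Real.exp (‖w‖ ^ 2 / 4) := by
  rcases eq_or_ne w 0 with rfl | hw
  · simp
  set v : Rn n := ‖w‖⁻¹ • w
  have hw0 : 0 < ‖w‖ := norm_pos_iff.2 hw
  have hv : ‖v‖ = 1 := by rw [norm_smul, norm_inv, norm_norm, inv_mul_cancel₀ hw0.ne']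
  have hi : Integrable (fun x => Real.exp (⟪x, v⟫ ^ 2)) μ := M5.integrable_bdd hb (by fun_prop)
  have h4 : ∫ x, Real.exp (⟪x, v⟫ ^ 2) ∂μ ≤ 4 := by
    have h := hS v hv
    rw [← ofReal_integral_eq_lintegral_ofReal hi (ae_of_all _ fun x => (Real.exp_pos _).le),
      show (4 : ENNReal) = ENNReal.ofReal 4 by simp] at h
    exact (ENNReal.ofReal_le_ofReal_iff (by norm_num)).1 h
  refine (integral_mono (M5.integrable_bdd hb (by fun_prop))
    (hi.mul_const (Real.exp (‖w‖ ^ 2 / 4))) fun x => ?_).trans ?_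
  · show _ ≤ _ * _
    rw [← Real.exp_add, Real.exp_le_exp]
    have : ⟪w, x⟫ = ‖w‖ * ⟪x, v⟫ := by
      simp only [v, real_inner_smul_right, real_inner_comm w x]
      field_simp
    rw [this]
    nlinarith [sq_nonneg (⟪x, v⟫ - ‖w‖ / 2)]
  · rw [integral_mul_const]
    exact mul_le_mul_of_nonneg_right h4 (Real.exp_pos _).le

/-- `BregInit`. -/
theorem bregInit : BregInit := by
  intro n μ hμ hb hS u hu d
  have := obs_prob (μ := μ) u
  set m := ∫ x, Real.exp ⟪d, x⟫ ∂μ with hmdef
  set a := ∫ x, lin d x ∂μ with hadef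
  obtain ⟨hNb, -⟩ := bg_gen hb (μ := μ) d
  obtain ⟨D, hD⟩ := hNb.b0
  have hmeas := (hNb.continuous_space u).measurable
  have hstep : step μ 0 u 0 (fun q => Bg μ u q d) = ∫ th, Bg μ u th d ∂(obs μ u) := by
    have h := obsStep n μ hμ hb 0 u le_rfl hu (fun q => Bg μ u q d) hmeas ⟨D, hD u⟩
    rwa [obs_zero, integral_dirac, zero_add] at h
  rw [hstep]
  have hE := nice_ex hb (good_exp hb d)
  have hA := nice_ex hb (good_lin hb d)
  obtain ⟨E, hE0⟩ := hE.b0
  obtain ⟨A, hA0⟩ := hA.b0
  have iB : Integrable (fun th => Bg μ u th d) (obs μ u) :=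
    Integrable.of_bound hmeas.aestronglyMeasurable D (ae_of_all _ fun th => hD u th)
  have iE : Integrable (fun th => ex μ u th fun x => Real.exp ⟪d, x⟫) (obs μ u) :=
    Integrable.of_bound (hE.continuous_space u).aestronglyMeasurable E
      (ae_of_all _ fun th => hE0 u th)
  have iA : Integrable (fun th => ex μ u th (lin d)) (obs μ u) :=
    Integrable.of_bound (hA.continuous_space u).aestronglyMeasurable A
      (ae_of_all _ fun th => hA0 u th)
  have hmean : ∀ g : Rn n → ℝ, Continuous g →
      ∫ th, ex μ u th g ∂(obs μ u) = ∫ x, g x ∂μ := by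
    intro g hg
    obtain ⟨C, hC⟩ := (Good.of_continuous hb hg).2
    rw [mix hb hu (H := fun _ x => g x) (hg.measurable.comp measurable_snd) (C := C)
      (hC.mono fun x hx _ => by simpa using hx), integral_fun_fst]
    simp
  have hm : Real.exp a ≤ m := by simpa only [ex_zero] using exp_ex_le hb 0 0 d
  have hm0 : 0 < m := (Real.exp_pos _).trans_le hm
  have hneg : Real.exp (-a) ≤ ∫ x, Real.exp ⟪-d, x⟫ ∂μ := by
    have h := exp_ex_le hb 0 0 (-d)
    simpa only [ex_zero, lin, inner_neg_left, integral_neg] using h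
  have hle : ∫ th, Bg μ u th d ∂(obs μ u) ≤ Real.log m - a := by
    refine (integral_mono iB (g := fun th => (Real.log m + (m⁻¹ *
      (ex μ u th fun x => Real.exp ⟪d, x⟫) + -1)) - ex μ u th (lin d))
      (((integrable_const _).add ((iE.const_mul _).add (integrable_const _))).sub iA)
      fun th => ?_).trans ?_
    · show Bg μ u th d ≤ _
      rw [bg_eq hb]
      have hp := (Real.exp_pos _).trans_le (exp_ex_le hb u th d)
      have := Real.log_le_sub_one_of_pos (mul_pos (inv_pos.2 hm0) hp)
      rw [Real.log_mul (inv_pos.2 hm0).ne' hp.ne', Real.log_inv] at this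
      linarith
    · rw [integral_sub (by exact (integrable_const _).add ((iE.const_mul _).add (integrable_const _))) iA,
        integral_add (integrable_const _) (by exact (iE.const_mul _).add (integrable_const _)),
        integral_add (iE.const_mul _) (integrable_const _), integral_const_mul,
        hmean _ (by fun_prop), hmean _ (by fun_prop), inv_mul_cancel₀ hm0.ne']
      simp [hadef]
  have hlog : ∀ {y : ℝ}, y ≤ 4 * Real.exp (‖d‖ ^ 2 / 4) → 0 < y →
      Real.log y ≤ 3 / 2 + ‖d‖ ^ 2 / 4 := by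
    intro y hy hy0
    have := Real.log_le_log hy0 hy
    rw [Real.log_mul (by norm_num) (Real.exp_pos _).ne', Real.log_exp,
      show (4 : ℝ) = 2 ^ 2 by norm_num, Real.log_pow] at this
    have := Real.log_two_lt_d9
    push_cast at *
    linarith
  have h1 := hlog (subG_exp hb hS d) hm0
  have h2' := subG_exp hb hS (-d)
  rw [norm_neg] at h2'
  have h2 := hlog (hneg.trans h2') (Real.exp_pos _)
  rw [Real.log_exp] at h2
  linarith [sq_nonneg ‖d‖]

end Vale.Agent.P245.Poly
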