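import Vale.Agent.P245.Poly.Defs
import Vale.Agent.P245.M2.Mix
import Vale.Agent.P245.SLC.Basic

/-!
# P245 polylog: the tilt process on a grid, and its Markov property
-/

namespace Vale.Agent.P245.Poly

open MeasureTheory ProbabilityTheory Filter Topology
open scoped RealInnerProductSpace ENNReal

namespace Chain

variable {n : ℕ} {μ : Measure (Rn n)} [IsProbabilityMeasure μ]

lemma tilt_prob (hb : BddSupp μ) (t : ℝ) (th : Rn n) : IsProbabilityMeasure (tilt μ t th) := by
  refine isProbabilityMeasure_tilted ?_
  simpa using M2.integrable_num hb (M2.Good.const (μ := μ) 1) t th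

omit [IsProbabilityMeasure μ] in
lemma tilt_bdd (hb : BddSupp μ) (t : ℝ) (th : Rn n) : BddSupp (tilt μ t th) := by
  obtain ⟨R, hR⟩ := hb
  exact ⟨R, (tilted_absolutelyContinuous μ _).ae_le hR⟩

omit [IsProbabilityMeasure μ] in
lemma tilt_int (t : ℝ) (th : Rn n) (f : Rn n → ℝ) :
    ∫ x, f x ∂tilt μ t th = ex μ t th f := by
  unfold tilt ex zt num
  rw [integral_tilted]
  simp only [smul_eq_mul, one_mul]
  rw [← integral_div]
  exact integral_congr_ae (ae_of_all _ fun x => by ring)

omit [IsProbabilityMeasure μ] in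
lemma num_tilt (t v : ℝ) (th η : Rn n) (f : Rn n → ℝ) :
    num (tilt μ t th) v η f = num μ (t + v) (th + η) f / zt μ t th := by
  simp only [num, tilt, zt, one_mul]
  rw [integral_tilted, ← integral_div]
  refine integral_congr_ae (ae_of_all _ fun x => ?_)
  have e : texp (t + v) (th + η) x = texp t th x + texp v η x := by
    simp only [texp, inner_add_left]; ring
  simp only [smul_eq_mul, e, Real.exp_add]
  ring

/-- Tilts compose. -/
lemma ex_tilt (hb : BddSupp μ) (t v : ℝ) (th η : Rn n) (f : Rn n → ℝ) :
    ex (tilt μ t th) v η f = ex μ (t + v) (th + η) f := by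
  simp only [ex, zt, num_tilt]
  exact div_div_div_cancel_right₀ (M2.zt_pos hb t th).ne' _ _

lemma abs_ex_le (hb : BddSupp μ) {f : Rn n → ℝ} {C : ℝ} (hC : ∀ x, |f x| ≤ C) (t : ℝ) (th : Rn n) :
    |ex μ t th f| ≤ C :=
  M2.abs_ex_le hb (ae_of_all _ hC) t th

omit [IsProbabilityMeasure μ] in
lemma measurable_ex_param [SFinite μ] {α : Type*} [MeasurableSpace α] {T : α → Rn n}
    (hT : Measurable T) {H : α → Rn n → ℝ} (hH : Measurable (Function.uncurry H)) (t : ℝ) :
    Measurable fun a => ex μ t (T a) (H a) := by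
  have key : ∀ {K : α → Rn n → ℝ}, Measurable (Function.uncurry K) →
      Measurable fun a => num μ t (T a) (K a) := by
    intro K hK
    have hm : Measurable fun p : α × Rn n => K p.1 p.2 * Real.exp (texp t (T p.1) p.2) :=
      hK.mul (by unfold texp; fun_prop)
    have hs : StronglyMeasurable (Function.uncurry fun a x => K a x * Real.exp (texp t (T a) x)) :=
      hm.stronglyMeasurable
    exact hs.integral_prod_right.measurable
  exact (key hH).div (key measurable_const)

omit [IsProbabilityMeasure μ] in
lemma measurable_step_param [SFinite μ] {α : Type*} [MeasurableSpace α] {T : α → Rn n}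
    (hT : Measurable T) {G : α → Rn n → ℝ} (hG : Measurable (Function.uncurry G)) (t h : ℝ) :
    Measurable fun a => step μ t h (T a) (G a) := by
  have hm : Measurable fun q : (α × Rn n) × Rn n =>
      G q.1.1 (T q.1.1 + h • q.1.2 + Real.sqrt h • q.2) :=
    hG.comp ((measurable_fst.comp measurable_fst).prodMk
      ((hT.comp (measurable_fst.comp measurable_fst)).add
        ((measurable_snd.comp measurable_fst).const_smul h) |>.add
        (measurable_snd.const_smul (Real.sqrt h))))
  have hs : StronglyMeasurable (Function.uncurry fun (p : α × Rn n) z =>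
      G p.1 (T p.1 + h • p.2 + Real.sqrt h • z)) := hm.stronglyMeasurable
  exact measurable_ex_param (H := fun a x => ∫ z, G a (T a + h • x + Real.sqrt h • z) ∂gam n) hT
    hs.integral_prod_right.measurable t

lemma abs_step_le (hb : BddSupp μ) {f : Rn n → ℝ} {C : ℝ} (hC : ∀ x, |f x| ≤ C) (t h : ℝ)
    (th : Rn n) : |step μ t h th f| ≤ C := by
  refine abs_ex_le hb (fun x => ?_) t th
  simpa using norm_integral_le_of_norm_le_const (μ := gam n)
    (f := fun z => f (th + h • x + Real.sqrt h • z)) (ae_of_all _ fun z => hC _)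

/-- The mixture identity over one step. -/
lemma ex_step (hb : BddSupp μ) {u h : ℝ} (hh : 0 < h) (th : Rn n) {H : Rn n → Rn n → ℝ}
    (hm : Measurable (Function.uncurry H)) {C : ℝ} (hC : ∀ q x, |H q x| ≤ C) :
    ex μ u th (fun x => ∫ z, H (th + h • x + Real.sqrt h • z) x ∂gam n)
      = step μ u h th fun q => ex μ (u + h) q (H q) := by
  have := tilt_prob hb u th
  have hbt := tilt_bdd hb u th
  set ν := tilt μ u th with hν
  set H' : Rn n → Rn n → ℝ := fun η x => H (th + η) x with hH'
  have hm' : Measurable (Function.uncurry H') :=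
    hm.comp ((measurable_fst.const_add th).prodMk measurable_snd)
  obtain ⟨hi, heq⟩ := M2.mixture_ae hbt hh hm' (C := C) (ae_of_all _ fun x q => hC _ x)
  have hg : Measurable fun η => ex ν h η (H' η) := measurable_ex_param measurable_id hm' h
  have hθ : Measurable fun p : Rn n × Rn n => h • p.1 + Real.sqrt h • p.2 := by fun_prop
  have hi2 : Integrable (fun p : Rn n × Rn n =>
      ex ν h (h • p.1 + Real.sqrt h • p.2) (H' (h • p.1 + Real.sqrt h • p.2))) (ν.prod (gam n)) :=
    Integrable.of_bound (hg.comp hθ).aestronglyMeasurable C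
      (ae_of_all _ fun p => abs_ex_le hbt (fun x => hC _ x) _ _)
  unfold obs at heq
  rw [integral_map hθ.aemeasurable hg.aestronglyMeasurable, integral_prod _ hi,
    integral_prod _ hi2] at heq
  simp only [hH', ← add_assoc, hν, tilt_int, ex_tilt hb] at heq
  exact heq

variable (μ) in
/-- The law of `(X, increments of the noise)`. -/
noncomputable def law (N : ℕ) : Measure (Rn n × (Fin N → Rn n)) :=
  μ.prod (Measure.pi fun _ => gam n)

instance (N : ℕ) : IsProbabilityMeasure (law μ N) := by
  unfold law; infer_instance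

/-- The tilt process at the grid time `j * h`. -/
noncomputable def pth {N : ℕ} (h : ℝ) (p : Rn n × (Fin N → Rn n)) (j : ℕ) : Rn n :=
  ((j : ℝ) * h) • p.1 + Real.sqrt h • ∑ i ∈ Finset.univ.filter (fun i : Fin N => (i : ℕ) < j), p.2 i

/-- The process up to time `j * h`. -/
noncomputable def pre {N : ℕ} (h : ℝ) (p : Rn n × (Fin N → Rn n)) (j : ℕ) : Fin (j + 1) → Rn n :=
  fun k => pth h p k

variable {N : ℕ} {h : ℝ}

omit [IsProbabilityMeasure μ] in
lemma pth_zero (p : Rn n × (Fin N → Rn n)) : pth h p 0 = 0 := by simp [pth]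

omit [IsProbabilityMeasure μ] in
lemma pth_succ (p : Rn n × (Fin N → Rn n)) {j : ℕ} (hj : j < N) :
    pth h p (j + 1) = pth h p j + h • p.1 + Real.sqrt h • p.2 ⟨j, hj⟩ := by
  have e : Finset.univ.filter (fun i : Fin N => (i : ℕ) < j + 1)
      = insert ⟨j, hj⟩ (Finset.univ.filter fun i : Fin N => (i : ℕ) < j) := by
    ext i
    simp [Fin.ext_iff]
    omega
  simp only [pth, e]
  rw [Finset.sum_insert (by simp), smul_add, Nat.cast_add, Nat.cast_one, add_mul, one_mul, add_smul]
  abel

omit [IsProbabilityMeasure μ] in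
lemma pth_update (x : Rn n) (z : Fin N → Rn n) (w : Rn n) (i : Fin N) {k : ℕ} (hk : k ≤ i) :
    pth h (x, Function.update z i w) k = pth h (x, z) k := by
  unfold pth
  congr 2
  refine Finset.sum_congr rfl fun l hl => ?_
  rw [Finset.mem_filter] at hl
  exact Function.update_of_ne (fun e => by subst e; omega) _ _

@[fun_prop]
lemma measurable_pth (j : ℕ) : Measurable fun p : Rn n × (Fin N → Rn n) => pth h p j := by
  unfold pth; fun_prop

@[fun_prop]
lemma measurable_pre (j : ℕ) : Measurable fun p : Rn n × (Fin N → Rn n) => pre h p j :=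
  measurable_pi_lambda _ fun _ => measurable_pth _

/-- Refreshing one increment. -/
lemma mp_update (i : Fin N) :
    MeasurePreserving (fun q : (Fin N → Rn n) × Rn n => Function.update q.1 i q.2)
      ((Measure.pi fun _ => gam n).prod (gam n)) (Measure.pi fun _ => gam n) := by
  classical
  have hm : Measurable fun q : (Fin N → Rn n) × Rn n => Function.update q.1 i q.2 :=
    measurable_update'.comp measurable_id
  refine ⟨hm, (Measure.pi_eq fun s hs => ?_).symm⟩
  rw [Measure.map_apply hm (MeasurableSet.univ_pi hs)]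
  have e : (fun q : (Fin N → Rn n) × Rn n => Function.update q.1 i q.2) ⁻¹' Set.pi Set.univ s
      = (Set.pi Set.univ (Function.update s i Set.univ)) ×ˢ s i := by
    ext ⟨z, w⟩
    simp only [Set.mem_preimage, Set.mem_pi, Set.mem_univ, true_implies, Set.mem_prod]
    constructor
    · intro hz
      refine ⟨fun l => ?_, by simpa using hz i⟩
      by_cases hl : l = i
      · subst hl; simp
      · simpa [hl] using hz l
    · rintro ⟨hz, hw⟩ l
      by_cases hl : l = i
      · subst hl; simpa using hw
      · simpa [hl] using hz l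
  rw [e, Measure.prod_prod, Measure.pi_pi, ← Finset.prod_erase_mul _ _ (Finset.mem_univ i),
    ← Finset.prod_erase_mul (s := Finset.univ) (f := fun l => gam n (s l)) (h := Finset.mem_univ i)]
  congr 1
  rw [Function.update_self, measure_univ, mul_one]
  exact Finset.prod_congr rfl fun l hl => by
    rw [Function.update_of_ne (Finset.ne_of_mem_erase hl)]

lemma integrable_of_bdd {α : Type*} [MeasurableSpace α] {ν : Measure α} [IsFiniteMeasure ν]
    {f : α → ℝ} (hf : Measurable f) {C : ℝ} (hC : ∀ a, |f a| ≤ C) : Integrable f ν :=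
  Integrable.of_bound hf.aestronglyMeasurable C (ae_of_all _ hC)

/-- Integrating out the last increment. -/
lemma integral_last {j : ℕ} (hj : j < N)
    {G : (Fin (j + 1) → Rn n) → Rn n → Rn n → ℝ}
    (hG : Measurable fun q : ((Fin (j + 1) → Rn n) × Rn n) × Rn n => G q.1.1 q.1.2 q.2) {C : ℝ}
    (hC : ∀ p q x, |G p q x| ≤ C) :
    ∫ p, G (pre h p j) (pth h p (j + 1)) p.1 ∂law μ N
      = ∫ p, (∫ z, G (pre h p j) (pth h p j + h • p.1 + Real.sqrt h • z) p.1 ∂gam n) ∂law μ N := by
  have mp : MeasurePreserving (fun q : (Rn n × (Fin N → Rn n)) × Rn n =>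
      (q.1.1, Function.update q.1.2 ⟨j, hj⟩ q.2)) ((law μ N).prod (gam n)) (law μ N) :=
    ((MeasurePreserving.id μ).prod (mp_update (n := n) (⟨j, hj⟩ : Fin N))).comp
      (measurePreserving_prodAssoc μ (Measure.pi fun _ => gam n) (gam n))
  have hm : Measurable fun p : Rn n × (Fin N → Rn n) => G (pre h p j) (pth h p (j + 1)) p.1 :=
    hG.comp (((measurable_pre j).prodMk (measurable_pth _)).prodMk measurable_fst)
  conv_lhs => rw [← mp.map_eq]
  rw [integral_map mp.aemeasurable hm.aestronglyMeasurable,
    integral_prod (f := fun q : (Rn n × (Fin N → Rn n)) × Rn n =>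
      G (pre h (q.1.1, Function.update q.1.2 ⟨j, hj⟩ q.2) j)
        (pth h (q.1.1, Function.update q.1.2 ⟨j, hj⟩ q.2) (j + 1)) q.1.1)
      (integrable_of_bdd (hm.comp mp.measurable) fun q => hC _ _ _)]
  refine integral_congr_ae (ae_of_all _ fun p => integral_congr_ae (ae_of_all _ fun w => ?_))
  obtain ⟨x, z⟩ := p
  have hp : pre h (x, Function.update z ⟨j, hj⟩ w) j = pre h (x, z) j :=
    funext fun k => pth_update (n := n) x z w ⟨j, hj⟩ (Nat.lt_succ_iff.1 k.2)
  simp only [hp, pth_succ _ hj, pth_update x z w ⟨j, hj⟩ le_rfl, Function.update_self]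

/-- Given the past, `X` has the tilted law; the next state has the law of one step. -/
lemma markov (hb : BddSupp μ) (hh : 0 < h) : ∀ j : ℕ,
    (j ≤ N → ∀ (H : (Fin (j + 1) → Rn n) → Rn n → ℝ) (C : ℝ), Measurable (Function.uncurry H) →
      (∀ p x, |H p x| ≤ C) →
      ∫ p, H (pre h p j) p.1 ∂law μ N
        = ∫ p, ex μ ((j : ℝ) * h) (pth h p j) (H (pre h p j)) ∂law μ N) ∧
    (j < N → ∀ (G : (Fin (j + 1) → Rn n) → Rn n → ℝ) (C : ℝ), Measurable (Function.uncurry G) →
      (∀ p q, |G p q| ≤ C) →
      ∫ p, G (pre h p j) (pth h p (j + 1)) ∂law μ N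
        = ∫ p, step μ ((j : ℝ) * h) h (pth h p j) (G (pre h p j)) ∂law μ N) := by
  have main : ∀ j : ℕ,
      (j ≤ N → ∀ (H : (Fin (j + 1) → Rn n) → Rn n → ℝ) (C : ℝ), Measurable (Function.uncurry H) →
        (∀ p x, |H p x| ≤ C) →
        ∫ p, H (pre h p j) p.1 ∂law μ N
          = ∫ p, ex μ ((j : ℝ) * h) (pth h p j) (H (pre h p j)) ∂law μ N) →
      (j < N → ∀ (G : (Fin (j + 1) → Rn n) → Rn n → ℝ) (C : ℝ), Measurable (Function.uncurry G) →
        (∀ p q, |G p q| ≤ C) →
        ∫ p, G (pre h p j) (pth h p (j + 1)) ∂law μ N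
          = ∫ p, step μ ((j : ℝ) * h) h (pth h p j) (G (pre h p j)) ∂law μ N) := by
    intro j hB hj G C hG hC
    rw [integral_last hj (G := fun p q _ => G p q) (hG.comp measurable_fst) fun p q _ => hC p q]
    have hm : Measurable fun r : ((Fin (j + 1) → Rn n) × Rn n) × Rn n =>
        G r.1.1 (r.1.1 (Fin.last j) + h • r.1.2 + Real.sqrt h • r.2) :=
      hG.comp (f := fun r : ((Fin (j + 1) → Rn n) × Rn n) × Rn n =>
        (r.1.1, r.1.1 (Fin.last j) + h • r.1.2 + Real.sqrt h • r.2)) (by fun_prop)
    have hs : StronglyMeasurable (Function.uncurry fun (q : (Fin (j + 1) → Rn n) × Rn n) z =>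
        G q.1 (q.1 (Fin.last j) + h • q.2 + Real.sqrt h • z)) := hm.stronglyMeasurable
    have := hB hj.le (fun p x => ∫ z, G p (p (Fin.last j) + h • x + Real.sqrt h • z) ∂gam n) C
      hs.integral_prod_right.measurable
      (fun p x => by
        simpa using norm_integral_le_of_norm_le_const (μ := gam n) (C := C)
          (f := fun z => G p (p (Fin.last j) + h • x + Real.sqrt h • z)) (ae_of_all _ fun z => hC _ _))
    simpa only [pre, Fin.val_last, step] using this
  intro j
  induction j with
  | zero =>
    have hB : 0 ≤ N → ∀ (H : (Fin 1 → Rn n) → Rn n → ℝ) (C : ℝ), Measurable (Function.uncurry H) →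
        (∀ p x, |H p x| ≤ C) →
        ∫ p, H (pre h p 0) p.1 ∂law μ N
          = ∫ p, ex μ (((0 : ℕ) : ℝ) * h) (pth h p 0) (H (pre h p 0)) ∂law μ N := by
      intro _ H C hH hC
      have e : ∀ p : Rn n × (Fin N → Rn n), pre h p 0 = fun _ => 0 := fun p =>
        funext fun k => by simp [pre, pth_zero]
      simp only [e, pth_zero, Nat.cast_zero, zero_mul]
      rw [integral_const, probReal_univ, one_smul, law, integral_fun_fst, probReal_univ, one_smul]
      simp [ex, num, zt, texp]
    exact ⟨hB, main 0 hB⟩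
  | succ j ih =>
    have hB : j + 1 ≤ N → ∀ (H : (Fin (j + 1 + 1) → Rn n) → Rn n → ℝ) (C : ℝ),
        Measurable (Function.uncurry H) → (∀ p x, |H p x| ≤ C) →
        ∫ p, H (pre h p (j + 1)) p.1 ∂law μ N = ∫ p, ex μ (((j + 1 : ℕ) : ℝ) * h)
          (pth h p (j + 1)) (H (pre h p (j + 1))) ∂law μ N := by
      intro hj H C hH hC
      have epre : ∀ p : Rn n × (Fin N → Rn n),
          pre h p (j + 1) = Fin.snoc (pre h p j) (pth h p (j + 1)) := by
        intro p
        funext k
        refine Fin.lastCases ?_ (fun i => ?_) k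
        · simp [pre]
        · simp [pre]
      have hsn : Measurable fun q : (Fin (j + 1) → Rn n) × Rn n =>
          (Fin.snoc q.1 q.2 : Fin (j + 1 + 1) → Rn n) := by
        refine measurable_pi_lambda _ fun k => ?_
        refine Fin.lastCases ?_ (fun i => ?_) k
        · simp only [Fin.snoc_last]; exact measurable_snd
        · simp only [Fin.snoc_castSucc]; fun_prop
      -- the hidden variable, one step earlier
      have hG1 : Measurable (Function.uncurry fun (p : Fin (j + 1) → Rn n) q =>
          ex μ (((j + 1 : ℕ) : ℝ) * h) q (H (Fin.snoc p q))) :=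
        measurable_ex_param (T := fun q : (Fin (j + 1) → Rn n) × Rn n => q.2) measurable_snd
          (H := fun q x => H (Fin.snoc q.1 q.2) x)
          (hH.comp ((hsn.comp measurable_fst).prodMk measurable_snd)) _
      simp only [epre]
      rw [ih.2 (by omega) (fun p q => ex μ (((j + 1 : ℕ) : ℝ) * h) q (H (Fin.snoc p q))) C hG1
        fun p q => abs_ex_le hb (fun x => hC _ _) _ _]
      have hK : StronglyMeasurable (Function.uncurry fun (r : (Fin (j + 1) → Rn n) × Rn n) z =>
          H (Fin.snoc r.1 (r.1 (Fin.last j) + h • r.2 + Real.sqrt h • z)) r.2) :=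
        (hH.comp ((hsn.comp ((measurable_fst.comp measurable_fst).prodMk (by fun_prop))).prodMk
          (measurable_snd.comp measurable_fst))).stronglyMeasurable
      have e1 := integral_last (μ := μ) (h := h) (j := j) (by omega : j < N)
        (G := fun p q x => H (Fin.snoc p q) x)
        (hH.comp ((hsn.comp measurable_fst).prodMk measurable_snd)) (C := C) fun p q x => hC _ _
      rw [e1]
      have h2 := ih.1 (by omega)
        (fun p x => ∫ z, H (Fin.snoc p (p (Fin.last j) + h • x + Real.sqrt h • z)) x ∂gam n) C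
        hK.integral_prod_right.measurable
        (fun p x => by
          simpa using norm_integral_le_of_norm_le_const (μ := gam n) (C := C)
            (f := fun z => H (Fin.snoc p (p (Fin.last j) + h • x + Real.sqrt h • z)) x)
            (ae_of_all _ fun z => hC _ _))
      simp only [pre, Fin.val_last] at h2 ⊢
      rw [h2]
      refine integral_congr_ae (ae_of_all _ fun p => ?_)
      have hq : Measurable fun r : Rn n × Rn n =>
          ((Fin.snoc (pre h p j) r.1 : Fin (j + 1 + 1) → Rn n), r.2) :=
        (hsn.comp ((measurable_const (a := pre h p j)).prodMk measurable_fst)).prodMk measurable_snd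
      have := ex_step hb (u := (j : ℝ) * h) hh (pth h p j)
        (H := fun q x => H (Fin.snoc (pre h p j) q) x)
        (show Measurable fun r : Rn n × Rn n => H (Fin.snoc (pre h p j) r.1) r.2 from
          hH.comp hq)
        (fun q x => hC _ _)
      simp only [Nat.cast_add, Nat.cast_one, add_mul, one_mul] at this ⊢
      exact this
    exact ⟨hB, main (j + 1) hB⟩

end Chain

end Vale.Agent.P245.Poly
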