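import Vale.Agent.P245.Poly.Coupling.Chain

/-!
# P245, module E: Gaussian concentration at the scale `(1 + log (n + 1))⁴`

The tilt processes of `μ` and of `μ` conditioned on `{r ≤ f}` are coupled with the same noise; the
Bregman bound keeps the squared distance of the tilts of order `1 + T log (1 / μ {r ≤ f})`.
-/

set_option linter.style.haveILetI false

namespace Vale.Agent.P245.Poly.Cpl

open MeasureTheory ProbabilityTheory Filter Topology
open scoped RealInnerProductSpace ENNReal NNReal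

variable {n : ℕ} {μ : Measure (Rn n)} {B : Set (Rn n)}

lemma one_le_lgn (n : ℕ) : 1 ≤ lgn n := by
  have : 0 ≤ Real.log ((n : ℝ) + 1) :=
    Real.log_nonneg (le_add_of_nonneg_left (Nat.cast_nonneg n))
  rw [lgn]; linarith

lemma log_add_two_le (n : ℕ) : Real.log ((n : ℝ) + 2) ≤ lgn n := by
  have h0 : (0 : ℝ) ≤ n := Nat.cast_nonneg n
  calc Real.log ((n : ℝ) + 2) ≤ Real.log (2 * ((n : ℝ) + 1)) :=
        Real.log_le_log (by linarith) (by linarith)
    _ = Real.log 2 + Real.log ((n : ℝ) + 1) := Real.log_mul (by norm_num) (by linarith)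
    _ ≤ lgn n := by
        have := Real.log_le_sub_one_of_pos (show (0 : ℝ) < 2 by norm_num)
        rw [lgn]; linarith

lemma sum_inv_le (N : ℕ) : ∑ i ∈ Finset.range N, ((i : ℝ))⁻¹ ≤ 1 + Real.log N := by
  obtain _ | M := N
  · simp
  rw [Finset.sum_range_succ']
  have h : (harmonic M : ℝ) = ∑ i ∈ Finset.range M, (((i + 1 : ℕ)) : ℝ)⁻¹ := by
    simp [harmonic]
  rw [← h, Nat.cast_zero, inv_zero, add_zero]
  refine (harmonic_le_one_add_log M).trans (add_le_add le_rfl ?_)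
  rcases Nat.eq_zero_or_pos M with rfl | hM
  · simp
  · exact Real.log_le_log (by exact_mod_cast hM) (by exact_mod_cast M.le_succ)

/-- Second moment from an exponential moment. -/
lemma sq_moment_le {m : Measure (Rn n)} [IsProbabilityMeasure m] (hb : BddSupp m) {K : ℝ}
    (h : ∫ x, Real.exp (2⁻¹ * ‖x‖ ^ 2) ∂m ≤ K) :
    ∫ x, ‖x‖ ^ 2 ∂m ≤ 2 * Real.log K := by
  obtain ⟨R, hR⟩ := hb
  have hi1 : Integrable (fun x : Rn n => 2⁻¹ * ‖x‖ ^ 2) m :=
    Integrable.of_bound (by fun_prop : Continuous fun x : Rn n => 2⁻¹ * ‖x‖ ^ 2).aestronglyMeasurable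
      (2⁻¹ * R ^ 2) (hR.mono fun x hx => by
        rw [Real.norm_eq_abs, abs_of_nonneg (by positivity)]
        exact mul_le_mul_of_nonneg_left (pow_le_pow_left₀ (norm_nonneg x) hx 2) (by norm_num))
  have hi2 : Integrable (fun x : Rn n => Real.exp (2⁻¹ * ‖x‖ ^ 2)) m :=
    Integrable.of_bound
      (by fun_prop : Continuous fun x : Rn n => Real.exp (2⁻¹ * ‖x‖ ^ 2)).aestronglyMeasurable
      (Real.exp (2⁻¹ * R ^ 2)) (hR.mono fun x hx => by
        rw [Real.norm_eq_abs, Real.abs_exp, Real.exp_le_exp]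
        exact mul_le_mul_of_nonneg_left (pow_le_pow_left₀ (norm_nonneg x) hx 2) (by norm_num))
  have hj := convexOn_exp.map_integral_le (μ := m) (f := fun x => 2⁻¹ * ‖x‖ ^ 2)
    Real.continuous_exp.continuousOn isClosed_univ (.of_forall fun _ => Set.mem_univ _) hi1 hi2
  have h2 := (Real.log_le_log (Real.exp_pos _) (hj.trans h))
  rw [Real.log_exp, integral_const_mul] at h2
  linarith

lemma exp_moment [IsProbabilityMeasure μ] (hb : BddSupp μ) (hS : SubG μ) :
    ∫ x, Real.exp (2⁻¹ * ‖x‖ ^ 2) ∂μ ≤ 4 * Real.exp (2⁻¹ * n) := by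
  obtain ⟨R, hR⟩ := hb
  have hi : Integrable (fun x : Rn n => Real.exp (2⁻¹ * ‖x‖ ^ 2)) μ :=
    Integrable.of_bound
      (by fun_prop : Continuous fun x : Rn n => Real.exp (2⁻¹ * ‖x‖ ^ 2)).aestronglyMeasurable
      (Real.exp (2⁻¹ * R ^ 2)) (hR.mono fun x hx => by
        rw [Real.norm_eq_abs, Real.abs_exp, Real.exp_le_exp]
        exact mul_le_mul_of_nonneg_left (pow_le_pow_left₀ (norm_nonneg x) hx 2) (by norm_num))
  have := Renyi.lint_exp_sq hS (a := 2⁻¹) (by norm_num) (by norm_num)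
  rw [← ofReal_integral_eq_lintegral_ofReal hi (ae_of_all _ fun x => (Real.exp_pos _).le)] at this
  exact (ENNReal.ofReal_le_ofReal_iff (by positivity)).1 this

lemma Env.moments (h : Env μ B) (hS : SubG μ) :
    (∫ x, ‖x‖ ^ 2 ∂(μ[|B])) + ∫ x, ‖x‖ ^ 2 ∂μ
      ≤ 8 + 2 * n + 2 * Real.log (μ.real B)⁻¹ := by
  haveI := h.prob
  haveI := h.cond_prob
  have hK := exp_moment h.bdd hS
  have hc : ∫ x, Real.exp (2⁻¹ * ‖x‖ ^ 2) ∂(μ[|B]) ≤ (μ.real B)⁻¹ * (4 * Real.exp (2⁻¹ * n)) := by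
    rw [h.integral_cond]
    refine mul_le_mul_of_nonneg_left (le_trans ?_ hK) (inv_nonneg.2 h.pos.le)
    refine integral_mono_of_nonneg (ae_of_all _ fun x => mul_nonneg (ind_nonneg B x)
      (Real.exp_pos _).le) ?_ (ae_of_all _ fun x => mul_le_of_le_one_left (Real.exp_pos _).le
        ((le_abs_self _).trans (ind_le B x)))
    obtain ⟨R, hR⟩ := h.bdd
    exact Integrable.of_bound
      (by fun_prop : Continuous fun x : Rn n => Real.exp (2⁻¹ * ‖x‖ ^ 2)).aestronglyMeasurable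
      (Real.exp (2⁻¹ * R ^ 2)) (hR.mono fun x hx => by
        rw [Real.norm_eq_abs, Real.abs_exp, Real.exp_le_exp]
        exact mul_le_mul_of_nonneg_left (pow_le_pow_left₀ (norm_nonneg x) hx 2) (by norm_num))
  have h1 := sq_moment_le h.bdd hK
  have h2 := sq_moment_le h.cond_bdd hc
  rw [Real.log_mul (inv_ne_zero h.pos.ne') (by positivity), Real.log_mul (by norm_num)
    (Real.exp_pos _).ne', Real.log_exp] at h2
  rw [Real.log_mul (by norm_num) (Real.exp_pos _).ne', Real.log_exp] at h1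
  have h4 : Real.log 4 ≤ 2 := by
    rw [show (4 : ℝ) = 2 * 2 by norm_num, Real.log_mul (by norm_num) (by norm_num)]
    linarith [Real.log_le_sub_one_of_pos (show (0 : ℝ) < 2 by norm_num)]
  linarith

/-- The squared tilted mean is at most the tilted second moment. -/
lemma mean_sq_le {m : Measure (Rn n)} [IsProbabilityMeasure m] (hb : BddSupp m) (t : ℝ)
    (th : Rn n) : ‖mean m t th‖ ^ 2 ≤ ex m t th fun x => ‖x‖ ^ 2 := by
  haveI := tilt_prob hb t th
  obtain ⟨R, hR⟩ := tilt_bdd (m := m) hb t th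
  set a := mean m t th
  have hi : ∀ {G : Rn n → ℝ}, Continuous G → Integrable G (tilt m t th) := fun {G} hG => by
    obtain ⟨M, hM⟩ := (isCompact_closedBall (0 : Rn n) R).exists_bound_of_continuousOn
      hG.continuousOn
    exact Integrable.of_bound hG.aestronglyMeasurable M
      (hR.mono fun x hx => hM x (by simpa using hx))
  have h0 : 0 ≤ ∫ x, ‖a - x‖ ^ 2 ∂(tilt m t th) := integral_nonneg fun x => sq_nonneg _
  simp only [norm_sub_sq_real] at h0
  rw [integral_add (hi (by fun_prop)) (hi (by fun_prop)), integral_sub (integrable_const _)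
    (hi (by fun_prop)), integral_const_mul, integral_const, probReal_univ, one_smul,
    Imp.integral_tilt, Imp.integral_tilt, ex_inner hb, real_inner_self_eq_norm_sq] at h0
  linarith

/-- The set of good pairs at time `t`. -/
noncomputable def good (μ : Measure (Rn n)) (t : ℝ) : Set (Rn n × Rn n) :=
  {q | (∀ d : Rn n, ‖d‖ ≤ ((n : ℝ) + 2) ^ 30 →
      Bg μ t q.1 d ≤ (‖d‖ ^ 2 + 1) / (lgn n * t)) ∧ ‖q.2 - q.1‖ ≤ ((n : ℝ) + 2) ^ 30 / 2}

/-- The points at which the Bregman divergence is large at the scale `R`. -/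
noncomputable def bad (μ : Measure (Rn n)) (t R : ℝ) : Set (Rn n) :=
  {th | ∃ d : Rn n, R ≤ ‖d‖ ∧ ‖d‖ ≤ 2 * R ∧ R ^ 2 / (lgn n * t) < Bg μ t th d}

/-- The dyadic exponents up to the scale `(n + 2) ^ 30`. -/
noncomputable def dyad (n : ℕ) : Finset ℕ :=
  (Finset.range (30 * (n + 2))).filter fun k => (2 : ℝ) ^ k ≤ ((n : ℝ) + 2) ^ 30

lemma continuous_bg [IsProbabilityMeasure μ] (hb : BddSupp μ) (hG : BgBasic) (t : ℝ) (d : Rn n) :
    Continuous fun th => Bg μ t th d := by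
  have hc := (hG n μ inferInstance hb t).1
  have hp : Continuous fun th : Rn n => ((th, d) : Rn n × Rn n) :=
    continuous_id.prodMk continuous_const
  have h := Continuous.comp (g := fun p : Rn n × Rn n => Bg μ t p.1 p.2) hc hp
  exact h

lemma measurable_good [IsProbabilityMeasure μ] (hb : BddSupp μ) (hG : BgBasic) (t : ℝ) :
    MeasurableSet (good μ t) := by
  have hc := continuous_bg hb hG t
  have e : good μ t = (⋂ d : Rn n, ⋂ (_ : ‖d‖ ≤ ((n : ℝ) + 2) ^ 30),
      {q : Rn n × Rn n | Bg μ t q.1 d ≤ (‖d‖ ^ 2 + 1) / (lgn n * t)})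
      ∩ {q | ‖q.2 - q.1‖ ≤ ((n : ℝ) + 2) ^ 30 / 2} := by
    ext q
    simp [good]
  rw [e]
  refine IsClosed.measurableSet (IsClosed.inter (isClosed_iInter fun d => isClosed_iInter fun _ =>
    isClosed_le ?_ continuous_const)
    (isClosed_le (continuous_snd.sub continuous_fst).norm continuous_const))
  exact Continuous.comp (g := fun th => Bg μ t th d) (hc d) continuous_fst

lemma isOpen_bad [IsProbabilityMeasure μ] (hb : BddSupp μ) (hG : BgBasic) (t R : ℝ) :
    IsOpen (bad μ t R) := by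
  have e : bad μ t R = ⋃ d : Rn n, ⋃ (_ : R ≤ ‖d‖ ∧ ‖d‖ ≤ 2 * R),
      {th | R ^ 2 / (lgn n * t) < Bg μ t th d} := by
    ext th
    simp [bad, and_assoc]
  rw [e]
  exact isOpen_iUnion fun d => isOpen_iUnion fun _ =>
    isOpen_lt continuous_const (continuous_bg hb hG t d)

lemma dyad_mem {k : ℕ} (h : (2 : ℝ) ^ k ≤ ((n : ℝ) + 2) ^ 30) : k ∈ dyad n := by
  simp only [dyad, Finset.mem_filter, Finset.mem_range]
  refine ⟨?_, h⟩
  have h2 : ((n : ℝ) + 2) < 2 ^ (n + 2) := by exact_mod_cast Nat.lt_two_pow_self (n := n + 2)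
  have h3 : (2 : ℝ) ^ k < 2 ^ (30 * (n + 2)) := by
    refine h.trans_lt ?_
    rw [mul_comm 30, pow_mul]
    exact pow_lt_pow_left₀ h2 (by positivity) (by norm_num)
  exact (pow_lt_pow_iff_right₀ (by norm_num)).1 h3

lemma compl_good_subset [IsProbabilityMeasure μ] (hb : BddSupp μ) (hG : BgBasic) {t : ℝ}
    (ht : 0 < t) :
    (good μ t)ᶜ ⊆ Prod.fst ⁻¹' (⋃ k ∈ dyad n, bad μ t (2 ^ k))
      ∪ {q | ENNReal.ofReal ((((n : ℝ) + 2) ^ 30 / 2) ^ 2) ≤ dsq q} := by
  intro q hq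
  have hLt : 0 < lgn n * t := mul_pos (by linarith [one_le_lgn n]) ht
  by_cases hfar : ‖q.2 - q.1‖ ≤ ((n : ℝ) + 2) ^ 30 / 2
  swap
  · right
    exact ENNReal.ofReal_le_ofReal
      (pow_le_pow_left₀ (by positivity) (not_le.1 hfar).le 2)
  left
  obtain ⟨d, hd, hlt⟩ : ∃ d : Rn n, ‖d‖ ≤ ((n : ℝ) + 2) ^ 30 ∧
      (‖d‖ ^ 2 + 1) / (lgn n * t) < Bg μ t q.1 d := by
    by_contra hc
    push Not at hc
    exact hq ⟨hc, hfar⟩
  simp only [Set.mem_preimage, Set.mem_iUnion]
  have hd0 : d ≠ 0 := by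
    rintro rfl
    have : Bg μ t q.1 (0 : Rn n) = 0 := by
      have e := ex_inner (m := μ) hb t q.1 0
      rw [inner_zero_left] at e
      simp only [Bg, add_zero, sub_self, e]
    rw [this] at hlt
    exact absurd hlt (not_lt.2 (div_nonneg (add_nonneg (sq_nonneg _) zero_le_one) hLt.le))
  have hdp : 0 < ‖d‖ := norm_pos_iff.2 hd0
  rcases lt_or_ge ‖d‖ 1 with h1 | h1
  · obtain ⟨e, he, hde⟩ : ∃ e : Rn n, ‖e‖ = 1 ∧ ‖d‖ • e = d :=
      ⟨‖d‖⁻¹ • d, by rw [norm_smul, norm_inv, norm_norm, inv_mul_cancel₀ hdp.ne'],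
        by rw [smul_smul, mul_inv_cancel₀ hdp.ne', one_smul]⟩
    have hmono := ((hG n μ inferInstance hb t).2 q.1 e).2.1 ‖d‖ hdp.le h1.le
    rw [hde] at hmono
    refine ⟨0, dyad_mem (le_trans (pow_zero (2 : ℝ)).le
      (one_le_pow₀ (by linarith [(Nat.cast_nonneg n : (0:ℝ) ≤ n)]))),
      e, by rw [he, pow_zero], by rw [he, pow_zero]; norm_num,
      lt_of_le_of_lt ?_ (lt_of_lt_of_le hlt hmono)⟩
    rw [pow_zero, one_pow]
    exact div_le_div_of_nonneg_right (le_add_of_nonneg_left (sq_nonneg _)) hLt.le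
  · obtain ⟨k, hk1, hk2⟩ := exists_nat_pow_near h1 one_lt_two
    refine ⟨k, dyad_mem (hk1.trans hd), d, hk1, ?_, lt_of_le_of_lt
      (div_le_div_of_nonneg_right ?_ hLt.le) hlt⟩
    · rw [pow_succ'] at hk2
      exact hk2.le
    · exact (pow_le_pow_left₀ (by positivity) hk1 2).trans (le_add_of_nonneg_right zero_le_one)

lemma not_good {π : Measure (Rn n × Rn n)} [IsProbabilityMeasure μ] (hb : BddSupp μ)
    (hG : BgBasic) {t : ℝ} (ht : 0 < t)
    (hbreg : ∀ R : ℝ, 1 ≤ R → R ≤ ((n : ℝ) + 2) ^ 30 →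
      obs μ t (bad μ t R) ≤ ENNReal.ofReal ((((n : ℝ) + 2) ^ 30)⁻¹))
    (hfst : π.map Prod.fst ≤ obs μ t) :
    π (good μ t)ᶜ ≤ ENNReal.ofReal (30 * ((n : ℝ) + 2) * (((n : ℝ) + 2) ^ 30)⁻¹)
      + (ENNReal.ofReal ((((n : ℝ) + 2) ^ 30 / 2) ^ 2))⁻¹ * ∫⁻ q, dsq q ∂π := by
  refine (measure_mono (compl_good_subset hb hG ht)).trans
    ((measure_union_le _ _).trans (add_le_add ?_ ?_))
  · have hm : MeasurableSet (⋃ k ∈ dyad n, bad μ t (2 ^ k)) :=
      (dyad n).measurableSet_biUnion fun k _ => (isOpen_bad hb hG t _).measurableSet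
    rw [← Measure.map_apply measurable_fst hm]
    refine (Measure.le_iff'.1 hfst _).trans ((measure_biUnion_finset_le _ _).trans ?_)
    refine (Finset.sum_le_sum fun k hk => hbreg ((2 : ℝ) ^ k) (one_le_pow₀ (by norm_num))
      (Finset.mem_filter.1 hk).2).trans ?_
    rw [Finset.sum_const, nsmul_eq_mul, ← ENNReal.ofReal_natCast,
      ← ENNReal.ofReal_mul (Nat.cast_nonneg _)]
    refine ENNReal.ofReal_le_ofReal (mul_le_mul_of_nonneg_right ?_ (by positivity))
    refine (Nat.cast_le.2 ((Finset.card_filter_le _ _).trans (Finset.card_range _).le)).trans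
      (le_of_eq ?_)
    push_cast
    ring
  · rw [mul_comm, ← div_eq_mul_inv]
    exact meas_ge_le_lintegral_div (by unfold dsq; fun_prop)
      (ENNReal.ofReal_pos.2 (pow_pos (half_pos (pow_pos (by positivity) _)) _)).ne'
      ENNReal.ofReal_ne_top

/-- Restriction sets of the coupling. -/
noncomputable def sets (μ : Measure (Rn n)) (s : ℝ) (i : ℕ) : Set (Rn n × Rn n) :=
  if i = 0 then {(0, 0)} else good μ (i * s)

/-- The mean energy of the conditioned process at time `t`. -/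
noncomputable def ugap (μ : Measure (Rn n)) (B : Set (Rn n)) (t : ℝ) : ℝ :=
  ∫ th, gap μ B t th ∂(obs (μ[|B]) t)

/-- The sum of the second moments. -/
noncomputable def mom (μ : Measure (Rn n)) (B : Set (Rn n)) : ℝ :=
  (∫ x, ‖x‖ ^ 2 ∂(μ[|B])) + ∫ x, ‖x‖ ^ 2 ∂μ

/-- The growth rate at the step `i`. -/
noncomputable def dl (n : ℕ) (T s : ℝ) (i : ℕ) : ℝ := s / T + 8 / lgn n * ((i : ℝ))⁻¹

/-- The drift at the step `i`. -/
noncomputable def bt (μ : Measure (Rn n)) (B : Set (Rn n)) (T s : ℝ) (i : ℕ) : ℝ :=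
  2 / lgn n * ((i : ℝ))⁻¹ + T * (s * ugap μ B (i * s)) + 2 * s ^ 2 * mom μ B

lemma ugap_nonneg (t : ℝ) : 0 ≤ ugap μ B t := integral_nonneg fun _ => sq_nonneg _

lemma mom_nonneg : 0 ≤ mom μ B :=
  add_nonneg (integral_nonneg fun _ => sq_nonneg _) (integral_nonneg fun _ => sq_nonneg _)

lemma dl_nonneg {T s : ℝ} (hT : 0 ≤ T) (hs : 0 ≤ s) (i : ℕ) : 0 ≤ dl n T s i := by
  have := one_le_lgn n
  unfold dl
  positivity

lemma bt_nonneg {T s : ℝ} (hT : 0 ≤ T) (hs : 0 ≤ s) (i : ℕ) : 0 ≤ bt μ B T s i := by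
  have := one_le_lgn n
  have := ugap_nonneg (μ := μ) (B := B) (i * s)
  have := mom_nonneg (μ := μ) (B := B)
  unfold bt
  positivity

lemma step_frac {s : ℝ} (hs : 0 < s) (c : ℝ) (i : ℕ) :
    2 * s * (c / (lgn n * (i * s))) = 2 * c / lgn n * ((i : ℝ))⁻¹ := by
  rcases Nat.eq_zero_or_pos i with rfl | hi
  · simp
  · have : (0 : ℝ) < i := Nat.cast_pos.2 hi
    have := one_le_lgn n
    field_simp

lemma Env.measurable_sets (h : Env μ B) (hG : BgBasic) (s : ℝ) (i : ℕ) :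
    MeasurableSet (sets μ s i) := by
  haveI := h.prob
  unfold sets
  split_ifs
  · exact measurableSet_singleton _
  · exact measurable_good h.bdd hG _

lemma Env.chain_le_one (h : Env μ B) (hO : ObsStep) {s : ℝ} (hs : 0 ≤ s) (j : ℕ) :
    chain μ B s (sets μ s) j Set.univ ≤ 1 := by
  haveI := h.prob
  haveI : IsProbabilityMeasure (obs μ (j * s)) := Imp.prob_obs
  have := Measure.le_iff'.1 (h.marg hO hs (sets μ s) j).1 Set.univ
  rwa [Measure.map_apply measurable_fst MeasurableSet.univ, measure_univ] at this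

lemma Env.monotone_sets (h : Env μ B) (hG : BgBasic) {s : ℝ} (j : ℕ) {p : Rn n × Rn n}
    (hp : p ∈ sets μ s j) :
    ⟪p.2 - p.1, mean μ (j * s) p.2⟫ - ⟪p.2 - p.1, mean μ (j * s) p.1⟫
      ≤ 4 / (lgn n * (j * s)) * ‖p.2 - p.1‖ ^ 2 + 1 / (lgn n * (j * s)) := by
  haveI := h.prob
  unfold sets at hp
  split_ifs at hp with hj
  · rw [Set.mem_singleton_iff] at hp
    subst hp; subst hj
    simp
  have hb := ((hG n μ h.prob h.bdd (j * s)).2 p.1 (p.2 - p.1)).2.2
  rw [ex_inner h.bdd, ex_inner h.bdd, add_sub_cancel] at hb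
  have hnorm : ‖(2 : ℝ) • (p.2 - p.1)‖ = 2 * ‖p.2 - p.1‖ := by
    rw [norm_smul, Real.norm_eq_abs, abs_two]
  refine hb.trans ((hp.1 _ ?_).trans (le_of_eq ?_))
  · rw [hnorm]
    calc 2 * ‖p.2 - p.1‖ ≤ 2 * (((n : ℝ) + 2) ^ 30 / 2) :=
          mul_le_mul_of_nonneg_left hp.2 zero_le_two
      _ = _ := mul_div_cancel₀ _ two_ne_zero
  · rw [hnorm, add_div, mul_pow, div_mul_eq_mul_div]
    norm_num

lemma recursion_alg {d S W b : ℝ} (hd : 0 ≤ d) (hS : 0 ≤ S) (hW : 0 ≤ W) (hb : 0 ≤ b) :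
    (1 + d) * (Real.exp S * W) + b ≤ Real.exp (S + d) * (W + b) := by
  have h1 := mul_le_mul_of_nonneg_right (Real.add_one_le_exp d) (mul_nonneg (Real.exp_pos S).le hW)
  have h2 := mul_le_mul_of_nonneg_right (Real.one_le_exp (add_nonneg hS hd)) hb
  rw [Real.exp_add] at *
  linarith

/-- The mean squared distance along the coupling. -/
lemma Env.recursion (h : Env μ B) (hO : ObsStep) (hG : BgBasic) {T s : ℝ} (hT : 0 < T)
    (hs : 0 < s) (j : ℕ) :
    ∫⁻ q, dsq q ∂(chain μ B s (sets μ s) j)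
      ≤ ENNReal.ofReal (Real.exp (∑ i ∈ Finset.range j, dl n T s i)
          * ∑ i ∈ Finset.range j, bt μ B T s i) := by
  have hL := one_le_lgn n
  induction j with
  | zero =>
    rw [chain, lintegral_dirac' _ (by unfold dsq; fun_prop)]
    simp [dsq]
  | succ j ih =>
    haveI := sfinite_chain h s (sets μ s) j
    rw [chain]
    refine (h.moment_next (a := 4 / (lgn n * (j * s))) (b := 1 / (lgn n * (j * s))) (T := T)
      (by positivity) hs.le hT (by positivity) (by positivity) (h.measurable_sets hG s j) _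
      (h.chain_le_one hO hs.le j) (h.marg hO hs.le (sets μ s) j).1
      (h.marg hO hs.le (sets μ s) j).2 fun p hp => h.monotone_sets hG j hp).trans ?_
    rw [step_frac hs, step_frac hs, ← ugap, ← mom]
    norm_num only
    have hU := ugap_nonneg (μ := μ) (B := B) (j * s)
    have hM := mom_nonneg (μ := μ) (B := B)
    set S := ∑ i ∈ Finset.range j, dl n T s i with hS
    set W := ∑ i ∈ Finset.range j, bt μ B T s i with hW
    have hS0 : 0 ≤ S := Finset.sum_nonneg fun i _ => dl_nonneg hT.le hs.le i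
    have hW0 : 0 ≤ W := Finset.sum_nonneg fun i _ => bt_nonneg hT.le hs.le i
    have hd := dl_nonneg (n := n) hT.le hs.le j
    refine (add_le_add (add_le_add (add_le_add (mul_le_mul' le_rfl ih) le_rfl) le_rfl)
      le_rfl).trans ?_
    rw [← ENNReal.ofReal_mul (by positivity), ← ENNReal.ofReal_add (by positivity) (by positivity),
      ← ENNReal.ofReal_add (by positivity) (by positivity),
      ← ENNReal.ofReal_add (by positivity) (by positivity)]
    refine ENNReal.ofReal_le_ofReal ?_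
    rw [Finset.sum_range_succ, Finset.sum_range_succ, ← hS, ← hW]
    have := recursion_alg hd hS0 hW0 (bt_nonneg (μ := μ) (B := B) hT.le hs.le j)
    simp only [dl, bt] at this ⊢
    linarith

lemma Env.energy_sum (h : Env μ B) (hO : ObsStep) {s : ℝ} (hs : 0 < s) (K : ℕ) :
    ∑ i ∈ Finset.range (K + 1), s * ugap μ B (i * s)
      ≤ 6 * Real.log (μ.real B)⁻¹ + s * (2 * mom μ B) := by
  haveI := h.prob
  haveI := h.cond_prob
  rw [Finset.sum_range_succ']
  refine add_le_add ?_ (mul_le_mul_of_nonneg_left ?_ hs.le)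
  · set A : ℕ → ℝ := fun i => ∫ th, ent μ B (((i + 1 : ℕ) : ℝ) * s) th
      ∂(obs μ (((i + 1 : ℕ) : ℝ) * s)) with hA
    have hstep : ∀ i, s * ugap μ B ((i + 1 : ℕ) * s) ≤ 6 * (A (i + 1) - A i) := fun i => by
      have := h.energy_incr hO (t := ((i + 1 : ℕ) : ℝ) * s) (by positivity) hs
        (le_mul_of_one_le_left hs.le (by exact_mod_cast Nat.succ_le_succ i.zero_le))
      have hc : ((i + 1 : ℕ) : ℝ) * s + s = ((i + 1 + 1 : ℕ) : ℝ) * s := by push_cast; ring
      rw [hc] at this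
      simp only [ugap, hA]
      linarith
    refine (Finset.sum_le_sum fun i _ => hstep i).trans ?_
    rw [← Finset.mul_sum, Finset.sum_range_sub]
    have b1 := (h.ent_bounds (t := ((K + 1 : ℕ) : ℝ) * s) (by positivity)).2
    have b2 := (h.ent_bounds (t := ((0 + 1 : ℕ) : ℝ) * s) (by positivity)).1
    exact mul_le_mul_of_nonneg_left ((sub_le_self _ b2).trans b1) (by norm_num)
  · rw [Nat.cast_zero, zero_mul, ugap, obs_zero, integral_dirac, gap, mom]
    have e1 := mean_sq_le (m := μ[|B]) h.cond_bdd 0 0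
    have e2 := mean_sq_le (m := μ) h.bdd 0 0
    have e3 : ∀ (m : Measure (Rn n)) [IsProbabilityMeasure m],
        ex m 0 0 (fun x => ‖x‖ ^ 2) = ∫ x, ‖x‖ ^ 2 ∂m := fun m _ => by
      simp [ex, zt, num, texp]
    rw [e3] at e1 e2
    refine (pow_le_pow_left₀ (norm_nonneg _) (norm_sub_le _ _) 2).trans ?_
    linarith [add_sq ‖mean (μ[|B]) 0 0‖ ‖mean μ 0 0‖,
      sq_nonneg (‖mean (μ[|B]) 0 0‖ - ‖mean μ 0 0‖),
      sub_sq ‖mean (μ[|B]) 0 0‖ ‖mean μ 0 0‖]

lemma sum_inv_le_lgn (n : ℕ) :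
    ∑ i ∈ Finset.range ((n + 2) ^ 2), ((i : ℝ))⁻¹ ≤ 3 * lgn n := by
  refine (sum_inv_le _).trans ?_
  rw [Nat.cast_pow, Real.log_pow]
  push_cast
  linarith [log_add_two_le n, one_le_lgn n]

lemma sum_dl_le (n : ℕ) {T : ℝ} (hT : 0 < T) :
    ∑ i ∈ Finset.range ((n + 2) ^ 2), dl n T (T / (((n + 2) ^ 2 : ℕ) : ℝ)) i ≤ 25 := by
  have hL := one_le_lgn n
  have hN : (0 : ℝ) < (((n + 2) ^ 2 : ℕ) : ℝ) := Nat.cast_pos.2 (pow_pos (by omega) 2)
  have h1 : 8 / lgn n * ∑ i ∈ Finset.range ((n + 2) ^ 2), ((i : ℝ))⁻¹ ≤ 24 := by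
    refine (mul_le_mul_of_nonneg_left (sum_inv_le_lgn n) (by positivity)).trans (le_of_eq ?_)
    field_simp
    norm_num
  simp only [dl]
  rw [Finset.sum_add_distrib, Finset.sum_const, Finset.card_range, nsmul_eq_mul,
    ← Finset.mul_sum, ← mul_div_assoc, mul_div_cancel₀ _ hN.ne', div_self hT.ne']
  linarith

lemma Env.mom_le (h : Env μ B) (hS : SubG μ) (hH : Real.log (μ.real B)⁻¹ ≤ n) :
    mom μ B ≤ 4 * ((n : ℝ) + 2) := by
  have := h.moments hS
  rw [mom]
  linarith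

lemma Env.sum_bt_le (h : Env μ B) (hS : SubG μ) (hO : ObsStep) {T : ℝ} (hT : 0 < T) (hT1 : T ≤ 1)
    (hH : Real.log (μ.real B)⁻¹ ≤ n) :
    ∑ i ∈ Finset.range ((n + 2) ^ 2), bt μ B T (T / (((n + 2) ^ 2 : ℕ) : ℝ)) i
      ≤ 14 + 6 * T * Real.log (μ.real B)⁻¹ := by
  have hL := one_le_lgn n
  have hn0 : (0 : ℝ) ≤ n := Nat.cast_nonneg n
  set N := (n + 2) ^ 2 with hN
  set s := T / (N : ℝ) with hs
  have hN0 : (0 : ℝ) < N := Nat.cast_pos.2 (pow_pos (by omega) 2)
  have hs0 : 0 < s := div_pos hT hN0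
  have hNs : (N : ℝ) * s = T := mul_div_cancel₀ _ hN0.ne'
  have hM := h.mom_le hS hH
  have hM0 := mom_nonneg (μ := μ) (B := B)
  have hsM : s * mom μ B ≤ 2 := by
    rw [hs, div_mul_eq_mul_div, div_le_iff₀ hN0]
    refine (mul_le_mul hT1 hM hM0 zero_le_one).trans ?_
    rw [hN, Nat.cast_pow]
    push_cast
    linarith [mul_le_mul_of_nonneg_right (show (2 : ℝ) ≤ n + 2 by linarith)
      (show (0 : ℝ) ≤ n + 2 by linarith)]
  have h1 : 2 / lgn n * ∑ i ∈ Finset.range N, ((i : ℝ))⁻¹ ≤ 6 := by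
    refine (mul_le_mul_of_nonneg_left (sum_inv_le_lgn n) (by positivity)).trans (le_of_eq ?_)
    field_simp
    norm_num
  obtain ⟨K, hK⟩ : ∃ K, N = K + 1 := ⟨N - 1, by
    have : 0 < N := pow_pos (by omega) 2
    omega⟩
  have hen := h.energy_sum hO hs0 K
  rw [← hK] at hen
  have h2 := mul_le_mul_of_nonneg_left hen hT.le
  have h2' : T * (s * (2 * mom μ B)) ≤ 1 * 4 :=
    mul_le_mul hT1 (by linarith) (mul_nonneg hs0.le (by linarith)) zero_le_one
  have h3 : (N : ℝ) * (2 * s ^ 2 * mom μ B) ≤ 4 := by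
    rw [show (N : ℝ) * (2 * s ^ 2 * mom μ B) = 2 * (N * s) * (s * mom μ B) by ring, hNs]
    calc 2 * T * (s * mom μ B) ≤ 2 * T * 2 := mul_le_mul_of_nonneg_left hsM (by linarith)
      _ ≤ 4 := by linarith
  simp only [bt]
  rw [Finset.sum_add_distrib, Finset.sum_add_distrib, Finset.sum_const, Finset.card_range,
    nsmul_eq_mul, ← Finset.mul_sum, ← Finset.mul_sum]
  linarith

lemma numeric {X Y : ℝ} (hX : 2 ≤ X) (hY : Y ≤ Real.exp 25 * (8 * X)) :
    X ^ 2 * (30 * X * (X ^ 30)⁻¹ + 4 * Y / X ^ 60) ≤ 1 / 10 := by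
  have hX0 : 0 < X := by linarith
  have e1 : X ^ 2 * (30 * X * (X ^ 30)⁻¹) = 30 / X ^ 27 := by field_simp
  have e2 : X ^ 2 * (4 * (Real.exp 25 * (8 * X)) / X ^ 60) = 32 * Real.exp 25 / X ^ 57 := by
    field_simp
    ring
  have a0 : X ^ 2 * (4 * Y / X ^ 60) ≤ X ^ 2 * (4 * (Real.exp 25 * (8 * X)) / X ^ 60) := by gcongr
  have he : Real.exp 25 ≤ 3 ^ 25 := by
    have : Real.exp 25 = Real.exp 1 ^ 25 := by rw [← Real.exp_nat_mul]; norm_num
    rw [this]
    exact pow_le_pow_left₀ (Real.exp_pos _).le Real.exp_one_lt_three.le 25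
  have a1 : 30 / X ^ 27 ≤ 30 / 2 ^ 27 :=
    div_le_div_of_nonneg_left (by norm_num) (by norm_num) (pow_le_pow_left₀ (by norm_num) hX 27)
  have a2 : 32 * Real.exp 25 / X ^ 57 ≤ 32 * 3 ^ 25 / 2 ^ 57 :=
    div_le_div₀ (by norm_num) (mul_le_mul_of_nonneg_left he (by norm_num))
      (by norm_num) (pow_le_pow_left₀ (by norm_num) hX 57)
  have a3 : (30 : ℝ) / 2 ^ 27 + 32 * 3 ^ 25 / 2 ^ 57 ≤ 1 / 10 := by norm_num
  rw [mul_add, e1]
  linarith

lemma Env.miss (h : Env μ B) (hO : ObsStep) (hG : BgBasic) {T Y s : ℝ} (hY : 0 ≤ Y) (hs : 0 < s)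
    (hbreg : ∀ t R : ℝ, 0 < t → t ≤ T → 1 ≤ R → R ≤ ((n : ℝ) + 2) ^ 30 →
      obs μ t (bad μ t R) ≤ ENNReal.ofReal ((((n : ℝ) + 2) ^ 30)⁻¹))
    (j : ℕ) (hjT : (j : ℝ) * s ≤ T)
    (hZ : ∫⁻ q, dsq q ∂(chain μ B s (sets μ s) j) ≤ ENNReal.ofReal Y) :
    (chain μ B s (sets μ s) j).real (sets μ s j)ᶜ
      ≤ 30 * ((n : ℝ) + 2) * (((n : ℝ) + 2) ^ 30)⁻¹ + 4 * Y / ((n : ℝ) + 2) ^ 60 := by
  haveI := h.prob
  have hX : (0 : ℝ) < (n : ℝ) + 2 := by positivity
  refine ENNReal.toReal_le_of_le_ofReal (by positivity) ?_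
  rw [sets]
  split_ifs with h0
  · subst h0
    simp [chain]
  · have hjp : (0 : ℝ) < (j : ℝ) * s := mul_pos (Nat.cast_pos.2 (Nat.pos_of_ne_zero h0)) hs
    refine (not_good h.bdd hG hjp (fun R hR1 hR2 => hbreg _ R hjp hjT hR1 hR2)
      (h.marg hO hs.le (sets μ s) j).1).trans ?_
    refine (add_le_add le_rfl (mul_le_mul' le_rfl hZ)).trans (le_of_eq ?_)
    generalize (n : ℝ) + 2 = X at hX
    rw [← ENNReal.ofReal_inv_of_pos (by positivity), ← ENNReal.ofReal_mul (by positivity),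
      ← ENNReal.ofReal_add (by positivity) (by positivity)]
    congr 1
    field_simp
    ring

lemma Env.mass (h : Env μ B) (hG : BgBasic) {s ε : ℝ} (j : ℕ)
    [∀ i, IsFiniteMeasure (chain μ B s (sets μ s) i)]
    (hm : ∀ i < j, (chain μ B s (sets μ s) i).real (sets μ s i)ᶜ ≤ ε) :
    1 - j * ε ≤ (chain μ B s (sets μ s) j).real Set.univ := by
  induction j with
  | zero => simp [chain]
  | succ j ih =>
    have e : (chain μ B s (sets μ s) (j + 1)).real Set.univ
        = (chain μ B s (sets μ s) j).real (sets μ s j) := by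
      simp only [measureReal_def, chain, h.mass_nxt]
    have hcompl := measureReal_add_measureReal_compl (μ := chain μ B s (sets μ s) j)
      (h.measurable_sets hG s j)
    have := ih fun i hi => hm i (hi.trans j.lt_succ_self)
    have := hm j j.lt_succ_self
    push_cast
    rw [e]
    linarith

/-- The mean squared distance along the coupling, and its mass. -/
lemma Env.chain_bounds (h : Env μ B) (hS : SubG μ) (hO : ObsStep) (hG : BgBasic) {T : ℝ}
    (hT : 0 < T) (hT1 : T ≤ 1)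
    (hbreg : ∀ t R : ℝ, 0 < t → t ≤ T → 1 ≤ R → R ≤ ((n : ℝ) + 2) ^ 30 →
      obs μ t (bad μ t R) ≤ ENNReal.ofReal ((((n : ℝ) + 2) ^ 30)⁻¹))
    (hH : Real.log (μ.real B)⁻¹ ≤ n) :
    ∃ π : Measure (Rn n × Rn n), IsFiniteMeasure π ∧ π.map Prod.fst ≤ obs μ T ∧
      π.map Prod.snd ≤ obs (μ[|B]) T ∧ 9 / 10 ≤ π.real Set.univ ∧
      ∫⁻ q, dsq q ∂π ≤ ENNReal.ofReal (Real.exp 25 * (14 + 6 * T * Real.log (μ.real B)⁻¹)) := by
  set N := (n + 2) ^ 2 with hN
  have hN0 : (0 : ℝ) < N := Nat.cast_pos.2 (pow_pos (by omega) 2)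
  set s := T / (N : ℝ) with hs
  have hs0 : 0 < s := div_pos hT hN0
  have hNs : (N : ℝ) * s = T := mul_div_cancel₀ _ hN0.ne'
  haveI hfin : ∀ i, IsFiniteMeasure (chain μ B s (sets μ s) i) := fun i =>
    ⟨(h.chain_le_one hO hs0.le i).trans_lt ENNReal.one_lt_top⟩
  have hTH : 0 ≤ T * Real.log (μ.real B)⁻¹ := mul_nonneg hT.le h.log_inv_nonneg
  set Y := Real.exp 25 * (14 + 6 * T * Real.log (μ.real B)⁻¹) with hY
  have hY0 : 0 ≤ Y := mul_nonneg (Real.exp_pos _).le (by linarith)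
  have hZ : ∀ j ≤ N, ∫⁻ q, dsq q ∂(chain μ B s (sets μ s) j) ≤ ENNReal.ofReal Y := fun j hj => by
    have hr := Finset.range_subset_range.2 hj
    refine (h.recursion hO hG hT hs0 j).trans (ENNReal.ofReal_le_ofReal ?_)
    exact mul_le_mul
      (Real.exp_le_exp.2 ((Finset.sum_le_sum_of_subset_of_nonneg hr
        fun i _ _ => dl_nonneg hT.le hs0.le i).trans (sum_dl_le n hT)))
      ((Finset.sum_le_sum_of_subset_of_nonneg hr
        fun i _ _ => bt_nonneg hT.le hs0.le i).trans (h.sum_bt_le hS hO hT hT1 hH))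
      (Finset.sum_nonneg fun i _ => bt_nonneg hT.le hs0.le i) (Real.exp_pos _).le
  refine ⟨chain μ B s (sets μ s) N, hfin N, ?_, ?_, ?_, hZ N le_rfl⟩
  · have := (h.marg hO hs0.le (sets μ s) N).1; rwa [hNs] at this
  · have := (h.marg hO hs0.le (sets μ s) N).2; rwa [hNs] at this
  · have hn0 : (0 : ℝ) ≤ n := Nat.cast_nonneg n
    have hm := h.mass hG (s := s) N fun i hi => h.miss hO hG hY0 hs0 hbreg i
      (by rw [← hNs]; exact mul_le_mul_of_nonneg_right (Nat.cast_le.2 hi.le) hs0.le) (hZ i hi.le)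
    have hTn : T * Real.log (μ.real B)⁻¹ ≤ n :=
      (mul_le_of_le_one_left h.log_inv_nonneg hT1).trans hH
    have hY8 : Y ≤ Real.exp 25 * (8 * ((n : ℝ) + 2)) :=
      mul_le_mul_of_nonneg_left (by linarith) (Real.exp_pos _).le
    have hnum := numeric (show (2 : ℝ) ≤ (n : ℝ) + 2 by linarith) hY8
    have hNX : (N : ℝ) = ((n : ℝ) + 2) ^ 2 := by rw [hN]; push_cast; ring
    rw [hNX] at hm
    linarith

/-- The main case of the concentration bound. -/
lemma core (hO : ObsStep) (hG : BgBasic) [IsProbabilityMeasure μ] (hμ : IsSLC 0 μ)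
    (hb : BddSupp μ) (hS : SubG μ) {T : ℝ} (hT : 0 < T) (hT1 : T ≤ 1)
    (hbreg : ∀ t R : ℝ, 0 < t → t ≤ T → 1 ≤ R → R ≤ ((n : ℝ) + 2) ^ 30 →
      obs μ t (bad μ t R) ≤ ENNReal.ofReal ((((n : ℝ) + 2) ^ 30)⁻¹))
    {f : Rn n → ℝ} (hf : Test f) (hf1 : ∀ x, ‖fderiv ℝ f x‖ ≤ 1)
    (hmed : (2 : ℝ≥0∞)⁻¹ ≤ μ {x | f x ≤ 1}) (hP : PoincareSLC) {r : ℝ}
    (hp : 0 < μ.real {x | r ≤ f x}) (hH : Real.log (μ.real {x | r ≤ f x})⁻¹ ≤ n) :
    r ≤ (Real.sqrt (140 * Real.exp 25) + 12)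
      * (T⁻¹ + Real.sqrt (Real.log (μ.real {x | r ≤ f x})⁻¹ / T)) := by
  set Bs := {x | r ≤ f x} with hBs
  have hfc : Continuous f := hf.1.continuous
  have hBm : MeasurableSet Bs := measurableSet_le measurable_const hfc.measurable
  have h : Env μ Bs := ⟨inferInstance, hb, hμ, hBm, hp⟩
  haveI := h.cond_prob
  haveI : IsProbabilityMeasure (obs μ T) := Imp.prob_obs
  haveI : IsProbabilityMeasure (obs (μ[|Bs]) T) := Imp.prob_obs
  set H := Real.log (μ.real Bs)⁻¹ with hHd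
  have hH0 : 0 ≤ H := h.log_inv_nonneg
  obtain ⟨π, hπf, hfst, hsnd, hmass, hZ⟩ := h.chain_bounds hS hO hG hT hT1 hbreg hH
  set A := {x | f x ≤ 1} with hA
  have hAm : MeasurableSet A := measurableSet_le hfc.measurable measurable_const
  set q : Rn n → ℝ := fun th => ex μ T th (A.indicator fun _ => 1) with hq
  have hqm : Measurable q := measurable_ex (H := fun _ => A.indicator fun _ => (1:ℝ))
    ((measurable_const.indicator hAm).comp measurable_snd) T
  have hqb : ∀ th, |q th| ≤ 1 := fun th => abs_ex_le hb (ind_le A) T th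
  have hqint : (1 : ℝ) / 2 ≤ ∫ th, q th ∂(obs μ T) := by
    obtain ⟨hi, he⟩ := M2.mixture_ae hb hT (H := fun _ x => A.indicator (fun _ => (1:ℝ)) x)
      ((measurable_const.indicator hAm).comp measurable_snd) (C := 1)
      (Eventually.of_forall fun x _ => ind_le A x)
    rw [hq, ← he, integral_prod _ hi]
    simp only [integral_const, probReal_univ, one_smul]
    rw [integral_indicator_const _ hAm, smul_eq_mul, mul_one]
    have := ENNReal.toReal_mono (measure_ne_top μ _) hmed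
    simpa [measureReal_def, one_div] using this
  set S₂ := {th | q th < 1 / 10} with hS₂
  have hS₂m : MeasurableSet S₂ := measurableSet_lt hqm measurable_const
  have hS₂b : (obs μ T).real S₂ ≤ 3 / 5 := by
    have hle : ∀ th, q th ≤ 1 / 10 + S₂ᶜ.indicator (fun _ => (1:ℝ)) th := fun th => by
      by_cases hth : th ∈ S₂
      · rw [Set.indicator_of_notMem (fun hh => (Set.mem_compl_iff _ _).1 hh hth), add_zero]
        exact le_of_lt hth
      · rw [Set.indicator_of_mem (Set.mem_compl hth)]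
        linarith [(le_abs_self (q th)).trans (hqb th)]
    have hi2 : Integrable (S₂ᶜ.indicator fun _ => (1:ℝ)) (obs μ T) :=
      (integrable_const (1:ℝ)).indicator hS₂m.compl
    have := integral_mono (h.integrable_obs (t := T) hqm hqb) ((integrable_const _).add hi2) hle
    simp only [Pi.add_apply] at this
    rw [integral_add (integrable_const _) hi2, integral_indicator_const _ hS₂m.compl,
      probReal_compl_eq_one_sub hS₂m] at this
    simp only [integral_const, probReal_univ, smul_eq_mul, mul_one, one_mul] at this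
    linarith
  set S₃ := {th | dens μ Bs T th < 1 / 20} with hS₃
  have hS₃m : MeasurableSet S₃ := measurableSet_lt (h.measurable_dens T) measurable_const
  have hS₃b : (obs (μ[|Bs]) T).real S₃ ≤ 1 / 20 := by
    have e := h.integral_obs_cond hT (F := S₃.indicator fun _ => (1:ℝ))
      (measurable_const.indicator hS₃m) (ind_le S₃)
    rw [integral_indicator_const _ hS₃m, smul_eq_mul, mul_one] at e
    rw [e]
    refine (integral_mono (h.integrable_obs (t := T) ((h.measurable_dens T).mul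
      (measurable_const.indicator hS₃m)) (C := (μ.real Bs)⁻¹ * 1) fun th => by
        rw [Pi.mul_apply, abs_mul]
        exact mul_le_mul (h.abs_dens T th) (ind_le S₃ th) (abs_nonneg _) (inv_nonneg.2 hp.le))
      (integrable_const (1 / 20 : ℝ)) fun th => ?_).trans_eq (by simp)
    simp only [Pi.mul_apply]
    by_cases hth : th ∈ S₃
    · rw [Set.indicator_of_mem hth, mul_one]; exact le_of_lt hth
    · rw [Set.indicator_of_notMem hth, mul_zero]; norm_num
  set Y := Real.exp 25 * (14 + 6 * T * H) with hY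
  have hTH : 0 ≤ T * H := mul_nonneg hT.le hH0
  have hY0 : 0 < Y := mul_pos (Real.exp_pos _) (by linarith)
  set E₁ := {p : Rn n × Rn n | ENNReal.ofReal (10 * Y) ≤ dsq p} with hE₁
  have hE₁b : π.real E₁ ≤ 1 / 10 := by
    refine ENNReal.toReal_le_of_le_ofReal (by norm_num) ?_
    refine (meas_ge_le_lintegral_div (by unfold dsq; fun_prop)
      (by simp only [ne_eq, ENNReal.ofReal_eq_zero, not_le]; positivity)
      ENNReal.ofReal_ne_top).trans ((ENNReal.div_le_div_right hZ _).trans (le_of_eq ?_))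
    rw [← ENNReal.ofReal_div_of_pos (by positivity)]
    congr 1
    field_simp
  have hE₂b : π.real (Prod.fst ⁻¹' S₂) ≤ 3 / 5 := by
    refine le_trans ?_ hS₂b
    refine ENNReal.toReal_mono (measure_ne_top _ _) ?_
    rw [← Measure.map_apply measurable_fst hS₂m]
    exact Measure.le_iff'.1 hfst _
  have hE₃b : π.real (Prod.snd ⁻¹' S₃) ≤ 1 / 20 := by
    refine le_trans ?_ hS₃b
    refine ENNReal.toReal_mono (measure_ne_top _ _) ?_
    rw [← Measure.map_apply measurable_snd hS₃m]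
    exact Measure.le_iff'.1 hsnd _
  obtain ⟨p, hp'⟩ : ∃ p, p ∉ E₁ ∪ Prod.fst ⁻¹' S₂ ∪ Prod.snd ⁻¹' S₃ := by
    by_contra hc
    push Not at hc
    have h1 := measureReal_union_le (μ := π) (E₁ ∪ Prod.fst ⁻¹' S₂) (Prod.snd ⁻¹' S₃)
    have h2 := measureReal_union_le (μ := π) E₁ (Prod.fst ⁻¹' S₂)
    have h3 : π.real Set.univ ≤ π.real (E₁ ∪ Prod.fst ⁻¹' S₂ ∪ Prod.snd ⁻¹' S₃) :=
      measureReal_mono fun x _ => hc x
    linarith
  simp only [Set.mem_union, Set.mem_preimage, hE₁, hS₂, hS₃, Set.mem_ofPred_eq, not_or, not_le,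
    not_lt] at hp'
  obtain ⟨⟨hd, hqp⟩, hdp⟩ := hp'
  haveI := tilt_prob (m := μ) hb T p.1
  haveI := tilt_prob (m := μ) hb T p.2
  have hlip := Renyi.ex_lip hP hμ hT hf hf1 p.2 p.1
  have htail : ∀ th {u : ℝ}, 0 ≤ u → (tilt μ T th).real {x | u ≤ |f x - ex μ T th f|}
      ≤ 2 * Real.exp (-(T * u ^ 2) / 4) := fun th u hu => by
    haveI := tilt_prob (m := μ) hb T th
    have := Renyi.tail_test mgfSLC hT (tilt_slc hb hμ T th) hf hf1 hu
    rwa [Imp.integral_tilt] at this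
  have hind : ∀ th {S : Set (Rn n)}, MeasurableSet S →
      ex μ T th (S.indicator fun _ => 1) = (tilt μ T th).real S := fun th S hSm => by
    rw [← Imp.integral_tilt, integral_indicator_const _ hSm, smul_eq_mul, mul_one]
  have hTi : 1 ≤ T⁻¹ := (one_le_inv₀ hT).2 hT1
  have hexp : ∀ {u v : ℝ}, 0 < v → v ≤ 2 * Real.exp (-(T * u ^ 2) / 4) →
      T * u ^ 2 ≤ 4 * (Real.log v⁻¹ + Real.log 2) := fun {u v} hv0 hv => by
    have := Real.log_le_log hv0 hv
    rw [Real.log_mul (by norm_num) (Real.exp_pos _).ne', Real.log_exp] at this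
    rw [Real.log_inv]
    linarith
  have hlog2 : Real.log 2 ≤ 1 := by
    linarith [Real.log_le_sub_one_of_pos (show (0 : ℝ) < 2 by norm_num)]
  have hm1 : ex μ T p.1 f ≤ 1 + 5 * T⁻¹ := by
    by_contra hc
    push Not at hc
    set u := ex μ T p.1 f - 1 with hu
    have hu0 : 0 ≤ u := by rw [hu]; linarith
    have h1 : (1 : ℝ) / 10 ≤ 2 * Real.exp (-(T * u ^ 2) / 4) := by
      refine hqp.trans ?_
      simp only [hq]
      rw [hind _ hAm]
      refine (measureReal_mono fun x hx => ?_).trans (htail p.1 hu0)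
      show u ≤ |f x - ex μ T p.1 f|
      refine le_trans ?_ (neg_le_abs _)
      have : f x ≤ 1 := hx
      linarith
    have h2 := hexp (by norm_num) h1
    have h10 : Real.log (1 / 10 : ℝ)⁻¹ ≤ 4 := by
      rw [show ((1 : ℝ) / 10)⁻¹ = 10 by norm_num, Real.log_le_iff_le_exp (by norm_num)]
      have : Real.exp 4 = Real.exp 1 ^ 4 := by rw [← Real.exp_nat_mul]; norm_num
      rw [this]
      calc (10 : ℝ) ≤ 2 ^ 4 := by norm_num
        _ ≤ Real.exp 1 ^ 4 := pow_le_pow_left₀ (by norm_num)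
            (by linarith [Real.add_one_le_exp (1 : ℝ)]) 4
    have h3 : 5 * T⁻¹ < u := by rw [hu]; linarith
    have h4 : 25 * T⁻¹ < T * u ^ 2 := by
      have h5 := mul_lt_mul_of_pos_left (pow_lt_pow_left₀ h3 (by positivity) two_ne_zero) hT
      rwa [show T * (5 * T⁻¹) ^ 2 = 25 * T⁻¹ by field_simp; ring] at h5
    linarith
  have hd' : ‖p.2 - p.1‖ ≤ Real.sqrt (140 * Real.exp 25) * (1 + Real.sqrt (T * H)) := by
    have h1 : ‖p.2 - p.1‖ ^ 2 ≤ 10 * Y :=
      ((ENNReal.ofReal_lt_ofReal_iff (by positivity)).1 hd).le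
    rw [show Real.sqrt (140 * Real.exp 25) * (1 + Real.sqrt (T * H))
      = Real.sqrt (140 * Real.exp 25 * (1 + Real.sqrt (T * H)) ^ 2) by
      rw [Real.sqrt_mul' _ (sq_nonneg _), Real.sqrt_sq (by positivity)]]
    refine Real.le_sqrt_of_sq_le (h1.trans ?_)
    rw [hY, add_sq, Real.sq_sqrt hTH]
    have := mul_nonneg (Real.exp_pos 25).le (Real.sqrt_nonneg (T * H))
    have := mul_nonneg (Real.exp_pos 25).le hTH
    linarith [Real.exp_pos 25]
  have hm2 : r ≤ ex μ T p.2 f + (2 * Real.sqrt (H / T) + 6 * T⁻¹) := by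
    by_contra hc
    push Not at hc
    set u := r - ex μ T p.2 f with hu
    have hsq := Real.sqrt_nonneg (H / T)
    have hu0 : 0 ≤ u := by rw [hu]; linarith
    have hv : μ.real Bs / 20 ≤ 2 * Real.exp (-(T * u ^ 2) / 4) := by
      have h1 : μ.real Bs / 20 ≤ ex μ T p.2 (Bs.indicator fun _ => 1) := by
        rw [dens, le_div_iff₀ hp] at hdp
        linarith
      refine h1.trans ?_
      rw [hind _ hBm]
      refine (measureReal_mono fun x hx => ?_).trans (htail p.2 hu0)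
      show u ≤ |f x - ex μ T p.2 f|
      refine le_trans ?_ (le_abs_self _)
      have : r ≤ f x := hx
      linarith
    have h2 := hexp (by positivity) hv
    have h20 : Real.log (μ.real Bs / 20)⁻¹ = H + Real.log 20 := by
      rw [hHd, Real.log_inv, Real.log_inv, Real.log_div hp.ne' (by norm_num)]
      ring
    have h20' : Real.log 20 ≤ 5 := by
      rw [Real.log_le_iff_le_exp (by norm_num)]
      have : Real.exp 5 = Real.exp 1 ^ 5 := by rw [← Real.exp_nat_mul]; norm_num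
      rw [this]
      calc (20 : ℝ) ≤ 2 ^ 5 := by norm_num
        _ ≤ Real.exp 1 ^ 5 := pow_le_pow_left₀ (by norm_num)
            (by linarith [Real.add_one_le_exp (1 : ℝ)]) 5
    have h3 : 2 * Real.sqrt (H / T) + 6 * T⁻¹ < u := by rw [hu]; linarith
    have h4 : T * (2 * Real.sqrt (H / T) + 6 * T⁻¹) ^ 2 < T * u ^ 2 :=
      mul_lt_mul_of_pos_left (pow_lt_pow_left₀ h3 (by positivity) two_ne_zero) hT
    have h5 : 4 * H + 36 * T⁻¹ ≤ T * (2 * Real.sqrt (H / T) + 6 * T⁻¹) ^ 2 := by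
      rw [show T * (2 * Real.sqrt (H / T) + 6 * T⁻¹) ^ 2 = 4 * (T * Real.sqrt (H / T) ^ 2)
        + 24 * Real.sqrt (H / T) + 36 * T⁻¹ by field_simp; ring, Real.sq_sqrt (by positivity),
        mul_div_cancel₀ _ hT.ne']
      linarith
    linarith
  have hl := (abs_le.1 hlip).2
  have hdT : T⁻¹ * ‖p.2 - p.1‖
      ≤ Real.sqrt (140 * Real.exp 25) * (T⁻¹ + Real.sqrt (H / T)) := by
    refine (mul_le_mul_of_nonneg_left hd' (by positivity)).trans (le_of_eq ?_)
    have : T⁻¹ * Real.sqrt (T * H) = Real.sqrt (H / T) := by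
      rw [← Real.sqrt_sq (inv_nonneg.2 hT.le), ← Real.sqrt_mul (sq_nonneg _)]
      congr 1
      field_simp
    rw [← this]
    ring
  have hw : 0 ≤ Real.sqrt (H / T) := Real.sqrt_nonneg _
  have hsum : r ≤ 1 + 11 * T⁻¹ + Real.sqrt (140 * Real.exp 25) * (T⁻¹ + Real.sqrt (H / T))
      + 2 * Real.sqrt (H / T) := by linarith
  have h9 : 0 ≤ Real.sqrt (140 * Real.exp 25) := Real.sqrt_nonneg _
  calc r ≤ _ := hsum
    _ ≤ (Real.sqrt (140 * Real.exp 25) + 12) * (T⁻¹ + Real.sqrt (H / T)) := by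
        have := mul_nonneg h9 hw
        linarith
    _ ≤ _ := le_of_eq rfl

end Cpl

open MeasureTheory in
/-- Gaussian concentration at the scale `(1 + log (n + 1))⁴`. -/
theorem polyConc (hB : PolyBreg) (hO : ObsStep) (hG : BgBasic) (hP : PoincareSLC)
    (hR : RenyiConc) (hE : ExpConc) : PolyConc := by
  obtain ⟨cB, hcB, hbreg⟩ := hB
  obtain ⟨c2, C2, hc2, hC2, h2⟩ := hR
  obtain ⟨c1, C1, hc1, hC1, h1⟩ := hE
  set c := min cB 1 with hc
  have hc0 : 0 < c := lt_min hcB one_pos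
  set K := Real.sqrt (140 * Real.exp 25) + 12 with hK
  have hK12 : 12 ≤ K := by
    have := Real.sqrt_nonneg (140 * Real.exp 25)
    rw [hK]; linarith
  have hK0 : 0 < K := by linarith
  set C := 1 + 4 * K ^ 2 / c + 2 * K / (c1 * c) + 1 / (c2 * c) + C1 + C2 + Real.exp (C1 ^ 2)
    with hC
  have hp1 : 0 ≤ 4 * K ^ 2 / c := by positivity
  have hp2 : 0 ≤ 2 * K / (c1 * c) := by positivity
  have hp3 : 0 ≤ 1 / (c2 * c) := by positivity
  have hp4 : 1 / c ≤ 4 * K ^ 2 / c := by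
    refine div_le_div_of_nonneg_right ?_ hc0.le
    have := pow_le_pow_left₀ (by norm_num) hK12 2
    linarith
  have hex := Real.exp_pos (C1 ^ 2)
  have hC1' : 1 ≤ C := by rw [hC]; linarith
  refine ⟨C, hC1', fun n μ hn hμ hslc hbd hS f hf hf1 hf0 hmed r hr => ?_⟩
  set L := lgn n
  have hL : 1 ≤ L := Cpl.one_le_lgn n
  set T := c / L ^ 4 with hTd
  have hL4 : 1 ≤ L ^ 4 := one_le_pow₀ hL
  have hT : 0 < T := div_pos hc0 (by linarith)
  have hT1 : T ≤ 1 := (div_le_one (by linarith)).2 ((min_le_right _ _).trans hL4)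
  rw [← ofReal_measureReal (measure_ne_top μ _)]
  refine ENNReal.ofReal_le_ofReal ?_
  have fin : ∀ {C' w : ℝ}, 0 ≤ C' → C' ≤ C → r ^ 2 / (C * L ^ 4) ≤ w →
      μ.real {x | r ≤ f x} ≤ C' * Real.exp (-w) →
      μ.real {x | r ≤ f x} ≤ C * Real.exp (-r ^ 2 / (C * L ^ 4)) := fun {C' w} h0 hC' hw hle => by
    refine hle.trans (mul_le_mul hC' (Real.exp_le_exp.2 ?_) (Real.exp_pos _).le (by linarith))
    rw [neg_div]
    linarith
  have hscale : ∀ {D : ℝ}, 0 < D → D ≤ C → r ^ 2 / (C * L ^ 4) ≤ r ^ 2 / (D * L ^ 4) :=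
    fun {D} hD hDC => div_le_div_of_nonneg_left (sq_nonneg r) (by positivity)
      (mul_le_mul_of_nonneg_right hDC (by positivity))
  rcases lt_or_ge r (C1 * L ^ 2) with hr1 | hr1
  · refine fin (C' := Real.exp (C1 ^ 2)) (w := C1 ^ 2) hex.le (by rw [hC]; linarith) ?_ ?_
    · rw [div_le_iff₀ (by positivity)]
      calc r ^ 2 ≤ (C1 * L ^ 2) ^ 2 := pow_le_pow_left₀ hr hr1.le 2
        _ = C1 ^ 2 * (1 * L ^ 4) := by ring
        _ ≤ C1 ^ 2 * (C * L ^ 4) := by gcongr
    · rw [← Real.exp_add, add_neg_cancel, Real.exp_zero]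
      exact measureReal_le_one
  rcases le_or_gt r (2 * K / T) with hr2 | hr2
  · refine fin (C' := C1) (w := c1 * r) hC1.le (by rw [hC]; linarith) ?_ ?_
    · refine (hscale (D := 2 * K / (c1 * c)) (by positivity) (by rw [hC]; linarith)).trans ?_
      rw [div_le_iff₀ (by positivity)]
      have : c1 * r * (2 * K / (c1 * c) * L ^ 4) = r * (2 * K / T) := by
        rw [hTd]; field_simp
      rw [this, sq]
      exact mul_le_mul_of_nonneg_left hr2 hr
    · have := ENNReal.toReal_le_of_le_ofReal (by positivity)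
        (h1 n μ hμ hslc hbd hS f hf hf1 hf0 hmed r hr1)
      rw [neg_mul] at this
      exact this
  rcases (measureReal_nonneg (μ := μ) (s := {x | r ≤ f x})).eq_or_lt with hp0 | hp0
  · rw [← hp0]
    positivity
  set H := Real.log (μ.real {x | r ≤ f x})⁻¹ with hHd
  have hpH : μ.real {x | r ≤ f x} = Real.exp (-H) := by
    rw [hHd, Real.log_inv, neg_neg, Real.exp_log hp0]
  rcases lt_or_ge (n : ℝ) H with hH | hH
  · rcases le_or_gt (T * r ^ 2) n with hTn | hTn
    · refine fin (C' := 1) (w := H) zero_le_one hC1' ?_ (by rw [one_mul, hpH])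
      refine (hscale (D := 1 / c) (by positivity) (by rw [hC]; linarith)).trans ?_
      rw [show r ^ 2 / (1 / c * L ^ 4) = T * r ^ 2 by rw [hTd]; field_simp]
      linarith
    · refine fin (C' := C2) (w := c2 * (T * r ^ 2)) hC2.le (by rw [hC]; linarith) ?_ ?_
      · refine (hscale (D := 1 / (c2 * c)) (by positivity) (by rw [hC]; linarith)).trans ?_
        rw [hTd]
        exact le_of_eq (by field_simp)
      · have := ENNReal.toReal_le_of_le_ofReal (by positivity)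
          (h2 n μ hμ hslc hbd hS f hf hf1 hf0 hmed r hr)
        refine this.trans (mul_le_mul_of_nonneg_left (Real.exp_le_exp.2 ?_) hC2.le)
        rw [neg_mul, neg_le_neg_iff]
        refine mul_le_mul_of_nonneg_left (le_min ?_ (mul_le_of_le_one_left (sq_nonneg r) hT1)) hc2.le
        have hn' : (0 : ℝ) < n := Nat.cast_pos.2 hn
        rw [le_div_iff₀ hn']
        calc T * r ^ 2 * n ≤ T * r ^ 2 * (T * r ^ 2) :=
              mul_le_mul_of_nonneg_left hTn.le (by positivity)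
          _ = T ^ 2 * r ^ 4 := by ring
          _ ≤ r ^ 4 := mul_le_of_le_one_left (by positivity) (pow_le_one₀ hT.le hT1)
  · have hbreg' : ∀ t R : ℝ, 0 < t → t ≤ T → 1 ≤ R → R ≤ ((n : ℝ) + 2) ^ 30 →
        obs μ t (Cpl.bad μ t R)
          ≤ ENNReal.ofReal ((((n : ℝ) + 2) ^ 30)⁻¹) := fun t R ht htT hR1 hR2 =>
      hbreg n μ hn hμ hslc hbd hS t R ht
        (htT.trans (div_le_div_of_nonneg_right (min_le_left _ _) (by positivity))) hR1 hR2
    have hr3 := Cpl.core hO hG hslc hbd hS hT hT1 hbreg' hf hf1 hmed hP hp0 hH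
    rw [← hK, ← hHd] at hr3
    refine fin (C' := 1) (w := H) zero_le_one hC1' ?_ (by rw [one_mul, hpH])
    refine (hscale (D := 4 * K ^ 2 / c) (by positivity) (by rw [hC]; linarith)).trans ?_
    have hH0 : 0 ≤ H := Real.log_nonneg ((one_le_inv₀ hp0).2 measureReal_le_one)
    have hrs : r ≤ 2 * K * Real.sqrt (H / T) := by
      rw [mul_add] at hr3
      have : 2 * K / T = 2 * (K * T⁻¹) := by rw [div_eq_mul_inv, mul_assoc]
      linarith
    have hsq := pow_le_pow_left₀ hr hrs 2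
    rw [mul_pow, Real.sq_sqrt (by positivity)] at hsq
    rw [div_le_iff₀ (by positivity)]
    calc r ^ 2 ≤ (2 * K) ^ 2 * (H / T) := hsq
      _ = H * (4 * K ^ 2 / c * L ^ 4) := by rw [hTd]; field_simp; ring

end Vale.Agent.P245.Poly
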