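import Vale.Agent.P245.Defs

/-!
# P245: interfaces for the polylogarithmic bound `C_LS ≤ C a² (1 + log (n + 1))⁴`

One `Prop` per lemma of `Poly/PLAN.md`; nothing here is assumed.
-/

namespace Vale.Agent.P245.Poly

open MeasureTheory ProbabilityTheory Matrix
open scoped RealInnerProductSpace ENNReal NNReal

variable {n : ℕ}

/-- `1 + log (n + 1)`. -/
noncomputable def lgn (n : ℕ) : ℝ := 1 + Real.log ((n : ℝ) + 1)

/-- Bregman divergence of the log-Laplace transform of the tilt. -/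
noncomputable def Bg (μ : Measure (Rn n)) (t : ℝ) (th d : Rn n) : ℝ :=
  Real.log (zt μ t (th + d)) - Real.log (zt μ t th) - ex μ t th fun x => ⟪d, x⟫

/-- Transition operator of the tilt process from time `t` to time `t + h`. -/
noncomputable def step (μ : Measure (Rn n)) (t h : ℝ) (th : Rn n) (f : Rn n → ℝ) : ℝ :=
  ex μ t th fun x => ∫ z, f (th + h • x + Real.sqrt h • z) ∂stdGaussian (Rn n)

/-- Gaussian smoothing with variance `σ`. -/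
noncomputable def smo (σ : ℝ) (f : Rn n → ℝ) (y : Rn n) : ℝ :=
  ∫ z, f (y + Real.sqrt σ • z) ∂stdGaussian (Rn n)

/-- Bounded, with bounded coordinate derivatives up to order `k`. -/
def Cb : ℕ → (Rn n → ℝ) → Prop
  | 0, f => Continuous f ∧ ∃ M, ∀ x, |f x| ≤ M
  | k + 1, f => (∃ M, ∀ x, |f x| ≤ M) ∧ ContDiff ℝ 1 f ∧ ∀ i, Cb k (D1 i f)

/-- Entries of the tilted covariance, as functions of the tilt. -/
noncomputable def hess (μ : Measure (Rn n)) (t : ℝ) (j l : Fin n) (th : Rn n) : ℝ :=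
  cv μ t th (fun x => x j) fun x => x l

/-- The secant martingale: at time `u ≤ t`, averaged covariance at time `t'` along a segment with
random direction `xi`. -/
noncomputable def secant (μ : Measure (Rn n)) (t t' u : ℝ) (th xi : Rn n) (j l : Fin n) : ℝ :=
  ∫ r in (0 : ℝ)..1, (1 - r) * ex μ u th fun x =>
    smo (t' - u - (t' - t) / 2 * r ^ 2) (hess μ t' j l)
      (th + (t' - u) • x + (Real.sqrt ((t' - t) / 2) * r) • xi)

/-- Derivative of the secant martingale in the tilt. -/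
noncomputable def dsec (μ : Measure (Rn n)) (t t' u : ℝ) (th xi : Rn n) (j l k : Fin n) : ℝ :=
  D1 k (fun q => secant μ t t' u q xi j l) th

/-- Sum of absolute values of the entries. -/
def esum {ι : Type*} [Fintype ι] (A : Matrix ι ι ℝ) : ℝ := ∑ i, ∑ j, |A i j|

/-- Kronecker sum of `q` copies of `M`. -/
def kron (q : ℕ) (M : Matrix (Fin n) (Fin n) ℝ) : Matrix (Fin q → Fin n) (Fin q → Fin n) ℝ :=
  fun a b => ∑ i, M (a i) (b i) * ∏ l ∈ Finset.univ.erase i, if a l = b l then 1 else 0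

/-- Tensor power of a vector. -/
def tens (q : ℕ) (v : Fin n → ℝ) (a : Fin q → Fin n) : ℝ := ∏ i, v (a i)

/-! ### A: matrices -/

/-- `exp ⟨v, A v⟩ ≤ tr (exp A)` for a unit vector. -/
def ExpLeTrace : Prop :=
  ∀ (ι : Type) [Fintype ι] [DecidableEq ι] (A : Matrix ι ι ℝ) (v : ι → ℝ), A.IsSymm →
    v ⬝ᵥ v = 1 → Real.exp (v ⬝ᵥ (A *ᵥ v)) ≤ (NormedSpace.exp A).trace

/-- One step of the matrix exponential martingale, by Golden–Thompson. -/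
def MatStep : Prop :=
  ∀ (ι : Type) [Fintype ι] [DecidableEq ι] (b : ℝ), ∃ K, 0 ≤ K ∧
    ∀ (Ω : Type) [MeasurableSpace Ω] (P : Measure Ω), IsProbabilityMeasure P →
    ∀ (A C : Matrix ι ι ℝ) (Y : Ω → Matrix ι ι ℝ) (c : ℝ),
      A.IsSymm → C.IsSymm → (∀ w, (Y w).IsSymm) → (∀ i j, Measurable fun w => Y w i j) →
      esum C ≤ b → (∀ w, esum (Y w) ≤ b) → (∀ i j, ∫ w, Y w i j ∂P = 0) →
      (∀ v : ι → ℝ, v ⬝ᵥ
          (((2 : ℝ)⁻¹ • (Matrix.of fun i j => ∫ w, (Y w * Y w) i j ∂P) - C) *ᵥ v)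
        ≤ c * (v ⬝ᵥ v)) →
      ∫ w, (NormedSpace.exp (A + Y w - C)).trace ∂P ≤ (NormedSpace.exp A).trace *
        (1 + c + K * (∫ w, esum (Y w) ^ 3 ∂P + esum C ^ 2 + esum C * ∫ w, esum (Y w) ∂P))

/-- Kronecker sums tested against tensor powers. -/
def KronQuad : Prop :=
  ∀ (n q : ℕ) (M : Matrix (Fin n) (Fin n) ℝ) (v : Fin n → ℝ), M.IsSymm → v ⬝ᵥ v = 1 →
    (kron q M).IsSymm ∧ tens q v ⬝ᵥ tens q v = 1 ∧
    tens q v ⬝ᵥ (kron q M *ᵥ tens q v) = q * (v ⬝ᵥ (M *ᵥ v)) ∧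
    tens q v ⬝ᵥ ((kron q M * kron q M) *ᵥ tens q v)
      ≤ q * ((M *ᵥ v) ⬝ᵥ (M *ᵥ v)) + (q : ℝ) ^ 2 * (v ⬝ᵥ (M *ᵥ v)) ^ 2

/-! ### B: Gaussian smoothing -/

/-- Gradient bound for Gaussian smoothing. -/
def SmoothGrad : Prop :=
  ∀ (n : ℕ) (g : Fin n → Rn n → ℝ) (K : ℝ), (∀ j k, Cb k (g j)) → 0 ≤ K →
    (∀ y, ∑ j, g j y ^ 2 ≤ K ^ 2) → ∀ (σ : ℝ) (y : Rn n), 0 < σ →
      ∑ j, ∑ k, smo σ (D1 k (g j)) y ^ 2 ≤ K ^ 2 / σ

/-- Averaged directional derivative along a random segment. -/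
def SmoothW : Prop :=
  ∃ C : ℝ, 0 < C ∧ ∀ (n : ℕ) (g : Fin n → Rn n → ℝ) (K : ℝ), (∀ j k, Cb k (g j)) → 0 ≤ K →
    (∀ y, ∑ j, g j y ^ 2 ≤ K ^ 2) → ∀ (s τ : ℝ) (y d : Rn n), 0 < s → 2 * s ≤ τ →
      ∫ xi, ∑ j, (∫ r in (0 : ℝ)..1, (1 - r) *
          ∑ k, d k * smo (τ - s * r ^ 2) (D1 k (g j)) (y + (Real.sqrt s * r) • xi + r • d)) ^ 2
        ∂stdGaussian (Rn n) ≤ C * K ^ 2

/-! ### C: the secant martingale -/

/-- Martingale property. -/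
def SecantMart : Prop :=
  ∀ (n : ℕ) (μ : Measure (Rn n)), IsProbabilityMeasure μ → IsSLC 0 μ → BddSupp μ →
    ∀ (t t' u h : ℝ), 0 ≤ u → 0 ≤ h → u + h ≤ t → t < t' → ∀ (th xi : Rn n) (j l : Fin n),
      step μ u h th (fun q => secant μ t t' (u + h) q xi j l) = secant μ t t' u th xi j l

/-- Regularity, with constants allowed to depend on everything fixed. -/
def SecantReg : Prop :=
  ∀ (n : ℕ) (μ : Measure (Rn n)), IsProbabilityMeasure μ → IsSLC 0 μ → BddSupp μ →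
    ∀ (t t' : ℝ), 0 ≤ t → t < t' →
    (∀ u ∈ Set.Icc 0 t, ∀ (j l k : Fin n),
      Continuous (fun p : Rn n × Rn n => secant μ t t' u p.1 p.2 j l) ∧
      Continuous (fun p : Rn n × Rn n => dsec μ t t' u p.1 p.2 j l k)) ∧
    (∀ (u : ℝ) (th xi : Rn n) (j l : Fin n),
      secant μ t t' u th xi j l = secant μ t t' u th xi l j) ∧
    ∃ K : ℝ, 0 ≤ K ∧ ∀ u ∈ Set.Icc 0 t, ∀ (th xi : Rn n) (j l : Fin n),
      |secant μ t t' u th xi j l| ≤ K ∧ (∀ k, |dsec μ t t' u th xi j l k| ≤ K) ∧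
      (∀ η : Rn n, |secant μ t t' u (th + η) xi j l - secant μ t t' u th xi j l
          - ∑ k, η k * dsec μ t t' u th xi j l k| ≤ K * ‖η‖ ^ 2) ∧
      ∀ v ∈ Set.Icc 0 t, |secant μ t t' v th xi j l - secant μ t t' u th xi j l| ≤ K * |v - u|

/-- After the shift, the quadratic form of the secant is the expected Bregman divergence. -/
def SecantValue : Prop :=
  ∀ (n : ℕ) (μ : Measure (Rn n)), IsProbabilityMeasure μ → IsSLC 0 μ → BddSupp μ →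
    ∀ (t t' u : ℝ), 0 ≤ u → u ≤ t → t < t' → ∀ (th d : Rn n),
      ∫ xi, ∑ j, ∑ l, d j * d l *
          secant μ t t' u th (xi + (Real.sqrt ((t' - t) / 2))⁻¹ • d) j l ∂stdGaussian (Rn n)
        = step μ u (t' - u) th fun q => Bg μ t' q d

/-- Derivative bounds, given a bound on the covariance at the current time. -/
def SecantBounds : Prop :=
  ∃ C : ℝ, 0 < C ∧ ∀ (n : ℕ) (μ : Measure (Rn n)), IsProbabilityMeasure μ → IsSLC 0 μ →
    BddSupp μ → ∀ (t t' u lam : ℝ) (th : Rn n), 0 < u → u ≤ t → t < t' → t' ≤ 1 → 0 ≤ lam →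
    (∀ w : Rn n, vr (tilt μ u th) (fun x => ⟪x, w⟫) ≤ lam * ‖w‖ ^ 2) →
    ∀ v : Rn n, ‖v‖ = 1 →
      (∀ xi, ∑ j, ∑ k, (∑ l, v l * dsec μ t t' u th xi j l k) ^ 2
        ≤ C * (1 + lam * Real.sqrt (lam / u) * t' ^ 2) / (t' ^ 2 * (t' - t))) ∧
      ∀ R : ℝ, 0 < R →
        ∫ xi, ∑ k, (∑ j, ∑ l, v j * v l *
            dsec μ t t' u th (xi + (R / Real.sqrt ((t' - t) / 2)) • v) j l k) ^ 2
          ∂stdGaussian (Rn n)
        ≤ C * (1 + lam * Real.sqrt (lam / u) * t' ^ 2) / (t' ^ 2 * R ^ 2)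

/-! ### G: the tilt process and Bregman divergences -/

/-- One step of the observation process. -/
def ObsStep : Prop :=
  ∀ (n : ℕ) (μ : Measure (Rn n)), IsProbabilityMeasure μ → BddSupp μ →
    ∀ (t h : ℝ), 0 ≤ t → 0 ≤ h → ∀ f : Rn n → ℝ, Measurable f → (∃ M, ∀ x, |f x| ≤ M) →
      ∫ th, step μ t h th f ∂(obs μ t) = ∫ th, f th ∂(obs μ (t + h))

/-- Elementary properties of the Bregman divergence. -/
def BgBasic : Prop :=
  ∀ (n : ℕ) (μ : Measure (Rn n)), IsProbabilityMeasure μ → BddSupp μ → ∀ t : ℝ,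
    Continuous (fun p : Rn n × Rn n => Bg μ t p.1 p.2) ∧
    ∀ th d : Rn n, 0 ≤ Bg μ t th d ∧
      (∀ r : ℝ, 0 ≤ r → r ≤ 1 → Bg μ t th (r • d) ≤ Bg μ t th d) ∧
      (ex μ t (th + d) (fun x => ⟪d, x⟫) - ex μ t th fun x => ⟪d, x⟫) ≤ Bg μ t th ((2 : ℝ) • d)

/-- Transfer of the Bregman divergence to a later time. -/
def BregTransfer : Prop :=
  ∀ (n : ℕ) (μ : Measure (Rn n)), IsProbabilityMeasure μ → IsSLC 0 μ → BddSupp μ →
    ∀ (t u : ℝ), 0 < t → t ≤ u → ∀ th d : Rn n,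
      Bg μ t th d ≤ u / t * step μ t (u - t) th fun q => Bg μ u q d

/-- The initial value. -/
def BregInit : Prop :=
  ∀ (n : ℕ) (μ : Measure (Rn n)), IsProbabilityMeasure μ → BddSupp μ → SubG μ →
    ∀ u : ℝ, 0 ≤ u → ∀ d : Rn n, step μ 0 u 0 (fun q => Bg μ u q d) ≤ ‖d‖ ^ 2 + 3

/-! ### D, E, H: main steps -/

/-- D: with high probability the log-Laplace transform of every tilt is smooth at every scale. -/
def PolyBreg : Prop :=
  ∃ c : ℝ, 0 < c ∧ ∀ (n : ℕ) (μ : Measure (Rn n)), 1 ≤ n →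
    IsProbabilityMeasure μ → IsSLC 0 μ → BddSupp μ → SubG μ →
    ∀ (t R : ℝ), 0 < t → t ≤ c / lgn n ^ 4 → 1 ≤ R → R ≤ ((n : ℝ) + 2) ^ 30 →
      obs μ t {th | ∃ d : Rn n, R ≤ ‖d‖ ∧ ‖d‖ ≤ 2 * R ∧ R ^ 2 / (lgn n * t) < Bg μ t th d}
        ≤ ENNReal.ofReal ((((n : ℝ) + 2) ^ 30)⁻¹)

/-- E: Gaussian concentration at the scale `(1 + log (n + 1))⁴`. -/
def PolyConc : Prop :=
  ∃ C : ℝ, 1 ≤ C ∧ ∀ (n : ℕ) (μ : Measure (Rn n)), 1 ≤ n →
    IsProbabilityMeasure μ → IsSLC 0 μ → BddSupp μ → SubG μ →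
    ∀ f, Test f → (∀ x, ‖fderiv ℝ f x‖ ≤ 1) → (∀ x, 0 ≤ f x) →
      (2 : ℝ≥0∞)⁻¹ ≤ μ {x | f x ≤ 1} →
      ∀ r : ℝ, 0 ≤ r →
        μ {x | r ≤ f x} ≤ ENNReal.ofReal (C * Real.exp (-r ^ 2 / (C * lgn n ^ 4)))

/-- H: the compactly supported case. -/
def PolyBdd : Prop :=
  ∃ C : ℝ, 0 < C ∧ ∀ (n : ℕ) (μ : Measure (Rn n)), 1 ≤ n →
    IsProbabilityMeasure μ → IsSLC 0 μ → BddSupp μ → SubG μ →
    ∀ f, Test f → entropy μ (fun x => f x ^ 2) ≤ C * lgn n ^ 4 * energy μ f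

end Vale.Agent.P245.Poly
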