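import Vale.Agent.P245.Poly.Breg
import Vale.Agent.P245.Poly.Chain
import Vale.Agent.P245.M6.Exp

/-!
# P245 polylog, step D: the covariance along the grid, and the drift on an event
-/

namespace Vale.Agent.P245.Poly

open MeasureTheory ProbabilityTheory Filter Topology
open scoped RealInnerProductSpace ENNReal

/-- The factor of `SecantBounds`. -/
noncomputable def Phi (t' u lam : ℝ) : ℝ := 1 + lam * Real.sqrt (lam / u) * t' ^ 2

variable {n : ℕ} {μ : Measure (Rn n)} [IsProbabilityMeasure μ]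

/-- Variance is the smallest second moment. -/
lemma vr_le {ν : Measure (Rn n)} [IsProbabilityMeasure ν] (hb : BddSupp ν) {f : Rn n → ℝ}
    (hf : Continuous f) (c : ℝ) : vr ν f ≤ ∫ x, (f x - c) ^ 2 ∂ν := by
  unfold vr
  set m := ∫ y, f y ∂ν with hm
  have i0 : Integrable f ν := M5.integrable_bdd hb hf
  have e : ∀ x, (f x - c) ^ 2 = (f x - m) ^ 2 + (2 * (m - c) * f x + ((m - c) ^ 2 - 2 * (m - c) * m)) :=
    fun x => by ring
  simp only [e]
  rw [integral_add (M5.integrable_bdd hb (by fun_prop)) (M5.integrable_bdd hb (by fun_prop)),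
    integral_add (M5.integrable_bdd hb (by fun_prop)) (integrable_const _), integral_const_mul,
    integral_const, probReal_univ, one_smul, ← hm]
  nlinarith [sq_nonneg (m - c)]

/-- A short extra time changes variances little. -/
lemma vr_tilt_shift (hb : BddSupp μ) {Rs : ℝ} (hR : ∀ᵐ x ∂μ, ‖x‖ ≤ Rs) (u : ℝ) {h : ℝ} (hh : 0 ≤ h)
    (th : Rn n) {f : Rn n → ℝ} (hf : Continuous f) :
    vr (tilt μ (u + h) th) f ≤ Real.exp (h * Rs ^ 2 / 2) * vr (tilt μ u th) f := by
  set ν := tilt μ u th with hν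
  have := Chain.tilt_prob hb u th
  have := Chain.tilt_prob hb (u + h) th
  have hbν := Chain.tilt_bdd hb u th
  have hRν : ∀ᵐ x ∂ν, ‖x‖ ≤ Rs := (tilted_absolutelyContinuous μ _).ae_le hR
  set m := ∫ y, f y ∂ν with hm
  refine (vr_le (Chain.tilt_bdd hb (u + h) th) hf m).trans ?_
  rw [Chain.tilt_int]
  have e := Chain.ex_tilt hb u h th 0 (fun x => (f x - m) ^ 2)
  rw [add_zero] at e
  rw [← e]
  have hw : ∀ x : Rn n, Real.exp (texp h 0 x) ≤ 1 := fun x => by
    rw [Real.exp_le_one_iff, texp, inner_zero_left]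
    nlinarith [sq_nonneg ‖x‖]
  have hi1 : Integrable (fun x => (f x - m) ^ 2) ν := M5.integrable_bdd hbν (by fun_prop)
  have hnum : num ν h 0 (fun x => (f x - m) ^ 2) ≤ vr ν f := by
    refine integral_mono (M2.integrable_num hbν (M2.Good.of_continuous hbν (by fun_prop)) h 0) hi1
      fun x => ?_
    exact mul_le_of_le_one_right (sq_nonneg _) (hw x)
  have hz : Real.exp (-(h * Rs ^ 2 / 2)) ≤ zt ν h 0 := by
    have hi := M2.integrable_num hbν (M2.Good.const (μ := ν) 1) h 0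
    calc Real.exp (-(h * Rs ^ 2 / 2)) = ∫ _x, Real.exp (-(h * Rs ^ 2 / 2)) ∂ν := by simp
      _ ≤ _ := integral_mono_ae (integrable_const _) hi (hRν.mono fun x hx => by
          simp only [one_mul]
          refine Real.exp_le_exp.2 ?_
          rw [texp, inner_zero_left]
          nlinarith [pow_le_pow_left₀ (norm_nonneg x) hx 2])
  rw [ex, div_le_iff₀ ((Real.exp_pos _).trans_le hz)]
  refine hnum.trans ?_
  have hv0 : 0 ≤ vr ν f := integral_nonneg fun x => sq_nonneg _
  calc vr ν f = Real.exp (h * Rs ^ 2 / 2) * vr ν f * Real.exp (-(h * Rs ^ 2 / 2)) := by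
        rw [mul_comm (Real.exp _) (vr ν f), mul_assoc, ← Real.exp_add, add_neg_cancel, Real.exp_zero,
          mul_one]
    _ ≤ _ := mul_le_mul_of_nonneg_left hz (by positivity)

omit [IsProbabilityMeasure μ] in
lemma vr_smul (ν : Measure (Rn n)) (a : ℝ) (f : Rn n → ℝ) :
    vr ν (fun x => a * f x) = a ^ 2 * vr ν f := by
  simp only [vr, integral_const_mul, ← mul_sub, mul_pow]

omit [IsProbabilityMeasure μ] in
lemma vr_lin_of_unit (ν : Measure (Rn n)) {lam : ℝ}
    (h : ∀ v : Rn n, ‖v‖ = 1 → vr ν (fun x => ⟪x, v⟫) ≤ lam) (w : Rn n) :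
    vr ν (fun x => ⟪x, w⟫) ≤ lam * ‖w‖ ^ 2 := by
  rcases eq_or_ne w 0 with hw | hw
  · subst hw
    simp [vr]
  · have hn : 0 < ‖w‖ := norm_pos_iff.2 hw
    have e : (fun x : Rn n => ⟪x, w⟫) = fun x => ‖w‖ * ⟪x, ‖w‖⁻¹ • w⟫ := funext fun x => by
      rw [real_inner_smul_right, ← mul_assoc, mul_inv_cancel₀ hn.ne', one_mul]
    rw [e, vr_smul, mul_comm lam]
    refine mul_le_mul_of_nonneg_left (h _ ?_) (sq_nonneg _)
    rw [norm_smul, norm_inv, Real.norm_eq_abs, abs_of_pos hn, inv_mul_cancel₀ hn.ne']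

/-- Second moments of linear forms under `SubG`. -/
lemma vr_subG (hb : BddSupp μ) (hS : SubG μ) (w : Rn n) :
    vr (tilt μ 0 0) (fun x => ⟪x, w⟫) ≤ 3 * ‖w‖ ^ 2 := by
  refine vr_lin_of_unit _ (fun v hv => ?_) w
  have := Chain.tilt_prob hb (0 : ℝ) (0 : Rn n)
  refine (vr_le (Chain.tilt_bdd hb 0 0) (by fun_prop) 0).trans ?_
  rw [Chain.tilt_int, ex_zero]
  simp only [sub_zero]
  have hi : Integrable (fun x : Rn n => Real.exp (⟪x, v⟫ ^ 2)) μ := M5.integrable_bdd hb (by fun_prop)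
  have h1 : ∫ x, Real.exp (⟪x, v⟫ ^ 2) ∂μ ≤ 4 := by
    have h := hS v hv
    rw [← ofReal_integral_eq_lintegral_ofReal hi (ae_of_all _ fun x => (Real.exp_pos _).le),
      show (4 : ℝ≥0∞) = ENNReal.ofReal 4 by simp] at h
    exact (ENNReal.ofReal_le_ofReal_iff (by norm_num)).1 h
  calc ∫ x, ⟪x, v⟫ ^ 2 ∂μ ≤ ∫ x, (Real.exp (⟪x, v⟫ ^ 2) - 1) ∂μ :=
        integral_mono (M5.integrable_bdd hb (by fun_prop)) (hi.sub (integrable_const _))
          fun x => by linarith [Real.add_one_le_exp (⟪x, v⟫ ^ 2)]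
    _ ≤ 3 := by
        rw [integral_sub hi (integrable_const _)]
        simp only [integral_const, probReal_univ, one_smul]
        linarith

/-- The law of the process at a grid time. -/
lemma integral_pth (hG : ObsStep) (hb : BddSupp μ) {h : ℝ} (hh : 0 < h) {N : ℕ} :
    ∀ j, j ≤ N → ∀ f : Rn n → ℝ, Measurable f → ∀ C, (∀ x, |f x| ≤ C) →
      ∫ p, f (Chain.pth h p j) ∂Chain.law μ N = ∫ x, f x ∂(obs μ ((j : ℝ) * h)) := by
  intro j
  induction j with
  | zero =>
    intro _ f _ C _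
    simp [Chain.pth_zero, obs_zero]
  | succ j ih =>
    intro hj f hf C hC
    rw [(Chain.markov hb hh j).2 hj (fun _ q => f q) C (hf.comp measurable_snd) fun _ q => hC q]
    rw [ih (by omega) (fun q => step μ ((j : ℝ) * h) h q f)
      (Chain.measurable_step_param measurable_id (G := fun _ => f) (hf.comp measurable_snd) _ _) C
      (fun q => Chain.abs_step_le hb hC _ _ _),
      hG n μ inferInstance hb _ h (by positivity) hh.le f hf ⟨C, hC⟩, Nat.cast_add, Nat.cast_one,
      add_mul, one_mul]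

omit [IsProbabilityMeasure μ] in
lemma obs_real_indicator (t : ℝ) {S : Set (Rn n)} (hS : MeasurableSet S) :
    ∫ x, S.indicator (fun _ => (1 : ℝ)) x ∂(obs μ t) = (obs μ t).real S := by
  rw [integral_indicator_const _ hS, smul_eq_mul, mul_one]

lemma sum_inv_sqrt {h : ℝ} (hh : 0 < h) (N : ℕ) :
    ∑ i ∈ Finset.range N, h * (Real.sqrt (((i : ℝ) + 1) * h))⁻¹ ≤ 2 * Real.sqrt ((N : ℝ) * h) := by
  induction N with
  | zero => simp
  | succ N ih =>
    rw [Finset.sum_range_succ, Nat.cast_add, Nat.cast_one]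
    set a := Real.sqrt (((N : ℝ) + 1) * h) with ha
    set b := Real.sqrt ((N : ℝ) * h) with hb
    have ha0 : 0 < a := Real.sqrt_pos.2 (by positivity)
    have hb0 : 0 ≤ b := Real.sqrt_nonneg _
    have hab : b ≤ a := Real.sqrt_le_sqrt (by nlinarith)
    have h2 : a ^ 2 - b ^ 2 = h := by
      rw [ha, hb, Real.sq_sqrt (by positivity), Real.sq_sqrt (by positivity)]; ring
    have h3 : h * a⁻¹ ≤ 2 * (a - b) := by
      rw [← div_eq_mul_inv, div_le_iff₀ ha0]
      nlinarith
    linarith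

lemma log_two_le (n : ℕ) : Real.log ((n : ℝ) + 2) ≤ 2 * lgn n := by
  have h0 : (0 : ℝ) ≤ n := Nat.cast_nonneg n
  have h1 : Real.log ((n : ℝ) + 2) ≤ Real.log (2 * ((n : ℝ) + 1)) :=
    Real.log_le_log (by linarith) (by linarith)
  rw [Real.log_mul (by norm_num) (by linarith)] at h1
  have := Real.log_nonneg (by linarith : (1 : ℝ) ≤ (n : ℝ) + 1)
  have := Real.log_le_sub_one_of_pos (by norm_num : (0 : ℝ) < 2)
  unfold lgn
  linarith

lemma one_le_lgn (n : ℕ) : 1 ≤ lgn n := by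
  have := Real.log_nonneg (by
    have : (0 : ℝ) ≤ n := Nat.cast_nonneg n
    linarith : (1 : ℝ) ≤ (n : ℝ) + 1)
  unfold lgn
  linarith

/-- The set where the covariance at time `u` is large. -/
def badSet (μ : Measure (Rn n)) (K u : ℝ) : Set (Rn n) :=
  {th | ∃ v : Rn n, ‖v‖ = 1 ∧ K < cv μ u th (fun x => ⟪x, v⟫) fun x => ⟪x, v⟫}

lemma continuous_ex_th (hb : BddSupp μ) (u : ℝ) (f : Rn n → ℝ) (hf : Continuous f) :
    Continuous fun th => ex μ u th f := by
  have h := (M2.contDiff_ex hb (M2.Good.of_continuous hb hf)).continuous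
  exact h.uncurry_left u

lemma measurableSet_badSet (hb : BddSupp μ) (K u : ℝ) : MeasurableSet (badSet μ K u) := by
  have hcvc : ∀ v : Rn n, Continuous fun th => cv μ u th (fun x => ⟪x, v⟫) fun x => ⟪x, v⟫ := by
    intro v
    have hl : Continuous fun x : Rn n => ⟪x, v⟫ := continuous_id.inner continuous_const
    simp only [cv]
    exact (continuous_ex_th hb u _ (hl.mul hl)).sub
      ((continuous_ex_th hb u _ hl).mul (continuous_ex_th hb u _ hl))
  have e : IsOpen (badSet μ K u) := by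
    unfold badSet
    rw [Set.ofPred_exists]
    refine isOpen_iUnion fun v => ?_
    by_cases hv : ‖v‖ = 1
    · simp only [hv, true_and]
      exact isOpen_lt continuous_const (hcvc v)
    · simp [hv]
  exact e.measurableSet

open Classical in
/-- The covariance bound used at grid point `i`. -/
noncomputable def covBd (μ : Measure (Rn n)) (K h : ℝ) (i : ℕ) (th : Rn n) : ℝ :=
  if i ≠ 0 ∧ th ∈ badSet μ K ((i : ℝ) * h) then (((i : ℝ) + 1) * h)⁻¹ else 2 * (K + 3)

omit [IsProbabilityMeasure μ] in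
lemma covBd_mem {K h : ℝ} (hK : 0 < K) (hh : 0 < h) (i : ℕ) (th : Rn n) :
    0 ≤ covBd μ K h i th ∧ covBd μ K h i th ≤ max (((i : ℝ) + 1) * h)⁻¹ (2 * (K + 3)) := by
  unfold covBd
  split
  · exact ⟨by positivity, le_max_left _ _⟩
  · exact ⟨by positivity, le_max_right _ _⟩

lemma measurable_covBd (hb : BddSupp μ) (K h : ℝ) (i : ℕ) :
    Measurable fun th => covBd μ K h i th := by
  classical
  unfold covBd
  by_cases hi : i = 0
  · simp [hi]
  · simp only [ne_eq, hi, not_false_eq_true, true_and]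
    exact Measurable.ite (measurableSet_badSet hb K _) measurable_const measurable_const

lemma covBd_spec (hLin : LinVarSLC) (hslc : IsSLC 0 μ) (hb : BddSupp μ) (hS : SubG μ) {Rs : ℝ}
    (hRs : ∀ᵐ x ∂μ, ‖x‖ ≤ Rs) {K h : ℝ} (hK : 0 < K) (hh : 0 < h) (hhR : h * Rs ^ 2 ≤ 1) {N : ℕ}
    (p : Rn n × (Fin N → Rn n)) (i : Fin N) (w : Rn n) :
    vr (tilt μ (((i : ℕ) + 1 : ℝ) * h) (Chain.pth h p i)) (fun x => ⟪x, w⟫)
      ≤ covBd μ K h i (Chain.pth h p i) * ‖w‖ ^ 2 := by
  have hμ : IsProbabilityMeasure μ := inferInstance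
  have hu : 0 < ((i : ℕ) + 1 : ℝ) * h := by positivity
  unfold covBd
  split
  · obtain ⟨h1, h2, h3, -⟩ := tiltSLC n 0 (((i : ℕ) + 1 : ℝ) * h) (Chain.pth h p i) μ hμ hb hslc
    rw [zero_add] at h3
    simpa [one_div] using hLin n _ _ h1 hu h3 h2 w
  · rename_i hgood
    rw [show ((i : ℕ) + 1 : ℝ) * h = (i : ℕ) * h + h by ring]
    refine (vr_tilt_shift hb hRs _ hh.le _ (by fun_prop)).trans ?_
    have hexp : Real.exp (h * Rs ^ 2 / 2) ≤ 2 := by
      refine (Real.exp_le_exp.2 (by linarith : h * Rs ^ 2 / 2 ≤ 1 / 2)).trans ?_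
      have h1 := Real.exp_one_lt_d9
      have h2 : Real.exp (1 / 2) ^ 2 = Real.exp 1 := by
        rw [← Real.exp_nat_mul]; norm_num
      nlinarith [Real.exp_pos (1 / 2)]
    have hv : vr (tilt μ ((i : ℕ) * h) (Chain.pth h p i)) (fun x => ⟪x, w⟫)
        ≤ (K + 3) * ‖w‖ ^ 2 := by
      by_cases hi : (i : ℕ) = 0
      · rw [hi, Nat.cast_zero, zero_mul, Chain.pth_zero]
        exact (vr_subG hb hS w).trans (mul_le_mul_of_nonneg_right (by linarith) (sq_nonneg _))
      · have hng : Chain.pth h p i ∉ badSet μ K (((i : ℕ) : ℝ) * h) := fun hm => hgood ⟨hi, hm⟩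
        refine vr_lin_of_unit _ (fun v hv => ?_) w
        simp only [badSet, Set.mem_ofPred_eq, not_exists, not_and, not_lt] at hng
        rw [M6.vr_tilt ⟨hμ, hslc, hb, tiltSLC, exCalculus⟩ _ _ (by fun_prop)]
        linarith [hng v hv]
    calc Real.exp (h * Rs ^ 2 / 2) * vr (tilt μ ((i : ℕ) * h) (Chain.pth h p i)) (fun x => ⟪x, w⟫)
        ≤ 2 * ((K + 3) * ‖w‖ ^ 2) :=
          mul_le_mul hexp hv (integral_nonneg fun x => sq_nonneg _) (by norm_num)
      _ = 2 * (K + 3) * ‖w‖ ^ 2 := by ring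

/-- The part of the drift coming from large covariances. -/
noncomputable def badTerm (μ : Measure (Rn n)) (K h : ℝ) (i : ℕ) (th : Rn n) : ℝ :=
  if i = 0 then 0 else (badSet μ K ((i : ℝ) * h)).indicator (fun _ => (1 : ℝ)) th
    * (1 / ((i : ℝ) * h) ^ 2)

omit [IsProbabilityMeasure μ] in
lemma badTerm_mem (K h : ℝ) (i : ℕ) (th : Rn n) :
    0 ≤ badTerm μ K h i th ∧ badTerm μ K h i th ≤ 1 / ((i : ℝ) * h) ^ 2 := by
  unfold badTerm
  split
  · exact ⟨le_rfl, by positivity⟩
  · by_cases hm : th ∈ badSet μ K ((i : ℝ) * h) <;> simp [hm] <;> positivity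

omit [IsProbabilityMeasure μ] in
lemma phi_le {K h t' : ℝ} (hK : 0 < K) (hh : 0 < h) (ht0 : 0 ≤ t') (ht1 : t' ≤ 1) (i : ℕ)
    (th : Rn n) :
    Phi t' (((i : ℝ) + 1) * h) (covBd μ K h i th)
      ≤ 1 + 2 * (K + 3) * Real.sqrt (2 * (K + 3)) * t' ^ 2 * (Real.sqrt (((i : ℝ) + 1) * h))⁻¹
        + badTerm μ K h i th := by
  set u := ((i : ℝ) + 1) * h with hu'
  have hu : 0 < u := by positivity
  have hl0 : (0 : ℝ) ≤ 2 * (K + 3) := by positivity
  have hgood : 1 + 2 * (K + 3) * Real.sqrt (2 * (K + 3) / u) * t' ^ 2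
      = 1 + 2 * (K + 3) * Real.sqrt (2 * (K + 3)) * t' ^ 2 * (Real.sqrt u)⁻¹ := by
    rw [Real.sqrt_div hl0, div_eq_mul_inv]
    ring
  simp only [Phi, covBd, badTerm, ← hu']
  by_cases hi : i = 0
  · simp only [hi, ne_eq, not_true_eq_false, false_and, if_false, if_true, add_zero]
    exact hgood.le
  · by_cases hm : th ∈ badSet μ K ((i : ℝ) * h)
    · simp only [ne_eq, hi, not_false_eq_true, hm, and_self, if_true, if_false,
        Set.indicator_of_mem, one_mul]
      have e : u⁻¹ * Real.sqrt (u⁻¹ / u) = 1 / u ^ 2 := by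
        rw [div_eq_mul_inv, Real.sqrt_mul_self (by positivity)]
        field_simp
      rw [e]
      have hi0 : 0 < (i : ℝ) * h := mul_pos (by exact_mod_cast Nat.pos_of_ne_zero hi) hh
      have hiu : (i : ℝ) * h ≤ u := by rw [hu']; nlinarith
      have h1 : 1 / u ^ 2 * t' ^ 2 ≤ 1 / ((i : ℝ) * h) ^ 2 := by
        calc 1 / u ^ 2 * t' ^ 2 ≤ 1 / u ^ 2 * 1 := by
              refine mul_le_mul_of_nonneg_left ?_ (by positivity)
              nlinarith
          _ ≤ _ := by rw [mul_one]; gcongr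
      have h2 : 0 ≤ 2 * (K + 3) * Real.sqrt (2 * (K + 3)) * t' ^ 2 * (Real.sqrt u)⁻¹ := by positivity
      linarith
    · simp only [ne_eq, hi, not_false_eq_true, hm, and_false, if_false,
        Set.indicator_of_notMem, zero_mul, add_zero]
      exact hgood.le

omit [IsProbabilityMeasure μ] in
/-- A bad event has negligible weight. -/
lemma exp_small {c u t : ℝ} {n : ℕ} (hc : 0 < c) (hu : 0 < u) (hut : u ≤ t)
    (ht : t ≤ c / 240 / lgn n ^ 2) :
    Real.exp (-(c / 2) / u) ≤ (((n : ℝ) + 2) ^ 30)⁻¹ := by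
  have hL := one_le_lgn n
  rw [← Real.exp_log (by positivity : (0 : ℝ) < (((n : ℝ) + 2) ^ 30)⁻¹)]
  refine Real.exp_le_exp.2 ?_
  rw [Real.log_inv, Real.log_pow, neg_div, neg_le_neg_iff]
  push_cast
  have hlog := log_two_le n
  have h0 : 0 ≤ Real.log ((n : ℝ) + 2) := Real.log_nonneg (by
    have : (0 : ℝ) ≤ n := Nat.cast_nonneg n
    linarith)
  rw [le_div_iff₀ hu]
  rw [le_div_iff₀ (by positivity)] at ht
  have h7 : 30 * Real.log ((n : ℝ) + 2) * u ≤ 60 * lgn n ^ 2 * t := by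
    refine mul_le_mul ?_ hut hu.le (by positivity)
    nlinarith
  nlinarith

/-- Covariance bounds along the grid, and the drift they give on an event that is not too rare. -/
theorem drift (hSp : SpectralTail) (hLin : LinVarSLC) (hG : ObsStep) :
    ∃ c C : ℝ, 0 < c ∧ 0 < C ∧ ∀ (n : ℕ) (μ : Measure (Rn n)), IsProbabilityMeasure μ → IsSLC 0 μ →
      BddSupp μ → SubG μ → ∀ (t t' : ℝ), 0 < t → t ≤ c / lgn n ^ 2 → t < t' → t' ≤ 1 →
      ∀ Rs : ℝ, (∀ᵐ x ∂μ, ‖x‖ ≤ Rs) → ∀ N : ℕ, 0 < N → t / N * Rs ^ 2 ≤ 1 →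
      ∀ S : Set (Rn n), MeasurableSet S → (((n : ℝ) + 2) ^ 30)⁻¹ ≤ (obs μ t).real S →
      ∃ lam : ℕ → Rn n → ℝ,
        (∀ i, Measurable (lam i) ∧ ∃ B, ∀ th, 0 ≤ lam i th ∧ lam i th ≤ B) ∧
        (∀ (p : Rn n × (Fin N → Rn n)) (i : Fin N) (w : Rn n),
          vr (tilt μ (((i : ℕ) + 1 : ℝ) * (t / N)) (Chain.pth (t / N) p i)) (fun x => ⟪x, w⟫)
            ≤ lam i (Chain.pth (t / N) p i) * ‖w‖ ^ 2) ∧
        ∫ p, S.indicator (fun _ => (1 : ℝ)) (Chain.pth (t / N) p N)
            * ∑ i : Fin N, t / N * Phi t' (((i : ℕ) + 1 : ℝ) * (t / N))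
                (lam i (Chain.pth (t / N) p i)) ∂Chain.law μ N
          ≤ C * ((obs μ t).real S * t * (1 + t' ^ 2 / Real.sqrt t)) := by
  obtain ⟨c, K, C, hc, hK, hC, hsp⟩ := hSp
  set G : ℝ := 2 * (K + 3) * Real.sqrt (2 * (K + 3)) with hG0
  set C' : ℝ := C * (2 / (c / 2) ^ 2) with hC'
  refine ⟨min c (c / 240), 1 + 2 * G + C', lt_min hc (by positivity), by positivity, ?_⟩
  intro n μ hμ hslc hb hS t t' ht htc htt ht1 Rs hRs N hN hhR S hSm hP
  set h := t / N with hh'
  have hNr : (0 : ℝ) < N := by exact_mod_cast hN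
  have hh : 0 < h := div_pos ht hNr
  have hNh : (N : ℝ) * h = t := by rw [hh']; field_simp
  have hL := one_le_lgn n
  have htc2 : t ≤ c / (1 + Real.log ((n : ℝ) + 1)) ^ 2 :=
    htc.trans (div_le_div_of_nonneg_right (min_le_left _ _) (sq_nonneg _))
  have htc3 : t ≤ c / 240 / lgn n ^ 2 :=
    htc.trans (div_le_div_of_nonneg_right (min_le_right _ _) (sq_nonneg _))
  set P := (obs μ t).real S with hPdef
  have hP0 : 0 < P := lt_of_lt_of_le (by positivity) hP
  refine ⟨covBd μ K h, fun i => ⟨measurable_covBd hb K h i, _, fun th => covBd_mem hK hh i th⟩,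
    fun p i w => covBd_spec hLin hslc hb hS hRs hK hh hhR p i w, ?_⟩
  set ind : Rn n → ℝ := S.indicator fun _ => (1 : ℝ) with hind
  have hind0 : ∀ x, 0 ≤ ind x ∧ ind x ≤ 1 := by
    intro x
    by_cases hx : x ∈ S <;> simp [hind, hx]
  have hindm : Measurable ind := measurable_const.indicator hSm
  set A0 : ℝ := t + G * t' ^ 2 * (2 * Real.sqrt t) with hA0
  have hbm : ∀ i : ℕ, Measurable fun th => badTerm μ K h i th := by
    intro i
    unfold badTerm
    split
    · exact measurable_const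
    · exact (measurable_const.indicator (measurableSet_badSet hb K _)).mul_const _
  have hbabs : ∀ (i : ℕ) th, |badTerm μ K h i th| ≤ 1 / ((i : ℝ) * h) ^ 2 := fun i th => by
    rw [abs_of_nonneg (badTerm_mem K h i th).1]
    exact (badTerm_mem K h i th).2
  have hBi : ∀ i : Fin N, Integrable (fun p : Rn n × (Fin N → Rn n) =>
      h * badTerm μ K h i (Chain.pth h p i)) (Chain.law μ N) := fun i =>
    (Chain.integrable_of_bdd ((hbm i).comp (Chain.measurable_pth i)) fun p => hbabs i _).const_mul h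
  have hBI : ∀ i : Fin N, ∫ p, h * badTerm μ K h i (Chain.pth h p i) ∂Chain.law μ N
      ≤ h * (C' * P) := by
    intro i
    rw [integral_const_mul, integral_pth hG hb hh i i.2.le _ (hbm i) _ (hbabs i)]
    refine mul_le_mul_of_nonneg_left ?_ hh.le
    unfold badTerm
    by_cases hi : (i : ℕ) = 0
    · simp only [hi, if_true, integral_zero]; positivity
    · simp only [hi, if_false]
      rw [integral_mul_const, obs_real_indicator _ (measurableSet_badSet hb K _)]
      have hi0 : 0 < ((i : ℕ) : ℝ) * h := mul_pos (by exact_mod_cast Nat.pos_of_ne_zero hi) hh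
      have hit : ((i : ℕ) : ℝ) * h ≤ t := hNh ▸
        mul_le_mul_of_nonneg_right (by exact_mod_cast i.2.le) hh.le
      have := obs_prob (μ := μ) (((i : ℕ) : ℝ) * h)
      have h2 : (obs μ (((i : ℕ) : ℝ) * h)).real (badSet μ K (((i : ℕ) : ℝ) * h))
          ≤ C * Real.exp (-c / (((i : ℕ) : ℝ) * h)) :=
        ENNReal.toReal_le_of_le_ofReal (by positivity) (hsp n μ hμ hslc hb hS _ hi0 (hit.trans htc2))
      refine (mul_le_mul_of_nonneg_right h2 (by positivity)).trans ?_
      set u := ((i : ℕ) : ℝ) * h with hu'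
      have h3 := M6.sq_exp_bound (c := c / 2) (by positivity) hi0
      have h4 : Real.exp (-c / u) = Real.exp (-(c / 2) / u) * Real.exp (-(c / 2) / u) := by
        rw [← Real.exp_add]; ring_nf
      have h5 : Real.exp (-(c / 2) / u) ≤ P := (exp_small hc hi0 hit htc3).trans hP
      calc C * Real.exp (-c / u) * (1 / u ^ 2)
          = C * (1 / u ^ 2 * Real.exp (-(c / 2) / u)) * Real.exp (-(c / 2) / u) := by
            rw [h4]; ring
        _ ≤ C * (2 / (c / 2) ^ 2) * P :=
            mul_le_mul (mul_le_mul_of_nonneg_left h3 hC.le) h5 (Real.exp_pos _).le (by positivity)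
  have hsum : ∀ p : Rn n × (Fin N → Rn n),
      ind (Chain.pth h p N) * ∑ i : Fin N, h * Phi t' (((i : ℕ) + 1 : ℝ) * h)
          (covBd μ K h i (Chain.pth h p i))
        ≤ ind (Chain.pth h p N) * A0 + ∑ i : Fin N, h * badTerm μ K h i (Chain.pth h p i) := by
    intro p
    have h1 := Finset.sum_le_sum (s := Finset.univ) fun (i : Fin N) (_ : i ∈ Finset.univ) =>
      mul_le_mul_of_nonneg_left
        (phi_le (μ := μ) hK hh (ht.trans htt).le ht1 i (Chain.pth h p i)) hh.le
    have e : ∑ i : Fin N, h * (1 + G * t' ^ 2 * (Real.sqrt (((i : ℕ) + 1 : ℝ) * h))⁻¹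
          + badTerm μ K h i (Chain.pth h p i))
        = (N : ℝ) * h + G * t' ^ 2 * (∑ i ∈ Finset.range N, h * (Real.sqrt (((i : ℝ) + 1) * h))⁻¹)
          + ∑ i : Fin N, h * badTerm μ K h i (Chain.pth h p i) := by
      rw [← Fin.sum_univ_eq_sum_range (fun i : ℕ => h * (Real.sqrt (((i : ℝ) + 1) * h))⁻¹),
        Finset.mul_sum]
      simp only [mul_add, mul_one, Finset.sum_add_distrib, Finset.sum_const, Finset.card_univ,
        Fintype.card_fin, nsmul_eq_mul]
      congr 2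
      exact Finset.sum_congr rfl fun i _ => by ring
    rw [← hG0, e, hNh] at h1
    have h2 := sum_inv_sqrt hh N
    rw [hNh] at h2
    have h3 := mul_le_mul_of_nonneg_left h2 (by positivity : 0 ≤ G * t' ^ 2)
    have hs := hind0 (Chain.pth h p N)
    have hBs : 0 ≤ ∑ i : Fin N, h * badTerm μ K h i (Chain.pth h p i) :=
      Finset.sum_nonneg fun i _ => mul_nonneg hh.le (badTerm_mem K h i _).1
    rw [hA0]
    nlinarith
  have hSi : Integrable (fun p : Rn n × (Fin N → Rn n) => ind (Chain.pth h p N) * A0)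
      (Chain.law μ N) := (Chain.integrable_of_bdd (hindm.comp (Chain.measurable_pth N)) (C := 1)
        fun p => by rw [Function.comp_apply, abs_of_nonneg (hind0 _).1]; exact (hind0 _).2).mul_const _
  have hΦ0 : ∀ (p : Rn n × (Fin N → Rn n)) (i : Fin N),
      0 ≤ h * Phi t' (((i : ℕ) + 1 : ℝ) * h) (covBd μ K h i (Chain.pth h p i)) := by
    intro p i
    have := (covBd_mem (μ := μ) hK hh i (Chain.pth h p i)).1
    exact mul_nonneg hh.le (by unfold Phi; positivity)
  refine (integral_mono_of_nonneg (ae_of_all _ fun p =>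
    mul_nonneg (hind0 _).1 (Finset.sum_nonneg fun i _ => hΦ0 p i))
    (hSi.add (integrable_finsetSum _ fun i _ => hBi i)) (ae_of_all _ hsum)).trans ?_
  simp only [Pi.add_apply]
  rw [integral_add hSi (integrable_finsetSum _ fun i _ => hBi i),
    integral_finsetSum _ (fun i _ => hBi i), integral_mul_const,
    integral_pth hG hb hh N le_rfl ind hindm 1 (fun x => by
      rw [abs_of_nonneg (hind0 x).1]; exact (hind0 x).2), hind, obs_real_indicator _ hSm, hNh, ← hPdef]
  have hsum2 : ∑ i : Fin N, ∫ p, h * badTerm μ K h i (Chain.pth h p i) ∂Chain.law μ N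
      ≤ t * (C' * P) := by
    refine (Finset.sum_le_sum fun i _ => hBI i).trans (le_of_eq ?_)
    simp only [Finset.sum_const, Finset.card_univ, Fintype.card_fin, nsmul_eq_mul]
    rw [← mul_assoc, hNh]
  have e : Real.sqrt t = t / Real.sqrt t := (Real.div_sqrt).symm
  have h9 : 0 ≤ t' ^ 2 / Real.sqrt t := by positivity
  have h8 : P * A0 = P * t * (1 + 2 * G * (t' ^ 2 / Real.sqrt t)) := by
    rw [hA0]
    conv_lhs => rw [e]
    ring
  have hPt : 0 ≤ P * t := by positivity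
  have hC'0 : 0 ≤ C' := by positivity
  have hG' : 0 ≤ G := by positivity
  nlinarith [mul_nonneg hPt (mul_nonneg hC'0 h9), mul_nonneg hPt hG', mul_nonneg hPt h9]

end Vale.Agent.P245.Poly
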