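import Vale.Agent.P245.Poly.Defs
import Vale.Agent.P245.M9.General

/-!
# P245, module H: from concentration at scale `(1 + log (n + 1))⁴` to the general statement

`unbdd_of_bdd` and `scaled_of_bdd` are the truncation and the dilation of `M9/General.lean`
with an arbitrary constant in place of `C n^(1/3)`.
-/

namespace Vale.Agent.P245.Poly

open MeasureTheory ProbabilityTheory Filter Topology Module
open scoped RealInnerProductSpace ENNReal NNReal

variable {n : ℕ}

lemma one_le_lgn (n : ℕ) : 1 ≤ lgn n := by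
  have h : 0 ≤ Real.log ((n : ℝ) + 1) := Real.log_nonneg (by linarith [Nat.cast_nonneg (α := ℝ) n])
  unfold lgn
  linarith

/-- The compactly supported case from concentration and Milman's transfer. -/
theorem polyBdd (hConc : PolyConc) (hL : LsiOfConc) : PolyBdd := by
  obtain ⟨C, hC1, hC⟩ := hConc
  obtain ⟨C', hC', h⟩ := hL C (by linarith)
  refine ⟨C' * C, mul_pos hC' (by linarith), fun n μ hn hμ hslc hbdd hS f hf => ?_⟩
  refine (h n (C * lgn n ^ 4) μ (one_le_mul_of_one_le_of_one_le hC1 (one_le_pow₀ (one_le_lgn n)))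
    hμ hslc hbdd (hC n μ hn hμ hslc hbdd hS) f hf).trans_eq ?_
  ring

/-- Removing the bounded support hypothesis. -/
lemma unbdd_of_bdd {K : ℝ} (hK : ∀ μ : Measure (Rn n),
      IsProbabilityMeasure μ → IsSLC 0 μ → BddSupp μ → SubG μ →
      ∀ f, Test f → entropy μ (fun x => f x ^ 2) ≤ K * energy μ f)
    {μ : Measure (Rn n)} [IsProbabilityMeasure μ] (hμ : IsSLC 0 μ)
    (hS : ∀ v : Rn n, ‖v‖ = 1 → ∫⁻ x, ENNReal.ofReal (Real.exp (⟪x, v⟫ ^ 2)) ∂μ ≤ 2)
    {f : Rn n → ℝ} (hf : Test f) :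
    entropy μ (fun x => f x ^ 2) ≤ K * energy μ f := by
  set B : ℕ → Set (Rn n) := fun k => Metric.closedBall 0 k with hB
  have hBm : ∀ k, MeasurableSet (B k) := fun k => measurableSet_closedBall
  have hmono : Monotone B := fun i j hij => Metric.closedBall_subset_closedBall (by exact_mod_cast hij)
  have hU : ⋃ k, B k = Set.univ := Metric.iUnion_closedBall_nat 0
  have hlim : Tendsto (fun k => μ.real (B k)) atTop (𝓝 1) := by
    have h := tendsto_measure_iUnion_atTop (μ := μ) hmono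
    rw [hU, measure_univ] at h
    simpa [measureReal_def, Function.comp_def] using
      (ENNReal.tendsto_toReal ENNReal.one_ne_top).comp h
  set ν : ℕ → Measure (Rn n) := fun k => ENNReal.ofReal (μ.real (B k))⁻¹ • μ.restrict (B k) with hν
  have hint : ∀ {g : Rn n → ℝ}, Integrable g μ →
      Tendsto (fun k => ∫ x, g x ∂ν k) atTop (𝓝 (∫ x, g x ∂μ)) := by
    intro g hg
    have h := tendsto_setIntegral_of_monotone hBm hmono (f := g) (μ := μ)
      (by rw [hU]; exact hg.integrableOn)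
    rw [hU, setIntegral_univ] at h
    have h2 := (hlim.inv₀ one_ne_zero).mul h
    rw [inv_one, one_mul] at h2
    refine h2.congr fun k => ?_
    simp only [hν, integral_smul_measure, ENNReal.toReal_ofReal (inv_nonneg.2 measureReal_nonneg),
      smul_eq_mul]
  obtain ⟨hfc, M, hM⟩ := id hf
  have hM0 : 0 ≤ M := (abs_nonneg _).trans (hM 0).1
  have hf2i : Integrable (fun x => f x ^ 2) μ :=
    Integrable.of_bound (hfc.continuous.pow 2).aestronglyMeasurable (M ^ 2) (ae_of_all _ fun x => by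
      rw [Real.norm_eq_abs, abs_pow]; exact pow_le_pow_left₀ (abs_nonneg _) (hM x).1 2)
  obtain ⟨L, hL⟩ := (isCompact_Icc (a := (0 : ℝ)) (b := M ^ 2)).exists_bound_of_continuousOn
    Real.continuous_mul_log.continuousOn
  have hfli : Integrable (fun x => f x ^ 2 * Real.log (f x ^ 2)) μ :=
    Integrable.of_bound (Real.continuous_mul_log.comp (hfc.continuous.pow 2)).aestronglyMeasurable L
      (ae_of_all _ fun x => hL _ ⟨sq_nonneg _, by
        rw [← sq_abs]; exact pow_le_pow_left₀ (abs_nonneg _) (hM x).1 2⟩)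
  have hdi : Integrable (fun x => ‖fderiv ℝ f x‖ ^ 2) μ :=
    Integrable.of_bound ((hfc.continuous_fderiv one_ne_zero).norm.pow 2).aestronglyMeasurable (M ^ 2)
      (ae_of_all _ fun x => by
        rw [Real.norm_eq_abs, abs_pow, abs_norm]; exact pow_le_pow_left₀ (norm_nonneg _) (hM x).2.1 2)
  have he : Tendsto (fun k => entropy (ν k) fun x => f x ^ 2) atTop
      (𝓝 (entropy μ fun x => f x ^ 2)) :=
    (hint hfli).sub ((Real.continuous_mul_log.tendsto _).comp (hint hf2i))
  have hen : Tendsto (fun k => energy (ν k) f) atTop (𝓝 (energy μ f)) := hint hdi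
  refine le_of_tendsto_of_tendsto he (hen.const_mul _) ?_
  filter_upwards [hlim.eventually (eventually_ge_nhds (by norm_num : (1 : ℝ) / 2 < 1))] with k hk
  have hp : 0 < μ.real (B k) := by linarith
  have hc : 0 < (μ.real (B k))⁻¹ := inv_pos.2 hp
  have hprob : IsProbabilityMeasure (ν k) := ⟨by
    simp only [hν, Measure.smul_apply, Measure.restrict_apply_univ, smul_eq_mul]
    rw [← ofReal_measureReal (measure_ne_top μ (B k)), ← ENNReal.ofReal_mul hc.le,
      inv_mul_cancel₀ hp.ne', ENNReal.ofReal_one]⟩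
  refine hK (ν k) hprob (M9.slc_restrict hμ (hBm k) (convex_closedBall 0 _) hc) ⟨k, ?_⟩
    (fun v hv => ?_) f hf
  · have : ∀ᵐ x ∂μ.restrict (B k), ‖x‖ ≤ k :=
      (ae_restrict_mem (hBm k)).mono fun x hx => by simpa [hB] using hx
    exact Measure.ae_smul_measure this _
  · simp only [hν, lintegral_smul_measure, smul_eq_mul]
    calc ENNReal.ofReal (μ.real (B k))⁻¹
          * ∫⁻ x in B k, ENNReal.ofReal (Real.exp (⟪x, v⟫ ^ 2)) ∂μ
        ≤ ENNReal.ofReal 2 * 2 := mul_le_mul' (ENNReal.ofReal_le_ofReal (by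
            rw [inv_le_comm₀ hp (by norm_num)]; linarith))
          ((setLIntegral_le_lintegral _ _).trans (hS v hv))
      _ = 4 := by rw [ENNReal.ofReal_ofNat]; norm_num

/-- Dilation: the statement at every scale `a`. -/
lemma scaled_of_bdd {K : ℝ} (hK : ∀ μ : Measure (Rn n),
      IsProbabilityMeasure μ → IsSLC 0 μ → BddSupp μ → SubG μ →
      ∀ f, Test f → entropy μ (fun x => f x ^ 2) ≤ K * energy μ f) :
    ∀ ρ : Rn n → ℝ, Measurable ρ → (∀ x, 0 ≤ ρ x) →
      ConcaveOn ℝ {x | 0 < ρ x} (fun x => Real.log (ρ x)) →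
      IsProbabilityMeasure (volume.withDensity fun x => ENNReal.ofReal (ρ x)) →
      ∀ a : ℝ, 0 < a →
      (∀ v : Rn n, ‖v‖ = 1 → ∫⁻ x, ENNReal.ofReal (Real.exp (⟪x, v⟫ ^ 2 / a ^ 2))
          ∂(volume.withDensity fun x => ENNReal.ofReal (ρ x)) ≤ 2) →
      ∀ f : Rn n → ℝ, ContDiff ℝ 2 f → HasCompactSupport f →
        entropy (volume.withDensity fun x => ENNReal.ofReal (ρ x)) (fun x => f x ^ 2)
          ≤ K * a ^ 2
            * energy (volume.withDensity fun x => ENNReal.ofReal (ρ x)) f := by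
  intro ρ hm h0 hc hp a ha hS f hf hfs
  set μ := volume.withDensity fun x => ENNReal.ofReal (ρ x) with hμ
  set e : Rn n ≃ₜ Rn n := Homeomorph.smulOfNeZero a⁻¹ (inv_ne_zero ha.ne') with he
  have hem : Measurable fun x : Rn n => a⁻¹ • x := measurable_const_smul _
  set ν := μ.map fun x => a⁻¹ • x with hν
  have hνp : IsProbabilityMeasure ν := Measure.isProbabilityMeasure_map hem.aemeasurable
  have hνS : ∀ v : Rn n, ‖v‖ = 1 → ∫⁻ x, ENNReal.ofReal (Real.exp (⟪x, v⟫ ^ 2)) ∂ν ≤ 2 := by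
    intro v hv
    rw [hν, lintegral_map (by fun_prop) hem]
    refine le_trans (le_of_eq (lintegral_congr fun x => ?_)) (hS v hv)
    rw [real_inner_smul_left, mul_pow, inv_pow, div_eq_inv_mul]
  set g : Rn n → ℝ := fun y => f (a • y) with hg
  have hgc : ContDiff ℝ 2 g := hf.comp (contDiff_const_smul a)
  have hgs : HasCompactSupport g := hfs.comp_homeomorph (Homeomorph.smulOfNeZero a ha.ne')
  have hfg : ∀ x, g (a⁻¹ • x) = f x := fun x => by simp [hg, smul_smul, mul_inv_cancel₀ ha.ne']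
  have hν' : ∀ h : Rn n → ℝ, Continuous h → ∫ y, h y ∂ν = ∫ x, h (a⁻¹ • x) ∂μ := fun h hh =>
    integral_map hem.aemeasurable hh.aestronglyMeasurable
  have key := unbdd_of_bdd hK (M9.slc_map_smul (M9.slc_of_logconcave hm h0 hc) ha) hνS
    (M9.test_of_compact hgc hgs)
  have hent : entropy ν (fun y => g y ^ 2) = entropy μ (fun x => f x ^ 2) := by
    unfold entropy
    rw [hν' (fun y => g y ^ 2 * Real.log (g y ^ 2))
        (Real.continuous_mul_log.comp (hgc.continuous.pow 2)),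
      hν' (fun y => g y ^ 2) (hgc.continuous.pow 2)]
    simp only [hfg]
  have hd : ∀ y, fderiv ℝ g y = a • fderiv ℝ f (a • y) := fun y => fderiv_comp_smul a
  have hen : energy ν g = a ^ 2 * energy μ f := by
    unfold energy
    rw [hν' (fun y => ‖fderiv ℝ g y‖ ^ 2) ((hgc.continuous_fderiv two_ne_zero).norm.pow 2),
      ← integral_const_mul]
    refine integral_congr_ae (ae_of_all _ fun x => ?_)
    simp only [hd, smul_smul, mul_inv_cancel₀ ha.ne', one_smul, norm_smul, mul_pow,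
      Real.norm_eq_abs, sq_abs]
  rw [hent, hen] at key
  exact key.trans (le_of_eq (by ring))

/-- The general statement, from the compactly supported case. -/
theorem polyGeneral (hB : PolyBdd) :
    ∃ C : ℝ, 0 < C ∧ ∀ n : ℕ, 1 ≤ n →
      ∀ ρ : EuclideanSpace ℝ (Fin n) → ℝ, Measurable ρ → (∀ x, 0 ≤ ρ x) →
        ConcaveOn ℝ {x | 0 < ρ x} (fun x => Real.log (ρ x)) →
      ∀ μ : Measure (EuclideanSpace ℝ (Fin n)),
        μ = volume.withDensity (fun x => ENNReal.ofReal (ρ x)) → IsProbabilityMeasure μ →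
      ∀ a : ℝ, 0 < a →
        (∀ v : EuclideanSpace ℝ (Fin n), ‖v‖ = 1 →
          ∫⁻ x, ENNReal.ofReal (Real.exp (⟪x, v⟫ ^ 2 / a ^ 2)) ∂μ ≤ 2) →
      ∀ f : EuclideanSpace ℝ (Fin n) → ℝ, ContDiff ℝ (⊤ : ℕ∞) f → HasCompactSupport f →
        ∫ x, f x ^ 2 * Real.log (f x ^ 2) ∂μ
            - (∫ x, f x ^ 2 ∂μ) * Real.log (∫ x, f x ^ 2 ∂μ)
          ≤ C * (1 + Real.log ((n : ℝ) + 1)) ^ 4 * a ^ 2 * ∫ x, ‖fderiv ℝ f x‖ ^ 2 ∂μ := by
  obtain ⟨C, hC, h⟩ := hB
  refine ⟨C, hC, fun n hn ρ hm h0 hc μ hμ hp a ha hS f hf hfs => ?_⟩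
  subst hμ
  exact scaled_of_bdd (fun ν => h n ν hn) ρ hm h0 hc hp a ha hS f (hf.of_le (by decide)) hfs

end Vale.Agent.P245.Poly
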