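import Vale.Agent.P245.Poly.MartExp
import Vale.Agent.P245.Poly.Drift

/-!
# P245 polylog, step D: `PolyBreg`

With probability `1 - (n+2)^(-30)` all tilts at time `t ≤ c / L⁴` have log-Laplace transforms
with Bregman divergence at most `R² / (L t)` on `R ≤ |δ| ≤ 2 R`.
-/

namespace Vale.Agent.P245.Poly

open MeasureTheory ProbabilityTheory Filter Topology Matrix
open scoped RealInnerProductSpace ENNReal

namespace Main

variable {n q : ℕ}

/-- Jensen's inequality after a translation of the Gaussian. -/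
lemma gauss_tangent {F : Rn n → ℝ} (hF : Measurable F) {B : ℝ} (hB : ∀ z, |F z| ≤ B) (d : Rn n) :
    Real.exp (∫ z, F (z + d) ∂gam n - ‖d‖ ^ 2 / 2) ≤ ∫ z, Real.exp (F z) ∂gam n := by
  set m := ∫ z, F (z + d) ∂gam n - ‖d‖ ^ 2 / 2 with hm
  set Y : Rn n → ℝ := fun z => F (z + d) - ⟪d, z⟫ - ‖d‖ ^ 2 / 2 with hY
  obtain ⟨iL, eL⟩ := MartExp.gam_inner d
  have iF : Integrable (fun z => F (z + d)) (gam n) :=
    Chain.integrable_of_bdd (hF.comp (measurable_add_const d)) fun z => hB _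
  have iY : Integrable Y (gam n) := (iF.sub iL).sub (integrable_const _)
  have eY : ∫ z, Y z ∂gam n = m := by
    simp only [hY]
    rw [integral_sub (by exact iF.sub iL) (integrable_const _), integral_sub iF iL, eL,
      integral_const, probReal_univ, one_smul, sub_zero]
  have iE : Integrable (fun z => Real.exp (Y z)) (gam n) := by
    refine Integrable.mono' ((mgf_inner_gam (-d)).1.const_mul (Real.exp B))
      (Real.measurable_exp.comp (((hF.comp (measurable_add_const d)).sub (by fun_prop)).sub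
        measurable_const)).aestronglyMeasurable (ae_of_all _ fun z => ?_)
    rw [Real.norm_eq_abs, Real.abs_exp, ← Real.exp_add, Real.exp_le_exp, hY, inner_neg_left]
    have := (abs_le.1 (hB (z + d))).2
    nlinarith [sq_nonneg ‖d‖]
  have e : ∫ z, Real.exp (F z) ∂gam n = ∫ z, Real.exp (Y z) ∂gam n := by
    have h := integral_shift (fun z => Real.exp (F z - ⟪d, z⟫ + ‖d‖ ^ 2 / 2)) d
    have e1 : ∀ z, Real.exp (F (z + d) - ⟪d, z + d⟫ + ‖d‖ ^ 2 / 2) = Real.exp (Y z) := fun z => by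
      rw [hY, inner_add_right, real_inner_self_eq_norm_sq]; ring_nf
    have e2 : ∀ z, shiftW d z * Real.exp (F z - ⟪d, z⟫ + ‖d‖ ^ 2 / 2) = Real.exp (F z) := fun z => by
      unfold shiftW; rw [← Real.exp_add]; ring_nf
    simp only [e1, e2] at h
    exact h.symm
  rw [e]
  have i1 : Integrable (fun z => Real.exp m * (1 + (Y z - m))) (gam n) :=
    ((integrable_const (1 : ℝ)).add (iY.sub (integrable_const m))).const_mul _
  refine le_trans (le_of_eq ?_) (integral_mono i1 iE fun z => ?_)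
  · rw [integral_const_mul, integral_add (integrable_const _) (by exact iY.sub (integrable_const m)),
      integral_sub iY (integrable_const _), eY]
    simp
  · have := Real.add_one_le_exp (Y z - m)
    calc Real.exp m * (1 + (Y z - m)) ≤ Real.exp m * Real.exp (Y z - m) :=
          mul_le_mul_of_nonneg_left (by linarith) (Real.exp_pos _).le
      _ = Real.exp (Y z) := by rw [← Real.exp_add]; ring_nf

/-- Jensen's inequality on an event. -/
lemma set_tangent {Ω : Type} [MeasurableSpace Ω] {P : Measure Ω} [IsProbabilityMeasure P]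
    {w Y : Ω → ℝ} (hw : Measurable w) (hw01 : ∀ p, 0 ≤ w p ∧ w p ≤ 1) (hY : Measurable Y) {B : ℝ}
    (hB : ∀ p, |Y p| ≤ B) {A : ℝ} (hA : 0 < A) (h : ∫ p, w p * Real.exp (Y p) ∂P ≤ A)
    (hP : 0 < ∫ p, w p ∂P) :
    ∫ p, w p * Y p ∂P ≤ (∫ p, w p ∂P) * Real.log (A / ∫ p, w p ∂P) := by
  set W := ∫ p, w p ∂P with hW
  set m := Real.log (A / W) with hm
  have iw : Integrable w P := Chain.integrable_of_bdd hw (C := 1) fun p => by
    rw [abs_of_nonneg (hw01 p).1]; exact (hw01 p).2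
  have iY : Integrable (fun p => w p * Y p) P := Chain.integrable_of_bdd (hw.mul hY) (C := 1 * B)
    fun p => by
      rw [abs_mul, abs_of_nonneg (hw01 p).1]
      exact mul_le_mul (hw01 p).2 (hB p) (abs_nonneg _) zero_le_one
  have iE : Integrable (fun p => w p * Real.exp (Y p)) P :=
    Chain.integrable_of_bdd (hw.mul (Real.measurable_exp.comp hY)) (C := 1 * Real.exp B) fun p => by
      rw [abs_mul, abs_of_nonneg (hw01 p).1, Real.abs_exp]
      exact mul_le_mul (hw01 p).2 (Real.exp_le_exp.2 (abs_le.1 (hB p)).2) (Real.exp_pos _).le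
        zero_le_one
  have hpt : ∀ p, w p * Y p ≤ (W / A) * (w p * Real.exp (Y p)) + (m - 1) * w p := by
    intro p
    have h1 := Real.add_one_le_exp (Y p - m)
    rw [Real.exp_sub, hm, Real.exp_log (div_pos hA hP), div_div_eq_mul_div] at h1
    have h2 := mul_le_mul_of_nonneg_left h1 (hw01 p).1
    have e : w p * (Real.exp (Y p) * W / A) = W / A * (w p * Real.exp (Y p)) := by ring
    rw [e, ← hm] at h2
    linarith
  refine (integral_mono iY ((iE.const_mul _).add (iw.const_mul _)) hpt).trans ?_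
  simp only [Pi.add_apply]
  rw [integral_add (iE.const_mul _) (iw.const_mul _), integral_const_mul, integral_const_mul, ← hW]
  have := mul_le_mul_of_nonneg_left h (div_nonneg hP.le hA.le)
  rw [div_mul_cancel₀ _ hA.ne'] at this
  linarith

/-- A measurable choice of a direction with a large divergence. -/
lemma select (hn : 1 ≤ n) {B : Rn n → Rn n → ℝ} (hB : Continuous fun p : Rn n × Rn n => B p.1 p.2)
    {R thr : ℝ} (hR : 0 < R) :
    MeasurableSet {th | ∃ d : Rn n, R ≤ ‖d‖ ∧ ‖d‖ ≤ 2 * R ∧ thr < B th d} ∧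
    ∃ sel : Rn n → Rn n, Measurable sel ∧ (∀ th, R ≤ ‖sel th‖ ∧ ‖sel th‖ ≤ 2 * R) ∧
      ∀ th ∈ {th | ∃ d : Rn n, R ≤ ‖d‖ ∧ ‖d‖ ≤ 2 * R ∧ thr < B th d}, thr < B th (sel th) := by
  classical
  set A : Set (Rn n) := {d | R < ‖d‖ ∧ ‖d‖ < 2 * R} with hA
  have hAo : IsOpen A := (isOpen_lt continuous_const continuous_norm).inter
    (isOpen_lt continuous_norm continuous_const)
  have hA0 : (3 * R / 2) • unit (⟨0, hn⟩ : Fin n) ∈ A := by
    simp only [hA, Set.mem_ofPred_eq, norm_smul, unit, PiLp.norm_single, norm_one, mul_one,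
      Real.norm_eq_abs, abs_of_pos (by positivity : (0 : ℝ) < 3 * R / 2)]
    constructor <;> linarith
  have : Nonempty A := ⟨⟨_, hA0⟩⟩
  set d : ℕ → A := TopologicalSpace.denseSeq A with hd
  have hdense : DenseRange d := TopologicalSpace.denseRange_denseSeq A
  have hBl : ∀ x : Rn n, Continuous fun th => B th x := fun x =>
    hB.comp (continuous_id.prodMk continuous_const)
  have hBr : ∀ th : Rn n, Continuous fun x => B th x := fun th =>
    hB.comp (continuous_const.prodMk continuous_id)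
  set E := {th | ∃ d : Rn n, R ≤ ‖d‖ ∧ ‖d‖ ≤ 2 * R ∧ thr < B th d} with hE
  have key : ∀ th ∈ E, ∃ i, thr < B th (d i : Rn n) := by
    rintro th ⟨x, h1, h2, h3⟩
    have hx : 0 < ‖x‖ := lt_of_lt_of_le hR h1
    set r : ℕ → ℝ := fun k => 1 + ((k : ℝ) + 1)⁻¹ * (3 * R / 2 / ‖x‖ - 1) with hr
    have hlim : Tendsto (fun k => r k • x) atTop (𝓝 x) := by
      have h4 : Tendsto r atTop (𝓝 1) := by
        have h5 := ((tendsto_one_div_add_atTop_nhds_zero_nat).mul_const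
          (3 * R / 2 / ‖x‖ - 1)).const_add 1
        simpa [hr] using h5
      simpa using h4.smul_const x
    have hev : ∀ᶠ k in atTop, thr < B th (r k • x) :=
      ((hBr th).tendsto x).comp hlim |>.eventually (lt_mem_nhds h3)
    obtain ⟨k, hk⟩ := hev.exists
    have hl : 0 < ((k : ℝ) + 1)⁻¹ := by positivity
    have hl1 : ((k : ℝ) + 1)⁻¹ ≤ 1 :=
      inv_le_one_of_one_le₀ (by linarith [(Nat.cast_nonneg k : (0 : ℝ) ≤ k)])
    have e : r k * ‖x‖ = (1 - ((k : ℝ) + 1)⁻¹) * ‖x‖ + ((k : ℝ) + 1)⁻¹ * (3 * R / 2) := by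
      simp only [hr]
      field_simp
      ring
    have hr0 : 0 < r k * ‖x‖ := by
      rw [e]
      have : 0 ≤ (1 - ((k : ℝ) + 1)⁻¹) * ‖x‖ := mul_nonneg (by linarith) hx.le
      nlinarith
    have hmem : r k • x ∈ A := by
      have hrp : 0 < r k := pos_of_mul_pos_left hr0 hx.le
      simp only [hA, Set.mem_ofPred_eq, norm_smul, Real.norm_eq_abs, abs_of_pos hrp, e]
      have g1 := mul_le_mul_of_nonneg_left h1 (by linarith : 0 ≤ 1 - ((k : ℝ) + 1)⁻¹)
      have g2 := mul_le_mul_of_nonneg_left h2 (by linarith : 0 ≤ 1 - ((k : ℝ) + 1)⁻¹)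
      constructor <;> nlinarith
    have hopen : IsOpen {a : A | thr < B th (a : Rn n)} :=
      isOpen_lt continuous_const ((hBr th).comp continuous_subtype_val)
    obtain ⟨i, hi⟩ := hdense.exists_mem_open hopen ⟨⟨_, hmem⟩, hk⟩
    exact ⟨i, hi⟩
  have hEo : E = ⋃ x : {x : Rn n // R ≤ ‖x‖ ∧ ‖x‖ ≤ 2 * R}, {th | thr < B th (x : Rn n)} := by
    ext th
    simp [hE, and_assoc]
  have hEm : MeasurableSet E := by
    rw [hEo]
    exact (isOpen_iUnion fun (x : {x : Rn n // R ≤ ‖x‖ ∧ ‖x‖ ≤ 2 * R}) =>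
      isOpen_lt continuous_const (hBl x.1)).measurableSet
  refine ⟨hEm, ?_⟩
  have hex : ∀ th, ∃ i, thr < B th (d i : Rn n) ∨ th ∉ E := fun th => by
    by_cases h : th ∈ E
    · obtain ⟨i, hi⟩ := key th h
      exact ⟨i, Or.inl hi⟩
    · exact ⟨0, Or.inr h⟩
  refine ⟨fun th => (d (Nat.find (hex th)) : Rn n), ?_, fun th => ?_, fun th hth => ?_⟩
  · exact (measurable_from_nat (f := fun i => (d i : Rn n))).comp (measurable_find hex fun i =>
      (measurableSet_lt measurable_const (hBl _).measurable).union hEm.compl)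
  · have := (d (Nat.find (hex th))).2
    exact ⟨this.1.le, this.2.le⟩
  · exact (Nat.find_spec (hex th)).resolve_right fun h => h hth

/-- Unit vector of a direction, as a tuple. -/
noncomputable def dir (x : Rn n) : Fin n → ℝ := fun j => ‖x‖⁻¹ * x j

lemma dir_unit {x : Rn n} (hx : x ≠ 0) : dir x ⬝ᵥ dir x = 1 := by
  have h := norm_ne_zero_iff.2 hx
  have e := EuclideanSpace.real_norm_sq_eq x
  calc dir x ⬝ᵥ dir x = ‖x‖⁻¹ ^ 2 * ∑ j, x j ^ 2 := by
        simp only [dotProduct, dir, Finset.mul_sum]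
        exact Finset.sum_congr rfl fun j _ => by ring
    _ = 1 := by rw [← e]; field_simp

/-- The tested exponent. -/
noncomputable def Fq (μ : Measure (Rn n)) (t t' : ℝ) (q : ℕ) (β h : ℝ) {N : ℕ}
    (w : Fin (N + 1) → Rn n) (x xi : Rn n) : ℝ :=
  tens q (dir x) ⬝ᵥ (MartExp.Xj μ t t' q β h xi N w *ᵥ tens q (dir x))

variable {μ : Measure (Rn n)} {t t' K β h : ℝ}

lemma measurable_secant_pair (H : MartExp.Reg μ t t' K) {u : ℝ} (hu : u ∈ Set.Icc 0 t)
    {α : Type} [MeasurableSpace α] {f g : α → Rn n} (hf : Measurable f) (hg : Measurable g)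
    (j l k : Fin n) :
    (Measurable fun a => secant μ t t' u (f a) (g a) j l) ∧
      Measurable fun a => dsec μ t t' u (f a) (g a) j l k :=
  ⟨Measurable.comp (g := fun p : Rn n × Rn n => secant μ t t' u p.1 p.2 j l)
      (f := fun a => (f a, g a)) (H.cont u hu j l k).1.measurable (hf.prodMk hg),
    Measurable.comp (g := fun p : Rn n × Rn n => dsec μ t t' u p.1 p.2 j l k)
      (f := fun a => (f a, g a)) (H.cont u hu j l k).2.measurable (hf.prodMk hg)⟩

lemma measurable_Xj (H : MartExp.Reg μ t t' K) (hh : 0 ≤ h) {N : ℕ} (hNh : (N : ℝ) * h ≤ t)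
    (ht : 0 ≤ t) {α : Type} [MeasurableSpace α] {f : α → Fin (N + 1) → Rn n} {g : α → Rn n}
    (hf : Measurable f) (hg : Measurable g) (a c : Fin q → Fin n) :
    Measurable fun p => MartExp.Xj μ t t' q β h (g p) N (f p) a c := by
  have hfi : ∀ i, Measurable fun p => f p i := fun i => (measurable_pi_apply i).comp hf
  simp only [MartExp.Xj, Matrix.sub_apply, Matrix.smul_apply, smul_eq_mul, Matrix.sum_apply,
    MartExp.Qm, Matrix.mul_apply, MartExp.Tm, MartExp.Tk, kron, Matrix.of_apply]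
  refine Measurable.sub (measurable_const.mul (Measurable.sub ?_ ?_)) (measurable_const.mul ?_)
  · exact Finset.measurable_sum _ fun i _ => ((measurable_secant_pair H ⟨by positivity, hNh⟩
      (hfi _) hg (a i) (c i) (a i)).1).mul_const _
  · exact Finset.measurable_sum _ fun i _ => ((measurable_secant_pair H ⟨le_rfl, ht⟩
      measurable_const hg (a i) (c i) (a i)).1).mul_const _
  · refine Finset.measurable_sum _ fun m _ => Finset.measurable_sum _ fun k _ =>
      Finset.measurable_sum _ fun e _ => ?_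
    have hm : ((m : ℕ) + 1 : ℝ) * h ∈ Set.Icc 0 t := by
      refine ⟨by positivity, le_trans (mul_le_mul_of_nonneg_right ?_ hh) hNh⟩
      have : (m : ℕ) + 1 ≤ N := m.2
      exact_mod_cast this
    exact (Finset.measurable_sum _ fun i _ => ((measurable_secant_pair H hm
      (hfi _) hg (a i) (e i) k).2).mul_const _).mul
      (Finset.measurable_sum _ fun i _ => ((measurable_secant_pair H hm
      (hfi _) hg (e i) (c i) k).2).mul_const _)

lemma measurable_Fq (H : MartExp.Reg μ t t' K) (hh : 0 ≤ h) {N : ℕ} (hNh : (N : ℝ) * h ≤ t)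
    (ht : 0 ≤ t) {α : Type} [MeasurableSpace α] {f : α → Fin (N + 1) → Rn n} {g x : α → Rn n}
    (hf : Measurable f) (hg : Measurable g) (hx : Measurable x) :
    Measurable fun p => Fq μ t t' q β h (f p) (x p) (g p) := by
  have hd : ∀ a, Measurable fun p => tens q (dir (x p)) a := fun a => by
    simp only [tens, dir]
    exact Finset.measurable_prod _ fun i _ => hx.norm.inv.mul
      ((PiLp.continuous_apply 2 _ _).measurable.comp hx)
  simp only [Fq, dotProduct, mulVec]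
  exact Finset.measurable_sum _ fun a _ => (hd a).mul (Finset.measurable_sum _ fun c _ =>
    (measurable_Xj H hh hNh ht hf hg a c).mul (hd c))

/-- Averaged quadratic form of the secant. -/
lemma quad_avg (hV : SecantValue) [IsProbabilityMeasure μ] (hμ : IsSLC 0 μ) (hb : BddSupp μ)
    (htt : t < t') {u : ℝ} (hu : u ∈ Set.Icc 0 t) (th : Rn n) {x : Rn n} :
    ∫ xi, dir x ⬝ᵥ ((Matrix.of fun j l =>
        secant μ t t' u th (xi + (Real.sqrt ((t' - t) / 2))⁻¹ • x) j l) *ᵥ dir x) ∂gam n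
      = (‖x‖⁻¹) ^ 2 * step μ u (t' - u) th (fun p => Bg μ t' p x) := by
  rw [← hV n μ inferInstance hμ hb t t' u hu.1 hu.2 htt th x, ← integral_const_mul]
  refine integral_congr_ae (ae_of_all _ fun xi => ?_)
  simp only [dotProduct, mulVec, dir, Matrix.of_apply, Finset.mul_sum]
  exact Finset.sum_congr rfl fun j _ => Finset.sum_congr rfl fun l _ => by ring

/-- Lower bound for the averaged exponent along a path. -/
lemma path_bound (hKQ : KronQuad) (hV : SecantValue) (hI : BregInit) {Cb : ℝ}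
    (hB : ∀ (n : ℕ) (μ : Measure (Rn n)), IsProbabilityMeasure μ → IsSLC 0 μ →
      BddSupp μ → ∀ (t t' u lam : ℝ) (th : Rn n), 0 < u → u ≤ t → t < t' → t' ≤ 1 → 0 ≤ lam →
      (∀ w : Rn n, vr (tilt μ u th) (fun x => ⟪x, w⟫) ≤ lam * ‖w‖ ^ 2) →
      ∀ v : Rn n, ‖v‖ = 1 →
        (∀ xi, ∑ j, ∑ k, (∑ l, v l * dsec μ t t' u th xi j l k) ^ 2
          ≤ Cb * (1 + lam * Real.sqrt (lam / u) * t' ^ 2) / (t' ^ 2 * (t' - t))) ∧
        ∀ R : ℝ, 0 < R →
          ∫ xi, ∑ k, (∑ j, ∑ l, v j * v l *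
              dsec μ t t' u th (xi + (R / Real.sqrt ((t' - t) / 2)) • v) j l k) ^ 2
            ∂stdGaussian (Rn n)
          ≤ Cb * (1 + lam * Real.sqrt (lam / u) * t' ^ 2) / (t' ^ 2 * R ^ 2))
    (hCb : 0 ≤ Cb) [IsProbabilityMeasure μ] (hμ : IsSLC 0 μ) (hb : BddSupp μ) (hS : SubG μ)
    (H : MartExp.Reg μ t t' K) (ht : 0 < t) (htt : t < t') (ht1 : t' ≤ 1) (hβ : 0 ≤ β) {N : ℕ}
    (hh : 0 < h) (hNh : (N : ℝ) * h = t) {R : ℝ} (hR : 1 ≤ R)
    (w : Fin (N + 1) → Rn n) (lam : Fin N → ℝ) (hl0 : ∀ i, 0 ≤ lam i)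
    (hl : ∀ (i : Fin N) (v : Rn n), vr (tilt μ (((i : ℕ) + 1 : ℝ) * h) (w i.castSucc))
      (fun x => ⟪x, v⟫) ≤ lam i * ‖v‖ ^ 2)
    {x : Rn n} (hx1 : R ≤ ‖x‖) :
    β * q * (‖x‖⁻¹ ^ 2 * step μ t (t' - t) (w (Fin.last N)) (fun p => Bg μ t' p x) - 4)
      - β ^ 2 / 2 * (Cb * (q / (t' ^ 2 * (t' - t)) + (q : ℝ) ^ 2 / (t' ^ 2 * R ^ 2))
          * ∑ i : Fin N, h * Phi t' (((i : ℕ) + 1 : ℝ) * h) (lam i))
    ≤ ∫ xi, Fq μ t t' q β h w x (xi + (Real.sqrt ((t' - t) / 2))⁻¹ • x) ∂gam n := by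
  have hx0 : x ≠ 0 := norm_pos_iff.1 (by linarith)
  set s := Real.sqrt ((t' - t) / 2) with hs
  set d := s⁻¹ • x with hd
  set v := dir x with hv
  have hvu : v ⬝ᵥ v = 1 := dir_unit hx0
  set ψ := tens q v with hψ
  set M : ℝ → Rn n → Rn n → Matrix (Fin n) (Fin n) ℝ := fun u th xi =>
    Matrix.of fun j l => secant μ t t' u th xi j l with hM
  set D : ℝ → Rn n → Rn n → Fin n → Matrix (Fin n) (Fin n) ℝ := fun u th xi k =>
    Matrix.of fun j l => dsec μ t t' u th xi j l k with hD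
  have hMs : ∀ u th xi, (M u th xi).IsSymm := fun u th xi => by
    ext j l; simp [hM, H.symm u th xi j l]
  have hDs : ∀ u th xi k, (D u th xi k).IsSymm := fun u th xi k => by
    ext j l
    simp only [hD, transpose_apply, Matrix.of_apply, dsec]
    exact congrArg (fun f => D1 k f th) (funext fun p => H.symm u p xi l j)
  have hTm : ∀ u th xi, ψ ⬝ᵥ (MartExp.Tm μ t t' q u th xi *ᵥ ψ)
      = q * (v ⬝ᵥ (M u th xi *ᵥ v)) := fun u th xi =>
    (hKQ n q (M u th xi) v (hMs u th xi) hvu).2.2.1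
  have hQ : ∀ u th xi, ψ ⬝ᵥ (MartExp.Qm μ t t' q u th xi *ᵥ ψ)
      ≤ q * ∑ k, (D u th xi k *ᵥ v) ⬝ᵥ (D u th xi k *ᵥ v)
        + (q : ℝ) ^ 2 * ∑ k, (v ⬝ᵥ (D u th xi k *ᵥ v)) ^ 2 := by
    intro u th xi
    rw [MartExp.Qm, sum_mulVec, dotProduct_sum, Finset.mul_sum, Finset.mul_sum,
      ← Finset.sum_add_distrib]
    exact Finset.sum_le_sum fun k _ => (hKQ n q (D u th xi k) v (hDs u th xi k) hvu).2.2.2
  have hexp : ∀ xi, Fq μ t t' q β h w x xi
      = β * (q * (v ⬝ᵥ (M ((N : ℝ) * h) (w (Fin.last N)) xi *ᵥ v))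
          - q * (v ⬝ᵥ (M 0 0 xi *ᵥ v)))
        - β ^ 2 * h / 2 * ∑ i : Fin N,
            ψ ⬝ᵥ (MartExp.Qm μ t t' q (((i : ℕ) + 1 : ℝ) * h) (w i.castSucc) xi *ᵥ ψ) := by
    intro xi
    simp only [Fq, MartExp.Xj, sub_mulVec, smul_mulVec, dotProduct_sub, dotProduct_smul, smul_eq_mul,
      sum_mulVec, dotProduct_sum, ← hv, ← hψ, hTm]
  have hcol : ∀ (i : Fin N) xi,
      ∑ k, (D (((i : ℕ) + 1 : ℝ) * h) (w i.castSucc) xi k *ᵥ v)
          ⬝ᵥ (D (((i : ℕ) + 1 : ℝ) * h) (w i.castSucc) xi k *ᵥ v)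
        ≤ Cb * Phi t' (((i : ℕ) + 1 : ℝ) * h) (lam i) / (t' ^ 2 * (t' - t)) := by
    intro i xi
    have hu : ((i : ℕ) + 1 : ℝ) * h ≤ t := by
      rw [← hNh]
      refine mul_le_mul_of_nonneg_right ?_ hh.le
      have : (i : ℕ) + 1 ≤ N := i.2
      exact_mod_cast this
    have hnv : ‖‖x‖⁻¹ • x‖ = 1 := norm_smul_inv_norm hx0
    refine le_of_eq_of_le ?_ ((hB n μ inferInstance hμ hb t t' _ (lam i) (w i.castSucc)
      (by positivity) hu htt ht1 (hl0 i) (hl i) _ hnv).1 xi)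
    rw [Finset.sum_comm]
    refine Finset.sum_congr rfl fun k _ => ?_
    simp only [dotProduct, mulVec, hD, Matrix.of_apply, hv, dir, PiLp.smul_apply, smul_eq_mul, ← pow_two]
    exact Finset.sum_congr rfl fun j _ => congrArg (· ^ 2)
      (Finset.sum_congr rfl fun l _ => by ring)
  have hwq : ∀ (i : Fin N),
      ∫ xi, ∑ k, (v ⬝ᵥ (D (((i : ℕ) + 1 : ℝ) * h) (w i.castSucc) (xi + d) k *ᵥ v)) ^ 2 ∂gam n
        ≤ Cb * Phi t' (((i : ℕ) + 1 : ℝ) * h) (lam i) / (t' ^ 2 * R ^ 2) := by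
    intro i
    have hu : ((i : ℕ) + 1 : ℝ) * h ≤ t := by
      rw [← hNh]
      refine mul_le_mul_of_nonneg_right ?_ hh.le
      have : (i : ℕ) + 1 ≤ N := i.2
      exact_mod_cast this
    have hnv : ‖‖x‖⁻¹ • x‖ = 1 := norm_smul_inv_norm hx0
    have h1 := (hB n μ inferInstance hμ hb t t' _ (lam i) (w i.castSucc)
      (by positivity) hu htt ht1 (hl0 i) (hl i) _ hnv).2 ‖x‖ (norm_pos_iff.2 hx0)
    have e : (‖x‖ / Real.sqrt ((t' - t) / 2)) • (‖x‖⁻¹ • x) = d := by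
      rw [hd, smul_smul, ← hs]
      congr 1
      field_simp
    rw [e] at h1
    refine le_trans (le_of_eq ?_) (h1.trans (div_le_div_of_nonneg_left
      (mul_nonneg hCb (by have := hl0 i; positivity)) ?_ ?_))
    · refine integral_congr_ae (ae_of_all _ fun xi => Finset.sum_congr rfl fun k _ => ?_)
      simp only [dotProduct, mulVec, hD, Matrix.of_apply, hv, dir, PiLp.smul_apply, smul_eq_mul,
        Finset.mul_sum]
      exact congrArg (· ^ 2) (Finset.sum_congr rfl fun j _ => Finset.sum_congr rfl fun l _ => by ring)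
    · have : 0 < t' := ht.trans htt
      positivity
    · exact mul_le_mul_of_nonneg_left (pow_le_pow_left₀ (by linarith) hx1 2) (sq_nonneg _)
  -- integrate
  have hmem : ∀ i : Fin N, ((i : ℕ) + 1 : ℝ) * h ∈ Set.Icc 0 t := fun i => by
    refine ⟨by positivity, ?_⟩
    rw [← hNh]
    refine mul_le_mul_of_nonneg_right ?_ hh.le
    have : (i : ℕ) + 1 ≤ N := i.2
    exact_mod_cast this
  have iM : ∀ u ∈ Set.Icc 0 t, ∀ th, Integrable (fun xi => v ⬝ᵥ (M u th (xi + d) *ᵥ v)) (gam n) := by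
    intro u hu th
    simp only [dotProduct, mulVec, hM, Matrix.of_apply]
    refine integrable_finsetSum _ fun j _ => Integrable.const_mul (integrable_finsetSum _ fun l _ =>
      Integrable.mul_const ?_ _) _
    exact Chain.integrable_of_bdd (measurable_secant_pair H hu (f := fun _ => th)
      (g := fun xi => xi + d) measurable_const (measurable_add_const d) j l j).1
      fun xi => (H.bd u hu th (xi + d) j l).1
  have iD : ∀ (i : Fin N) (j l k : Fin n), Integrable (fun xi =>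
      dsec μ t t' (((i : ℕ) + 1 : ℝ) * h) (w i.castSucc) (xi + d) j l k) (gam n) := fun i j l k =>
    Chain.integrable_of_bdd (measurable_secant_pair H (hmem i) (f := fun _ => w i.castSucc)
      (g := fun xi => xi + d) measurable_const (measurable_add_const d) j l k).2
      fun xi => (H.bd _ (hmem i) _ (xi + d) j l).2.1 k
  have iw : ∀ i : Fin N, Integrable (fun xi =>
      ∑ k, (v ⬝ᵥ (D (((i : ℕ) + 1 : ℝ) * h) (w i.castSucc) (xi + d) k *ᵥ v)) ^ 2) (gam n) := by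
    intro i
    refine integrable_finsetSum _ fun k _ => ?_
    simp only [dotProduct, mulVec, hD, Matrix.of_apply]
    refine Chain.integrable_of_bdd (Measurable.pow_const ?_ 2)
      (C := (∑ j, |v j| * ∑ l, K * |v l|) ^ 2) fun xi => ?_
    · exact Finset.measurable_sum _ fun j _ => measurable_const.mul (Finset.measurable_sum _ fun l _ =>
        (measurable_secant_pair H (hmem i) (f := fun _ => w i.castSucc) (g := fun xi => xi + d)
          measurable_const (measurable_add_const d) j l k).2.mul_const _)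
    · rw [abs_pow]
      refine pow_le_pow_left₀ (abs_nonneg _) ((Finset.abs_sum_le_sum_abs _ _).trans
        (Finset.sum_le_sum fun j _ => ?_)) 2
      rw [abs_mul]
      refine mul_le_mul_of_nonneg_left ((Finset.abs_sum_le_sum_abs _ _).trans
        (Finset.sum_le_sum fun l _ => ?_)) (abs_nonneg _)
      rw [abs_mul]
      exact mul_le_mul_of_nonneg_right ((H.bd _ (hmem i) _ (xi + d) j l).2.1 k) (abs_nonneg _)
  set k0 : Fin N → ℝ := fun i => Cb * Phi t' (((i : ℕ) + 1 : ℝ) * h) (lam i) with hk0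
  have hlow : ∀ xi, β * (q * (v ⬝ᵥ (M t (w (Fin.last N)) (xi + d) *ᵥ v))
        - q * (v ⬝ᵥ (M 0 0 (xi + d) *ᵥ v)))
      - β ^ 2 * h / 2 * ∑ i : Fin N, (q * (k0 i / (t' ^ 2 * (t' - t))) + (q : ℝ) ^ 2 *
          ∑ k, (v ⬝ᵥ (D (((i : ℕ) + 1 : ℝ) * h) (w i.castSucc) (xi + d) k *ᵥ v)) ^ 2)
      ≤ Fq μ t t' q β h w x (xi + d) := by
    intro xi
    rw [hexp, hNh]
    refine sub_le_sub_left (mul_le_mul_of_nonneg_left (Finset.sum_le_sum fun i _ => ?_)
      (by positivity)) _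
    refine (hQ _ _ _).trans (add_le_add ?_ le_rfl)
    exact mul_le_mul_of_nonneg_left (hcol i _) (Nat.cast_nonneg q)
  have iA : Integrable (fun xi => β * (q * (v ⬝ᵥ (M t (w (Fin.last N)) (xi + d) *ᵥ v))
      - q * (v ⬝ᵥ (M 0 0 (xi + d) *ᵥ v)))) (gam n) :=
    (((iM t ⟨ht.le, le_rfl⟩ _).const_mul _).sub ((iM 0 ⟨le_rfl, ht.le⟩ _).const_mul _)).const_mul β
  have iB : Integrable (fun xi => β ^ 2 * h / 2 * ∑ i : Fin N,
      (q * (k0 i / (t' ^ 2 * (t' - t))) + (q : ℝ) ^ 2 *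
        ∑ k, (v ⬝ᵥ (D (((i : ℕ) + 1 : ℝ) * h) (w i.castSucc) (xi + d) k *ᵥ v)) ^ 2)) (gam n) :=
    (integrable_finsetSum _ fun i _ => (integrable_const _).add ((iw i).const_mul _)).const_mul _
  have iF : Integrable (fun xi => Fq μ t t' q β h w x (xi + d)) (gam n) := by
    refine Chain.integrable_of_bdd (measurable_Fq H hh.le hNh.le ht.le (f := fun _ => w)
      (g := fun xi => xi + d) (x := fun _ => x) measurable_const (measurable_add_const d)
      measurable_const) fun xi => (MartExp.quad_le_esum _ _).trans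
        (mul_le_mul_of_nonneg_right (MartExp.esum_le fun a c =>
          MartExp.Xj_abs H ht.le hh.le hNh.le (xi + d) N le_rfl w a c)
          (Finset.sum_nonneg fun a _ => mul_self_nonneg _))
  refine le_trans ?_ (integral_mono (iA.sub iB) iF hlow)
  simp only [Pi.sub_apply]
  have eN : ∫ xi, v ⬝ᵥ (M t (w (Fin.last N)) (xi + d) *ᵥ v) ∂gam n
      = ‖x‖⁻¹ ^ 2 * step μ t (t' - t) (w (Fin.last N)) (fun p => Bg μ t' p x) :=
    quad_avg hV hμ hb htt ⟨ht.le, le_rfl⟩ _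
  have e0 : ∫ xi, v ⬝ᵥ (M 0 0 (xi + d) *ᵥ v) ∂gam n ≤ 4 := by
    refine (quad_avg hV hμ hb htt ⟨le_rfl, ht.le⟩ _).le.trans ?_
    rw [sub_zero]
    refine (mul_le_mul_of_nonneg_left (hI n μ inferInstance hb hS t' (ht.trans htt).le x)
      (sq_nonneg _)).trans ?_
    rw [inv_pow, inv_mul_le_iff₀ (by positivity)]
    nlinarith
  rw [integral_sub iA iB, integral_const_mul, integral_sub ((iM t ⟨ht.le, le_rfl⟩ _).const_mul _)
    ((iM 0 ⟨le_rfl, ht.le⟩ _).const_mul _), integral_const_mul, integral_const_mul, eN,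
    integral_const_mul,
    integral_finsetSum _ fun i _ => (integrable_const _).fun_add ((iw i).const_mul _)]
  have hsum : ∑ i : Fin N, ∫ xi, ((q : ℝ) * (k0 i / (t' ^ 2 * (t' - t))) + (q : ℝ) ^ 2 *
      ∑ k, (v ⬝ᵥ (D (((i : ℕ) + 1 : ℝ) * h) (w i.castSucc) (xi + d) k *ᵥ v)) ^ 2) ∂gam n
      ≤ (q / (t' ^ 2 * (t' - t)) + (q : ℝ) ^ 2 / (t' ^ 2 * R ^ 2)) * ∑ i, k0 i := by
    rw [Finset.mul_sum]
    refine Finset.sum_le_sum fun i _ => ?_
    rw [integral_add (integrable_const _) ((iw i).const_mul _), integral_const, probReal_univ,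
      one_smul, integral_const_mul]
    have := mul_le_mul_of_nonneg_left (hwq i) (sq_nonneg (q : ℝ))
    rw [hk0]
    refine (add_le_add le_rfl this).trans (le_of_eq ?_)
    ring
  have h1 := mul_le_mul_of_nonneg_left hsum (by positivity : 0 ≤ β ^ 2 * h / 2)
  have h2 := mul_le_mul_of_nonneg_left (mul_le_mul_of_nonneg_left e0 (Nat.cast_nonneg q)) hβ
  have e3 : β ^ 2 * h / 2 * ((q / (t' ^ 2 * (t' - t)) + (q : ℝ) ^ 2 / (t' ^ 2 * R ^ 2)) * ∑ i, k0 i)
      = β ^ 2 / 2 * (Cb * (q / (t' ^ 2 * (t' - t)) + (q : ℝ) ^ 2 / (t' ^ 2 * R ^ 2))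
          * ∑ i : Fin N, h * Phi t' (((i : ℕ) + 1 : ℝ) * h) (lam i)) := by
    simp only [hk0, Finset.mul_sum]
    exact Finset.sum_congr rfl fun i _ => by ring
  rw [e3] at h1
  linarith

/-- The final contradiction. -/
lemma algebra {C L X t t' qr β a k : ℝ} (hC : 1 ≤ C) (hL : 1 ≤ L) (hX : 1 ≤ X) (ht : 0 < t)
    (htM : t' = 150000 * C * L ^ 3 * t) (hβ : β = t' ^ 2 / (64 * C * L * t)) (hq : X ≤ qr)
    (ha : 1 / (8 * L * t') ≤ a) (hk : k ≤ 4 * C * β ^ 2 * t * X / t' ^ 3)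
    (h : β * qr * a - 8 * X - k ≤ 2 * X * L + 1 + 60 * L) : False := by
  have ht' : 0 < t' := by rw [htM]; positivity
  have hβ0 : 0 ≤ β := by rw [hβ]; positivity
  have h1 : β * X * (1 / (8 * L * t')) ≤ β * qr * a :=
    mul_le_mul (mul_le_mul_of_nonneg_left hq hβ0) ha (by positivity)
      (mul_nonneg hβ0 (by linarith))
  have e1 : β * X * (1 / (8 * L * t')) = X * L * (150000 / 512) := by
    rw [hβ, htM]; field_simp; ring
  have e2 : 4 * C * β ^ 2 * t * X / t' ^ 3 = X * L * (150000 / 1024) := by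
    rw [hβ, htM]; field_simp; ring
  have hXL : 1 ≤ X * L := one_le_mul_of_one_le_of_one_le hX hL
  have hL' : L ≤ X * L := le_mul_of_one_le_left (by linarith) hX
  have hX' : X ≤ X * L := le_mul_of_one_le_right (by linarith) hL
  rw [e1] at h1
  rw [e2] at hk
  linarith

/-- A bound on all entries of the exponent. -/
noncomputable def xBd (n q : ℕ) (β h K : ℝ) (N : ℕ) : ℝ :=
  |β| * (2 * (q * K))
    + |β ^ 2 * h / 2| * (N * (n * ((Fintype.card (Fin q → Fin n) : ℝ) * (q * K) ^ 2)))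

lemma tens_dir_unit {x : Rn n} (hx : x ≠ 0) : tens q (dir x) ⬝ᵥ tens q (dir x) = 1 := by
  have hu := dir_unit hx
  simp only [dotProduct, tens, ← Finset.prod_mul_distrib] at hu ⊢
  rw [← Fintype.prod_sum (fun (_ : Fin q) (j : Fin n) => dir x j * dir x j)]
  simp [hu]

lemma Fq_abs (H : MartExp.Reg μ t t' K) (ht : 0 ≤ t) (hh : 0 ≤ h) {N : ℕ} (hNh : (N : ℝ) * h ≤ t)
    (w : Fin (N + 1) → Rn n) {x : Rn n} (hx : x ≠ 0) (xi : Rn n) :
    |Fq μ t t' q β h w x xi| ≤ (Fintype.card (Fin q → Fin n) : ℝ) ^ 2 * xBd n q β h K N := by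
  refine (MartExp.quad_le_esum _ _).trans ?_
  rw [tens_dir_unit hx, mul_one]
  exact MartExp.esum_le fun a c => MartExp.Xj_abs H ht hh hNh xi N le_rfl w a c

lemma measurable_traceX (H : MartExp.Reg μ t t' K) (hh : 0 ≤ h) {N : ℕ} (hNh : (N : ℝ) * h ≤ t)
    (ht : 0 ≤ t) {α : Type} [MeasurableSpace α] {f : α → Fin (N + 1) → Rn n} {g : α → Rn n}
    (hf : Measurable f) (hg : Measurable g) :
    Measurable fun r => (NormedSpace.exp (MartExp.Xj μ t t' q β h (g r) N (f r))).trace := by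
  have hX : Measurable fun r : α =>
      (fun a c => MartExp.Xj μ t t' q β h (g r) N (f r) a c :
        (Fin q → Fin n) → (Fin q → Fin n) → ℝ) :=
    measurable_pi_lambda _ fun a => measurable_pi_lambda _ fun c =>
      measurable_Xj H hh hNh ht hf hg a c
  have hc : Continuous fun A : (Fin q → Fin n) → (Fin q → Fin n) → ℝ =>
      (NormedSpace.exp (Matrix.of A)).trace := MartExp.continuous_trace_exp (ι := Fin q → Fin n)
  exact hc.measurable.comp hX

/-- Change of measure for one path. -/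
lemma exp_le_trace (hE : ExpLeTrace) (H : MartExp.Reg μ t t' K) (ht : 0 ≤ t) (hh : 0 ≤ h) {N : ℕ}
    (hNh : (N : ℝ) * h ≤ t) (w : Fin (N + 1) → Rn n) {x : Rn n} (hx : x ≠ 0) (d : Rn n) {CT : ℝ}
    (hCT : ∀ xi, |(NormedSpace.exp (MartExp.Xj μ t t' q β h xi N w)).trace| ≤ CT) :
    Real.exp ((∫ xi, Fq μ t t' q β h w x (xi + d) ∂gam n) - ‖d‖ ^ 2 / 2)
      ≤ ∫ xi, (NormedSpace.exp (MartExp.Xj μ t t' q β h xi N w)).trace ∂gam n := by
  have hm : Measurable fun xi => Fq μ t t' q β h w x xi :=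
    measurable_Fq H hh hNh ht (f := fun _ => w) (g := fun xi => xi) (x := fun _ => x)
      measurable_const measurable_id measurable_const
  refine (gauss_tangent hm (fun xi => Fq_abs H ht hh hNh w hx xi) d).trans ?_
  refine integral_mono_of_nonneg (ae_of_all _ fun xi => (Real.exp_pos _).le)
    (Chain.integrable_of_bdd (measurable_traceX H hh hNh ht (f := fun _ => w) (g := fun xi => xi)
      measurable_const measurable_id) hCT)
    (ae_of_all _ fun xi => ?_)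
  exact hE _ _ _ (MartExp.Xj_symm H xi N w) (tens_dir_unit hx)

/-- Integral form of the main inequality, for one fine grid. -/
lemma grid_bound (hE : ExpLeTrace) [IsProbabilityMeasure μ]
    (H : MartExp.Reg μ t t' K) (ht : 0 < t) {N : ℕ} (hh : 0 < h)
    (hNh : (N : ℝ) * h = t) {R s : ℝ} {E : Set (Rn n)} (hEm : MeasurableSet E)
    {sel : Rn n → Rn n} (hsel : Measurable sel) (hR : 0 < R) (hs : 0 < s)
    (hselR : ∀ th, R ≤ ‖sel th‖ ∧ ‖sel th‖ ≤ 2 * R) {A : ℝ} (hA : 0 < A)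
    (hW : ∀ xi : Rn n, ∫ p, (NormedSpace.exp (MartExp.Xj μ t t' q β h xi N (Chain.pre h p N))).trace
      ∂Chain.law μ N ≤ A)
    (hP : 0 < ∫ p, E.indicator (fun _ => (1 : ℝ)) (Chain.pth h p N) ∂Chain.law μ N)
    {lo : Rn n × (Fin N → Rn n) → ℝ} (hlo : Integrable lo (Chain.law μ N))
    (hlow : ∀ p, lo p ≤ E.indicator (fun _ => (1 : ℝ)) (Chain.pth h p N) *
      ((∫ xi, Fq μ t t' q β h (Chain.pre h p N) (sel (Chain.pth h p N))
          (xi + s⁻¹ • sel (Chain.pth h p N)) ∂gam n) - ‖s⁻¹ • sel (Chain.pth h p N)‖ ^ 2 / 2)) :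
    ∫ p, lo p ∂Chain.law μ N
      ≤ (∫ p, E.indicator (fun _ => (1 : ℝ)) (Chain.pth h p N) ∂Chain.law μ N)
        * Real.log (A / ∫ p, E.indicator (fun _ => (1 : ℝ)) (Chain.pth h p N) ∂Chain.law μ N) := by
  set ind : Rn n → ℝ := E.indicator fun _ => (1 : ℝ) with hind
  have hind0 : ∀ y, 0 ≤ ind y ∧ ind y ≤ 1 := by
    intro y
    by_cases hy : y ∈ E <;> simp [hind, hy]
  have hindm : Measurable fun p : Rn n × (Fin N → Rn n) => ind (Chain.pth h p N) :=
    (measurable_const.indicator hEm).comp (Chain.measurable_pth N)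
  obtain ⟨CB, hCB⟩ : ∃ CB, CB = (Fintype.card (Fin q → Fin n) : ℝ) ^ 2 * xBd n q β h K N := ⟨_, rfl⟩
  have hsel0 : ∀ th, sel th ≠ 0 := fun th => norm_pos_iff.1 (lt_of_lt_of_le hR (hselR th).1)
  set Y : Rn n × (Fin N → Rn n) → ℝ := fun p =>
    (∫ xi, Fq μ t t' q β h (Chain.pre h p N) (sel (Chain.pth h p N))
      (xi + s⁻¹ • sel (Chain.pth h p N)) ∂gam n) - ‖s⁻¹ • sel (Chain.pth h p N)‖ ^ 2 / 2 with hY
  have hselp : Measurable fun p : Rn n × (Fin N → Rn n) => sel (Chain.pth h p N) :=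
    hsel.comp (Chain.measurable_pth N)
  have hYm : Measurable Y := by
    refine Measurable.sub ?_ (((hselp.const_smul s⁻¹).norm.pow_const 2).div_const 2)
    have hm : Measurable fun r : (Rn n × (Fin N → Rn n)) × Rn n =>
        Fq μ t t' q β h (Chain.pre h r.1 N) (sel (Chain.pth h r.1 N))
          (r.2 + s⁻¹ • sel (Chain.pth h r.1 N)) :=
      measurable_Fq H hh.le hNh.le ht.le ((Chain.measurable_pre N).comp measurable_fst)
        (measurable_snd.add ((hselp.comp measurable_fst).const_smul s⁻¹))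
        (hselp.comp measurable_fst)
    have hs : StronglyMeasurable (Function.uncurry fun (p : Rn n × (Fin N → Rn n)) xi =>
        Fq μ t t' q β h (Chain.pre h p N) (sel (Chain.pth h p N))
          (xi + s⁻¹ • sel (Chain.pth h p N))) := hm.stronglyMeasurable
    exact hs.integral_prod_right.measurable
  have hYb : ∀ p, |Y p| ≤ CB + (s⁻¹ * (2 * R)) ^ 2 / 2 := by
    intro p
    refine (abs_sub _ _).trans (add_le_add ?_ ?_)
    · simpa using norm_integral_le_of_norm_le_const (μ := gam n) (C := CB)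
        (f := fun xi => Fq μ t t' q β h (Chain.pre h p N) (sel (Chain.pth h p N))
          (xi + s⁻¹ • sel (Chain.pth h p N)))
        (ae_of_all _ fun xi => hCB ▸ Fq_abs H ht.le hh.le hNh.le _ (hsel0 _) _)
    · rw [abs_of_nonneg (by positivity), norm_smul, Real.norm_eq_abs, abs_of_pos (inv_pos.2 hs)]
      gcongr
      exact (hselR _).2
  obtain ⟨CT, hCT⟩ := MartExp.trace_exp_bound (ι := Fin q → Fin n) (xBd n q β h K N)
  have hTb : ∀ xi (w : Fin (N + 1) → Rn n),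
      |(NormedSpace.exp (MartExp.Xj μ t t' q β h xi N w)).trace| ≤ CT :=
    fun xi w => hCT _ fun a c => MartExp.Xj_abs H ht.le hh.le hNh.le xi N le_rfl w a c
  have hexp : ∀ p, ind (Chain.pth h p N) * Real.exp (Y p)
      ≤ ∫ xi, (NormedSpace.exp (MartExp.Xj μ t t' q β h xi N (Chain.pre h p N))).trace ∂gam n :=
    fun p => (mul_le_of_le_one_left (Real.exp_pos _).le (hind0 _).2).trans
      (exp_le_trace hE H ht.le hh.le hNh.le _ (hsel0 _) _ fun xi => hTb xi _)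
  have hT2 : Integrable (Function.uncurry fun (p : Rn n × (Fin N → Rn n)) xi =>
      (NormedSpace.exp (MartExp.Xj μ t t' q β h xi N (Chain.pre h p N))).trace)
      ((Chain.law μ N).prod (gam n)) :=
    Chain.integrable_of_bdd (measurable_traceX H hh.le hNh.le ht.le
      ((Chain.measurable_pre N).comp measurable_fst) measurable_snd) fun r => hTb r.2 _
  have hint : ∫ p, ind (Chain.pth h p N) * Real.exp (Y p) ∂Chain.law μ N ≤ A := by
    refine (integral_mono_of_nonneg (ae_of_all _ fun p =>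
      mul_nonneg (hind0 _).1 (Real.exp_pos _).le) hT2.integral_prod_left (ae_of_all _ hexp)).trans ?_
    refine (le_of_eq (integral_integral_swap hT2)).trans ?_
    calc _ ≤ ∫ _xi : Rn n, A ∂gam n :=
          integral_mono hT2.integral_prod_right (integrable_const A) hW
      _ = A := by simp
  refine le_trans (integral_mono hlo (Chain.integrable_of_bdd (hindm.mul hYm)
    (C := 1 * (CB + (s⁻¹ * (2 * R)) ^ 2 / 2)) fun p => ?_) hlow)
    (set_tangent hindm (fun p => hind0 _) hYm hYb hA hint hP)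
  rw [Pi.mul_apply, abs_mul, abs_of_nonneg (hind0 _).1]
  exact mul_le_mul (hind0 _).2 (hYb p) (abs_nonneg _) zero_le_one

/-- Pointwise lower bound used in `polyBreg_of`. -/
lemma event_bound (hKQ : KronQuad) (hV : SecantValue) (hI : BregInit) (hT : BregTransfer) {Cb : ℝ}
    (hB : ∀ (n : ℕ) (μ : Measure (Rn n)), IsProbabilityMeasure μ → IsSLC 0 μ →
      BddSupp μ → ∀ (t t' u lam : ℝ) (th : Rn n), 0 < u → u ≤ t → t < t' → t' ≤ 1 → 0 ≤ lam →
      (∀ w : Rn n, vr (tilt μ u th) (fun x => ⟪x, w⟫) ≤ lam * ‖w‖ ^ 2) →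
      ∀ v : Rn n, ‖v‖ = 1 →
        (∀ xi, ∑ j, ∑ k, (∑ l, v l * dsec μ t t' u th xi j l k) ^ 2
          ≤ Cb * (1 + lam * Real.sqrt (lam / u) * t' ^ 2) / (t' ^ 2 * (t' - t))) ∧
        ∀ R : ℝ, 0 < R →
          ∫ xi, ∑ k, (∑ j, ∑ l, v j * v l *
              dsec μ t t' u th (xi + (R / Real.sqrt ((t' - t) / 2)) • v) j l k) ^ 2
            ∂stdGaussian (Rn n)
          ≤ Cb * (1 + lam * Real.sqrt (lam / u) * t' ^ 2) / (t' ^ 2 * R ^ 2))
    (hCb : 0 ≤ Cb) [IsProbabilityMeasure μ] (hμ : IsSLC 0 μ) (hb : BddSupp μ) (hS : SubG μ)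
    (H : MartExp.Reg μ t t' K) (ht : 0 < t) (h2t : 2 * t ≤ t') (ht1 : t' ≤ 1) (hβ : 0 ≤ β) {N : ℕ}
    (hh : 0 < h) (hNh : (N : ℝ) * h = t) {R L : ℝ} (hR : 1 ≤ R) (hL : 0 < L)
    (p : Rn n × (Fin N → Rn n)) (lam : Fin N → ℝ) (hl0 : ∀ i, 0 ≤ lam i)
    (hl : ∀ (i : Fin N) (v : Rn n), vr (tilt μ (((i : ℕ) + 1 : ℝ) * h) (Chain.pth h p i))
      (fun x => ⟪x, v⟫) ≤ lam i * ‖v‖ ^ 2)
    {x : Rn n} (hx1 : R ≤ ‖x‖) (hx2 : ‖x‖ ≤ 2 * R)
    (hx : R ^ 2 / (L * t) < Bg μ t (Chain.pth h p N) x) :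
    β * q * (1 / (4 * L * t') - 4) - 8 * (R ^ 2 / t')
      - β ^ 2 / 2 * (Cb * (q / (t' ^ 2 * (t' - t)) + (q : ℝ) ^ 2 / (t' ^ 2 * R ^ 2))
          * ∑ i : Fin N, h * Phi t' (((i : ℕ) + 1 : ℝ) * h) (lam i))
    ≤ (∫ xi, Fq μ t t' q β h (Chain.pre h p N) x (xi + (Real.sqrt ((t' - t) / 2))⁻¹ • x) ∂gam n)
      - ‖(Real.sqrt ((t' - t) / 2))⁻¹ • x‖ ^ 2 / 2 := by
  have htt : t < t' := by linarith
  have ht' : 0 < t' := ht.trans htt
  have hpb := path_bound hKQ hV hI hB hCb hμ hb hS H ht htt ht1 hβ hh hNh hR (q := q)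
    (Chain.pre h p N) lam hl0 hl hx1
  simp only [Chain.pre, Fin.val_last] at hpb ⊢
  have htr := hT n μ inferInstance hμ hb t t' ht htt.le (Chain.pth h p N) x
  set S := step μ t (t' - t) (Chain.pth h p N) fun p => Bg μ t' p x
  have h1 : 1 / (4 * L * t') ≤ ‖x‖⁻¹ ^ 2 * S := by
    have hS' : R ^ 2 / (L * t') ≤ S := by
      have := hx.le.trans htr
      rw [div_le_iff₀ (by positivity)] at this ⊢
      calc R ^ 2 ≤ t' / t * S * (L * t) := this
        _ = S * (L * t') := by field_simp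
    calc 1 / (4 * L * t') = (2 * R)⁻¹ ^ 2 * (R ^ 2 / (L * t')) := by field_simp; ring
      _ ≤ ‖x‖⁻¹ ^ 2 * S := by
          refine mul_le_mul (pow_le_pow_left₀ (by positivity) ?_ 2) hS' (by positivity) (sq_nonneg _)
          exact inv_anti₀ (lt_of_lt_of_le (by linarith) hx1) hx2
  have h2 : ‖(Real.sqrt ((t' - t) / 2))⁻¹ • x‖ ^ 2 / 2 ≤ 8 * (R ^ 2 / t') := by
    rw [norm_smul, mul_pow, Real.norm_eq_abs, sq_abs, inv_pow, Real.sq_sqrt (by linarith),
      inv_mul_eq_div, div_div, div_le_iff₀ (by linarith)]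
    calc ‖x‖ ^ 2 ≤ (2 * R) ^ 2 := pow_le_pow_left₀ (norm_nonneg _) hx2 2
      _ = 8 * (R ^ 2 / t') * (t' / 2) := by field_simp; ring
      _ ≤ _ := mul_le_mul_of_nonneg_left (by linarith) (by positivity)
  have h3 := mul_le_mul_of_nonneg_left (sub_le_sub_right h1 4)
    (mul_nonneg hβ (Nat.cast_nonneg q))
  linarith

/-- The drift functional is integrable. -/
lemma integrable_drift [IsProbabilityMeasure μ] {N : ℕ} (hh : 0 < h) {E : Set (Rn n)}
    (hEm : MeasurableSet E) {lam : ℕ → Rn n → ℝ}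
    (hlam : ∀ i, Measurable (lam i) ∧ ∃ B, ∀ th, 0 ≤ lam i th ∧ lam i th ≤ B) :
    Integrable (fun p : Rn n × (Fin N → Rn n) => E.indicator (fun _ => (1 : ℝ)) (Chain.pth h p N)
      * ∑ i : Fin N, h * Phi t' (((i : ℕ) + 1 : ℝ) * h) (lam i (Chain.pth h p i)))
      (Chain.law μ N) := by
  simp only [Finset.mul_sum]
  refine integrable_finsetSum _ fun i _ => ?_
  obtain ⟨hlm, Bl, hBl⟩ := hlam i
  have hm : Measurable fun th => Phi t' (((i : ℕ) + 1 : ℝ) * h) (lam i th) := by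
    unfold Phi
    exact measurable_const.add ((hlm.mul (hlm.div_const _).sqrt).mul_const _)
  have hm1 : Measurable fun p : Rn n × (Fin N → Rn n) =>
      E.indicator (fun _ => (1 : ℝ)) (Chain.pth h p N) :=
    (measurable_const.indicator hEm).comp (Chain.measurable_pth N)
  have hm2 : Measurable fun p : Rn n × (Fin N → Rn n) =>
      Phi t' (((i : ℕ) + 1 : ℝ) * h) (lam i (Chain.pth h p i)) := hm.comp (Chain.measurable_pth _)
  refine Chain.integrable_of_bdd (hm1.mul (measurable_const.mul hm2))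
    (C := 1 * (h * (1 + Bl * Real.sqrt (Bl / (((i : ℕ) + 1 : ℝ) * h)) * t' ^ 2))) fun p => ?_
  obtain ⟨l0, l1⟩ := hBl (Chain.pth h p i)
  have hp : 0 ≤ Phi t' (((i : ℕ) + 1 : ℝ) * h) (lam i (Chain.pth h p i)) := by
    unfold Phi; positivity
  rw [abs_mul, abs_of_nonneg (a := h * _) (mul_nonneg hh.le hp)]
  refine mul_le_mul ?_ (mul_le_mul_of_nonneg_left ?_ hh.le) (by positivity) zero_le_one
  · by_cases hy : Chain.pth h p N ∈ E <;> simp [hy]
  · have : 0 ≤ Bl := l0.trans l1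
    unfold Phi
    gcongr

/-- The main inequality, on a fine grid. -/
lemma main_ineq (hA : MatStep) (hE : ExpLeTrace) (hKQ : KronQuad) (hSm : SecantMart)
    (hSr : SecantReg) (hV : SecantValue) (hG : ObsStep) (hT : BregTransfer) (hI : BregInit) {Cb : ℝ}
    (hBd : ∀ (n : ℕ) (μ : Measure (Rn n)), IsProbabilityMeasure μ → IsSLC 0 μ →
      BddSupp μ → ∀ (t t' u lam : ℝ) (th : Rn n), 0 < u → u ≤ t → t < t' → t' ≤ 1 → 0 ≤ lam →
      (∀ w : Rn n, vr (tilt μ u th) (fun x => ⟪x, w⟫) ≤ lam * ‖w‖ ^ 2) →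
      ∀ v : Rn n, ‖v‖ = 1 →
        (∀ xi, ∑ j, ∑ k, (∑ l, v l * dsec μ t t' u th xi j l k) ^ 2
          ≤ Cb * (1 + lam * Real.sqrt (lam / u) * t' ^ 2) / (t' ^ 2 * (t' - t))) ∧
        ∀ R : ℝ, 0 < R →
          ∫ xi, ∑ k, (∑ j, ∑ l, v j * v l *
              dsec μ t t' u th (xi + (R / Real.sqrt ((t' - t) / 2)) • v) j l k) ^ 2
            ∂stdGaussian (Rn n)
          ≤ Cb * (1 + lam * Real.sqrt (lam / u) * t' ^ 2) / (t' ^ 2 * R ^ 2))
    (hCb : 0 ≤ Cb) [IsProbabilityMeasure μ] (hμ : IsSLC 0 μ) (hb : BddSupp μ) (hS : SubG μ)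
    (hn : 1 ≤ n) (ht : 0 < t) (h2t : 2 * t ≤ t') (ht1 : t' ≤ 1) (hβ : 0 ≤ β) {R L : ℝ} (hR : 1 ≤ R)
    (hL : 0 < L) {E : Set (Rn n)} (hEm : MeasurableSet E) {sel : Rn n → Rn n} (hselm : Measurable sel)
    (hselR : ∀ th, R ≤ ‖sel th‖ ∧ ‖sel th‖ ≤ 2 * R)
    (hsel : ∀ th ∈ E, R ^ 2 / (L * t) < Bg μ t th (sel th)) (hP : 0 < (obs μ t).real E)
    {c D : ℝ} (hdr : ∀ Rs : ℝ, (∀ᵐ x ∂μ, ‖x‖ ≤ Rs) → ∀ N : ℕ, 0 < N → t / N * Rs ^ 2 ≤ 1 →
      ∃ lam : ℕ → Rn n → ℝ,
        (∀ i, Measurable (lam i) ∧ ∃ B, ∀ th, 0 ≤ lam i th ∧ lam i th ≤ B) ∧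
        (∀ (p : Rn n × (Fin N → Rn n)) (i : Fin N) (w : Rn n),
          vr (tilt μ (((i : ℕ) + 1 : ℝ) * (t / N)) (Chain.pth (t / N) p i)) (fun x => ⟪x, w⟫)
            ≤ lam i (Chain.pth (t / N) p i) * ‖w‖ ^ 2) ∧
        ∫ p, E.indicator (fun _ => (1 : ℝ)) (Chain.pth (t / N) p N)
            * ∑ i : Fin N, t / N * Phi t' (((i : ℕ) + 1 : ℝ) * (t / N))
                (lam i (Chain.pth (t / N) p i)) ∂Chain.law μ N
          ≤ c * ((obs μ t).real E * D)) :
    β * q * (1 / (4 * L * t') - 4) - 8 * (R ^ 2 / t')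
        - β ^ 2 / 2 * (Cb * (q / (t' ^ 2 * (t' - t)) + (q : ℝ) ^ 2 / (t' ^ 2 * R ^ 2))) * (c * D)
      ≤ Real.log ((n : ℝ) ^ q * Real.exp 1 / (obs μ t).real E) := by
  set P := (obs μ t).real E with hPdef
  have htt : t < t' := by linarith
  obtain ⟨hcont, hsym, K, hK0, hK⟩ := hSr n μ inferInstance hμ hb t t' ht.le htt
  have H : MartExp.Reg μ t t' K := ⟨hcont, hsym, hK0, hK⟩
  obtain ⟨Km, hKm0, hKm⟩ := MartExp.expMart hA hSm hSr hμ hb ht htt q β
  obtain ⟨Rs, hRs⟩ := id hb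
  obtain ⟨N, hN⟩ := exists_nat_gt (max 1 (max (t * Rs ^ 2) (max t ((Km * t) ^ 2 * t))))
  simp only [max_lt_iff] at hN
  obtain ⟨hN1, hN2, hN3, hN4⟩ := hN
  have hNpos : 0 < N := by exact_mod_cast lt_trans zero_lt_one hN1
  have hNr : (0 : ℝ) < N := by exact_mod_cast hNpos
  set h := t / N with hh'
  have hh : 0 < h := div_pos ht hNr
  have hNh : (N : ℝ) * h = t := by rw [hh']; field_simp
  have hh1 : h ≤ 1 := by rw [hh', div_le_one hNr]; linarith
  have hhR : t / N * Rs ^ 2 ≤ 1 := by rw [div_mul_eq_mul_div, div_le_one hNr]; linarith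
  have herr : Km * t * Real.sqrt h ≤ 1 := by
    have h1 : (Km * t * Real.sqrt h) ^ 2 ≤ 1 := by
      rw [mul_pow, Real.sq_sqrt hh.le, hh', ← mul_div_assoc, div_le_one hNr]; linarith
    have h2 : 0 ≤ Km * t * Real.sqrt h := by positivity
    nlinarith
  obtain ⟨lam, hlam, hlamb, hdrift⟩ := hdr Rs hRs N hNpos hhR
  set k : ℝ := β ^ 2 / 2 * (Cb * (q / (t' ^ 2 * (t' - t)) + (q : ℝ) ^ 2 / (t' ^ 2 * R ^ 2))) with hk
  have hk0 : 0 ≤ k := by
    have : 0 < t' - t := by linarith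
    rw [hk]; positivity
  set ind : Rn n → ℝ := E.indicator fun _ => (1 : ℝ) with hind
  have hind0 : ∀ y, 0 ≤ ind y ∧ ind y ≤ 1 := by
    intro y
    by_cases hy : y ∈ E <;> simp [hind, hy]
  have hindi : Integrable (fun p : Rn n × (Fin N → Rn n) => ind (Chain.pth h p N)) (Chain.law μ N) :=
    Chain.integrable_of_bdd ((measurable_const.indicator hEm).comp (Chain.measurable_pth N)) (C := 1)
      fun p => by rw [abs_of_nonneg (hind0 _).1]; exact (hind0 _).2
  have eP : ∫ p, ind (Chain.pth h p N) ∂Chain.law μ N = P := by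
    rw [integral_pth hG hb hh N le_rfl ind (measurable_const.indicator hEm) 1
      (fun y => by rw [abs_of_nonneg (hind0 y).1]; exact (hind0 y).2), hind, obs_real_indicator _ hEm,
      hNh]
  have hDi := integrable_drift (μ := μ) (t' := t') (N := N) hh hEm hlam
  set a := β * q * (1 / (4 * L * t') - 4) - 8 * (R ^ 2 / t') with ha
  have hloi : Integrable (fun p : Rn n × (Fin N → Rn n) => a * ind (Chain.pth h p N)
      - k * (ind (Chain.pth h p N) * ∑ i : Fin N, h * Phi t' (((i : ℕ) + 1 : ℝ) * h)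
          (lam i (Chain.pth h p i)))) (Chain.law μ N) := (hindi.const_mul a).sub (hDi.const_mul k)
  have hnr : (1 : ℝ) ≤ n := by exact_mod_cast hn
  have main := grid_bound hE H ht hh hNh (q := q) (β := β) hEm hselm (by linarith : 0 < R)
    (Real.sqrt_pos.2 (by linarith : 0 < (t' - t) / 2)) hselR
    (A := (n : ℝ) ^ q * Real.exp 1) (by positivity)
    (fun xi => (hKm N hNpos hh1 xi).trans (mul_le_mul_of_nonneg_left (Real.exp_le_exp.2 herr)
      (by positivity)))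
    (by rw [← hind, eP]; exact hP) hloi (fun p => by
      rw [← hind]
      by_cases hp : Chain.pth h p N ∈ E
      · have e : ind (Chain.pth h p N) = 1 := by simp [hind, hp]
        have hev := event_bound hKQ hV hI hT hBd hCb hμ hb hS H ht h2t ht1 hβ hh hNh hR hL (q := q) p
          (fun i => lam i (Chain.pth h p i))
          (fun i => by obtain ⟨-, Bl, hBl⟩ := hlam i; exact (hBl _).1) (fun i v => hlamb p i v)
          (hselR _).1 (hselR _).2 (hsel _ hp)
        rw [e, one_mul, one_mul, mul_one, hk, ha]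
        linarith
      · have e : ind (Chain.pth h p N) = 0 := by simp [hind, hp]
        rw [e]
        simp)
  rw [← hind, eP, integral_sub (hindi.const_mul a) (hDi.const_mul k), integral_const_mul,
    integral_const_mul, eP] at main
  have h1 := mul_le_mul_of_nonneg_left hdrift hk0
  have hmain : P * (a - k * (c * D)) ≤ P * Real.log ((n : ℝ) ^ q * Real.exp 1 / P) := by
    linarith
  exact le_of_mul_le_mul_left hmain hP

/-- Bound on the constant in front of the drift. -/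
lemma k_bound {Cb Cd C R qr : ℝ} (hCb : 0 ≤ Cb) (hCd : 0 ≤ Cd) (hC : 2 * Cb * Cd ≤ C) (ht : 0 < t)
    (h2t : 2 * t ≤ t') (hR : 0 < R) (hq0 : 0 ≤ qr) (hq : qr ≤ 2 * (R ^ 2 / t')) :
    β ^ 2 / 2 * (Cb * (qr / (t' ^ 2 * (t' - t)) + qr ^ 2 / (t' ^ 2 * R ^ 2))) * (Cd * (t * 2))
      ≤ 4 * C * β ^ 2 * t * (R ^ 2 / t') / t' ^ 3 := by
  have ht' : 0 < t' := by linarith
  have htt : 0 < t' - t := by linarith
  set X := R ^ 2 / t' with hX
  have hX0 : 0 ≤ X := by positivity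
  have e1 : qr / (t' ^ 2 * (t' - t)) ≤ 4 * X / t' ^ 3 := by
    calc qr / (t' ^ 2 * (t' - t)) ≤ 2 * X / (t' ^ 2 * (t' / 2)) := by
          gcongr; linarith
      _ = _ := by field_simp; ring
  have e2 : qr ^ 2 / (t' ^ 2 * R ^ 2) ≤ 4 * X / t' ^ 3 := by
    calc qr ^ 2 / (t' ^ 2 * R ^ 2) ≤ (2 * X) ^ 2 / (t' ^ 2 * R ^ 2) := by gcongr
      _ = _ := by rw [hX]; field_simp; ring
  calc β ^ 2 / 2 * (Cb * (qr / (t' ^ 2 * (t' - t)) + qr ^ 2 / (t' ^ 2 * R ^ 2))) * (Cd * (t * 2))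
      ≤ β ^ 2 / 2 * (Cb * (4 * X / t' ^ 3 + 4 * X / t' ^ 3)) * (Cd * (t * 2)) := by gcongr
    _ = 4 * (2 * Cb * Cd) * β ^ 2 * t * X / t' ^ 3 := by ring
    _ ≤ _ := by gcongr

/-- The choice of `t' = M t`. -/
lemma params {C L : ℝ} (hC : 1 ≤ C) (hL : 1 ≤ L) (ht : 0 < t)
    (ht' : t' = 150000 * C * L ^ 3 * t) (htc : t * L ^ 4 ≤ 1 / (32 * (150000 * C) ^ 2)) :
    2 * t ≤ t' ∧ t' ≤ 1 ∧ t' * L ≤ 1 / 32 ∧ t' ^ 2 / Real.sqrt t ≤ 1 := by
  set M0 := 150000 * C with hM0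
  have hM0' : 2 ≤ M0 := by rw [hM0]; linarith
  have hL3 : (1 : ℝ) ≤ L ^ 3 := one_le_pow₀ hL
  have ht'L : t' * L ≤ 1 / 32 := by
    calc t' * L = M0 * (t * L ^ 4) := by rw [ht', hM0]; ring
      _ ≤ M0 * (1 / (32 * M0 ^ 2)) := mul_le_mul_of_nonneg_left htc (by linarith)
      _ ≤ 1 / 32 := by
          rw [mul_one_div, div_le_div_iff₀ (by positivity) (by norm_num)]
          nlinarith
  have ht0 : 0 < t' := by rw [ht']; positivity
  refine ⟨?_, by nlinarith, ht'L, ?_⟩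
  · rw [ht']
    refine mul_le_mul_of_nonneg_right ?_ ht.le
    nlinarith
  rw [div_le_one (Real.sqrt_pos.2 ht)]
  set r := Real.sqrt t with hr
  have hr0 : 0 < r := Real.sqrt_pos.2 ht
  have hr2 : r ^ 2 = t := Real.sq_sqrt ht.le
  have h9 : (r * L ^ 2) ^ 2 ≤ 1 := by
    rw [mul_pow, hr2, ← pow_mul]
    refine htc.trans ?_
    rw [div_le_one (by positivity)]
    nlinarith
  have hrL : r * L ^ 2 ≤ 1 := by
    have h10 : 0 ≤ r * L ^ 2 := by positivity
    nlinarith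
  have hM2 : M0 ^ 2 * (1 / (32 * M0 ^ 2)) ≤ 1 := by
    field_simp
    norm_num
  calc t' ^ 2 = M0 ^ 2 * (t * L ^ 4) * (r * L ^ 2) * r := by
        rw [ht', ← hr2]; ring
    _ ≤ M0 ^ 2 * (1 / (32 * M0 ^ 2)) * 1 * r := by gcongr
    _ ≤ 1 * 1 * r := by gcongr
    _ = r := by ring

/-- The bound on the entropy terms. -/
lemma log_le {n q : ℕ} {P X L : ℝ} (hn : 1 ≤ n) (hL : lgn n = L) (hP : (((n : ℝ) + 2) ^ 30)⁻¹ < P)
    (hX : 0 ≤ X) (hq : (q : ℝ) ≤ 2 * X) :
    Real.log ((n : ℝ) ^ q * Real.exp 1 / P) ≤ 2 * X * L + 1 + 60 * L := by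
  have hnr : (1 : ℝ) ≤ n := by exact_mod_cast hn
  have hPp : 0 < P := lt_trans (by positivity) hP
  rw [Real.log_div (by positivity) hPp.ne', Real.log_mul (by positivity) (Real.exp_pos _).ne',
    Real.log_pow, Real.log_exp]
  have h2 : -Real.log P ≤ 60 * L := by
    have := Real.log_le_log (by positivity) hP.le
    rw [Real.log_inv, Real.log_pow] at this
    push_cast at this
    linarith [log_two_le n, this]
  have h3 : (q : ℝ) * Real.log n ≤ 2 * X * L := by
    refine mul_le_mul hq ?_ (Real.log_nonneg hnr) (by linarith)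
    have := Real.log_le_log (by linarith) (by linarith : (n : ℝ) ≤ n + 1)
    rw [← hL, lgn]; linarith
  linarith

/-- The contradiction, assembled. -/
lemma finish {C L R P Cb Cd : ℝ} {n q : ℕ} (hn : 1 ≤ n) (hL : lgn n = L) (hL1 : 1 ≤ L) (hC : 1 ≤ C)
    (hCb : 0 ≤ Cb) (hCd : 0 ≤ Cd) (hCC : 2 * Cb * Cd ≤ C) (ht : 0 < t)
    (ht' : t' = 150000 * C * L ^ 3 * t) (hβ : β = t' ^ 2 / (64 * C * L * t)) (h2t : 2 * t ≤ t')
    (ht'L : t' * L ≤ 1 / 32) (hR : 1 ≤ R) (ht1 : t' ≤ 1) (hq : q = ⌈R ^ 2 / t'⌉₊)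
    (hP : (((n : ℝ) + 2) ^ 30)⁻¹ < P)
    (main : β * q * (1 / (4 * L * t') - 4) - 8 * (R ^ 2 / t')
        - β ^ 2 / 2 * (Cb * (q / (t' ^ 2 * (t' - t)) + (q : ℝ) ^ 2 / (t' ^ 2 * R ^ 2)))
          * (Cd * (t * 2))
      ≤ Real.log ((n : ℝ) ^ q * Real.exp 1 / P)) : False := by
  have ht0 : 0 < t' := by linarith
  have hX : 1 ≤ R ^ 2 / t' := by rw [le_div_iff₀ ht0]; nlinarith
  have hq1 : R ^ 2 / t' ≤ q := hq ▸ Nat.le_ceil _
  have hq2 : (q : ℝ) ≤ 2 * (R ^ 2 / t') :=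
    hq ▸ (Nat.ceil_lt_add_one (by linarith)).le.trans (by linarith)
  refine algebra (C := C) (a := 1 / (4 * L * t') - 4) hC hL1 hX ht ht' hβ hq1 ?_
    (k_bound hCb hCd hCC ht h2t (by linarith) (Nat.cast_nonneg q) hq2)
    (main.trans (log_le hn hL hP (by linarith) hq2))
  have h4 : 4 ≤ 1 / (8 * L * t') := by rw [le_div_iff₀ (by positivity)]; nlinarith
  have h5 : 1 / (4 * L * t') = 1 / (8 * L * t') + 1 / (8 * L * t') := by field_simp; norm_num
  linarith

end Main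

open Main in
/-- `PolyBreg`. -/
theorem polyBreg_of (hA : MatStep) (hE : ExpLeTrace) (hKQ : KronQuad) (hSm : SecantMart)
    (hSr : SecantReg) (hV : SecantValue) (hB : SecantBounds) (hG : ObsStep) (hBB : BgBasic)
    (hT : BregTransfer) (hI : BregInit) (hSp : SpectralTail) (hLin : LinVarSLC) : PolyBreg := by
  obtain ⟨Cb, hCb, hBd⟩ := hB
  obtain ⟨cd, Cd, hcd, hCd, hdr⟩ := drift hSp hLin hG
  set C := max (2 * Cb * Cd) 1 with hC
  have hC1 : 1 ≤ C := le_max_right _ _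
  set M0 := 150000 * C with hM0
  have hM0' : 1 ≤ M0 := by rw [hM0]; linarith
  refine ⟨min cd (1 / (32 * M0 ^ 2)), lt_min hcd (by positivity), ?_⟩
  intro n μ hn hμ hslc hb hS t R ht htc hR hRle
  set L := lgn n with hLdef
  have hL : 1 ≤ L := one_le_lgn n
  have htc1 : t ≤ cd / L ^ 2 := (htc.trans (div_le_div_of_nonneg_right (min_le_left _ _)
    (by positivity))).trans (div_le_div_of_nonneg_left hcd.le (by positivity)
      (pow_le_pow_right₀ hL (by norm_num)))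
  have htc2 : t * L ^ 4 ≤ 1 / (32 * M0 ^ 2) := by
    have := htc.trans (div_le_div_of_nonneg_right (min_le_right _ _) (by positivity))
    rwa [le_div_iff₀ (by positivity)] at this
  obtain ⟨t', ht'def⟩ : ∃ x, x = 150000 * C * L ^ 3 * t := ⟨_, rfl⟩
  obtain ⟨h2t, ht'1, ht'L, hsq⟩ := params hC1 hL ht ht'def htc2
  have htt : t < t' := by linarith
  obtain ⟨β, hβ⟩ : ∃ x, x = t' ^ 2 / (64 * C * L * t) := ⟨_, rfl⟩
  have hβ0 : 0 ≤ β := by rw [hβ]; positivity
  obtain ⟨q, hq⟩ : ∃ m, m = ⌈R ^ 2 / t'⌉₊ := ⟨_, rfl⟩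
  obtain ⟨hEm, sel, hselm, hselR, hsel⟩ := select hn (hBB n μ hμ hb t).1 (by linarith : 0 < R)
    (thr := R ^ 2 / (L * t))
  set E := {th | ∃ d : Rn n, R ≤ ‖d‖ ∧ ‖d‖ ≤ 2 * R ∧ R ^ 2 / (L * t) < Bg μ t th d}
  have := obs_prob (μ := μ) t
  rw [← ofReal_measureReal (measure_ne_top (obs μ t) E)]
  refine ENNReal.ofReal_le_ofReal (le_of_not_gt fun hgt => ?_)
  have hPp : 0 < (obs μ t).real E := lt_trans (by positivity) hgt
  have main := main_ineq hA hE hKQ hSm hSr hV hG hT hI hBd hCb.le hslc hb hS hn ht h2t ht'1 hβ0 hR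
    (by linarith : 0 < L) (q := q) hEm hselm hselR hsel hPp (c := Cd) (D := t * 2)
    (fun Rs hRs N hN hhR => by
      obtain ⟨lam, h1, h2, h3⟩ := hdr n μ hμ hslc hb hS t t' ht htc1 htt ht'1 Rs hRs N hN hhR E hEm
        hgt.le
      refine ⟨lam, h1, h2, h3.trans ?_⟩
      have := mul_le_mul_of_nonneg_left hsq (mul_nonneg hPp.le ht.le)
      refine mul_le_mul_of_nonneg_left ?_ hCd.le
      linarith)
  exact finish hn hLdef.symm hL hC1 hCb.le hCd.le (le_max_left _ _) ht ht'def hβ h2t ht'L hR ht'1 hq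
    hgt main

end Vale.Agent.P245.Poly
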