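import Vale.Agent.P245.Poly.Chain
import Vale.Agent.P245.M6.Exp

/-!
# P245 polylog, step D: the matrix exponential martingale along the grid

`E tr exp (β (T_N - T_0) - β² h / 2 ∑ (D T)²) ≤ n^q exp (K t √h)`.
-/

namespace Vale.Agent.P245.Poly

open MeasureTheory ProbabilityTheory Filter Topology Matrix
open scoped RealInnerProductSpace ENNReal

namespace MartExp

variable {n q : ℕ} {μ : Measure (Rn n)}

section Mat

variable {ι : Type} [Fintype ι]

lemma esum_nonneg (A : Matrix ι ι ℝ) : 0 ≤ esum A :=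
  Finset.sum_nonneg fun _ _ => Finset.sum_nonneg fun _ _ => abs_nonneg _

lemma esum_le {A : Matrix ι ι ℝ} {B : ℝ} (h : ∀ i j, |A i j| ≤ B) :
    esum A ≤ (Fintype.card ι : ℝ) ^ 2 * B := by
  refine (Finset.sum_le_sum fun i _ => Finset.sum_le_sum fun j _ => h i j).trans_eq ?_
  simp only [Finset.sum_const, Finset.card_univ, nsmul_eq_mul]
  ring

lemma quad_le_esum (A : Matrix ι ι ℝ) (v : ι → ℝ) : |v ⬝ᵥ (A *ᵥ v)| ≤ esum A * (v ⬝ᵥ v) := by
  have hsq : ∀ i, v i ^ 2 ≤ v ⬝ᵥ v := fun i => by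
    rw [pow_two]
    exact Finset.single_le_sum (f := fun l => v l * v l) (fun l _ => mul_self_nonneg _) (Finset.mem_univ i)
  have e : v ⬝ᵥ (A *ᵥ v) = ∑ i, ∑ j, A i j * (v i * v j) := by
    simp only [dotProduct, mulVec, Finset.mul_sum]
    exact Finset.sum_congr rfl fun i _ => Finset.sum_congr rfl fun j _ => by ring
  rw [e, esum, Finset.sum_mul]
  refine (Finset.abs_sum_le_sum_abs _ _).trans (Finset.sum_le_sum fun i _ => ?_)
  rw [Finset.sum_mul]
  refine (Finset.abs_sum_le_sum_abs _ _).trans (Finset.sum_le_sum fun j _ => ?_)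
  rw [abs_mul]
  refine mul_le_mul_of_nonneg_left ?_ (abs_nonneg _)
  rw [abs_le]
  constructor <;> nlinarith [hsq i, hsq j, sq_nonneg (v i + v j), sq_nonneg (v i - v j)]

variable [DecidableEq ι]

attribute [local instance] Matrix.linftyOpNormedRing Matrix.linftyOpNormedAlgebra

lemma continuous_trace_exp : Continuous fun A : Matrix ι ι ℝ => (NormedSpace.exp A).trace :=
  (NormedSpace.exp_continuous (𝔸 := Matrix ι ι ℝ)).matrix_trace

end Mat

variable {ι : Type} [Fintype ι] [DecidableEq ι]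

lemma trace_exp_bound (B : ℝ) :
    ∃ C, ∀ A : Matrix ι ι ℝ, (∀ i j, |A i j| ≤ B) → |(NormedSpace.exp A).trace| ≤ C := by
  have hc : IsCompact (Set.pi Set.univ fun _ : ι => Set.pi Set.univ fun _ : ι => Set.Icc (-B) B) :=
    isCompact_univ_pi fun _ => isCompact_univ_pi fun _ => isCompact_Icc
  obtain ⟨C, hC⟩ := hc.exists_bound_of_continuousOn
    (f := fun A : ι → ι → ℝ => (NormedSpace.exp (Matrix.of A)).trace)
    (continuous_trace_exp (ι := ι)).continuousOn
  exact ⟨C, fun A hA => hC A fun i _ j _ => abs_le.1 (hA i j)⟩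

/-! ### Gaussian moments -/

lemma pow_le_exp_sq (z : Rn n) (k : ℕ) :
    ‖z‖ ^ (2 * k) ≤ 8 ^ k * k.factorial * Real.exp (1 / 8 * ‖z‖ ^ 2) := by
  have h := Real.pow_div_factorial_le_exp (x := 1 / 8 * ‖z‖ ^ 2) (by positivity) k
  rw [div_le_iff₀ (by positivity)] at h
  calc ‖z‖ ^ (2 * k) = 8 ^ k * (1 / 8 * ‖z‖ ^ 2) ^ k := by
        rw [pow_mul, ← mul_pow]; ring_nf
    _ ≤ 8 ^ k * (Real.exp (1 / 8 * ‖z‖ ^ 2) * k.factorial) := by gcongr
    _ = _ := by ring

lemma moment_bound {a : ℝ} (ha : 0 ≤ a) :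
    Integrable (fun z : Rn n => (a + ‖z‖) ^ 6) (gam n) := by
  obtain ⟨hi, -⟩ := mgf_sq_gam (n := n) (a := 1 / 8) (by norm_num) (by norm_num)
  refine Integrable.mono' ((integrable_const (32 * a ^ 6)).add
    (hi.const_mul (32 * (8 ^ 3 * (Nat.factorial 3 : ℕ)))))
    (by fun_prop : Continuous fun z : Rn n => (a + ‖z‖) ^ 6).aestronglyMeasurable
    (ae_of_all _ fun z => ?_)
  have h0 := norm_nonneg z
  rw [Real.norm_eq_abs, abs_of_nonneg (by positivity)]
  have h1 := pow_le_exp_sq z 3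
  have h2 : (a + ‖z‖) ^ 6 ≤ 32 * a ^ 6 + 32 * ‖z‖ ^ 6 := by
    have := add_pow_le ha h0 6
    norm_num at this
    linarith
  simp only [Pi.add_apply]
  calc (a + ‖z‖) ^ 6 ≤ 32 * a ^ 6 + 32 * ‖z‖ ^ 6 := h2
    _ ≤ 32 * a ^ 6 + 32 * (8 ^ 3 * (Nat.factorial 3 : ℕ) * Real.exp (1 / 8 * ‖z‖ ^ 2)) := by
        gcongr
    _ = _ := by ring

lemma gam_inner (A : Rn n) :
    Integrable (fun z => ⟪A, z⟫) (gam n) ∧ ∫ z, ⟪A, z⟫ ∂gam n = 0 := by
  have h := integral_strongDual_stdGaussian (innerSL ℝ A)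
  exact ⟨(innerSL ℝ A).integrable_comp IsGaussian.integrable_id, h⟩

lemma gam_inner_mul (A B : Rn n) :
    Integrable (fun z => ⟪A, z⟫ * ⟪B, z⟫) (gam n) ∧ ∫ z, ⟪A, z⟫ * ⟪B, z⟫ ∂gam n = ⟪A, B⟫ := by
  have h2 : MemLp id 2 (gam n) := IsGaussian.memLp_two_id
  have h := covarianceBilin_apply h2 A B
  rw [covarianceBilin_stdGaussian, innerSL_apply_apply] at h
  simp only [id_eq, integral_id_stdGaussian, sub_zero] at h
  refine ⟨MemLp.integrable_mul (p := 2) (q := 2) ?_ ?_, h.symm⟩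
  · exact (innerSL ℝ A).comp_memLp' h2
  · exact (innerSL ℝ B).comp_memLp' h2

/-! ### Matrices of the martingale -/

/-- Kronecker sum of the secant. -/
noncomputable def Tm (μ : Measure (Rn n)) (t t' : ℝ) (q : ℕ) (u : ℝ) (th xi : Rn n) :
    Matrix (Fin q → Fin n) (Fin q → Fin n) ℝ :=
  kron q (Matrix.of fun j l => secant μ t t' u th xi j l)

/-- Kronecker sum of the derivative of the secant. -/
noncomputable def Tk (μ : Measure (Rn n)) (t t' : ℝ) (q : ℕ) (u : ℝ) (th xi : Rn n) (k : Fin n) :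
    Matrix (Fin q → Fin n) (Fin q → Fin n) ℝ :=
  kron q (Matrix.of fun j l => dsec μ t t' u th xi j l k)

/-- Quadratic variation. -/
noncomputable def Qm (μ : Measure (Rn n)) (t t' : ℝ) (q : ℕ) (u : ℝ) (th xi : Rn n) :
    Matrix (Fin q → Fin n) (Fin q → Fin n) ℝ :=
  ∑ k, Tk μ t t' q u th xi k * Tk μ t t' q u th xi k

/-- The exponent after `j` steps. -/
noncomputable def Xj (μ : Measure (Rn n)) (t t' : ℝ) (q : ℕ) (β h : ℝ) (xi : Rn n) (j : ℕ)
    (w : Fin (j + 1) → Rn n) : Matrix (Fin q → Fin n) (Fin q → Fin n) ℝ :=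
  β • (Tm μ t t' q ((j : ℝ) * h) (w (Fin.last j)) xi - Tm μ t t' q 0 0 xi)
    - (β ^ 2 * h / 2) • ∑ i : Fin j, Qm μ t t' q (((i : ℕ) + 1 : ℝ) * h) (w i.castSucc) xi

lemma coef_mem (q : ℕ) (i : Fin q) (a b : Fin q → Fin n) :
    (0 : ℝ) ≤ ∏ l ∈ Finset.univ.erase i, (if a l = b l then 1 else 0) ∧
      (∏ l ∈ Finset.univ.erase i, (if a l = b l then (1 : ℝ) else 0)) ≤ 1 :=
  ⟨Finset.prod_nonneg fun l _ => by split <;> norm_num,
    Finset.prod_le_one (fun l _ => by split <;> norm_num) fun l _ => by split <;> norm_num⟩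

lemma kron_abs_le {M : Matrix (Fin n) (Fin n) ℝ} {K : ℝ} (hM : ∀ i j, |M i j| ≤ K)
    (a b : Fin q → Fin n) : |kron q M a b| ≤ q * K := by
  refine (Finset.abs_sum_le_sum_abs _ _).trans ((Finset.sum_le_sum fun i _ => ?_).trans_eq
    (by simp : ∑ _i : Fin q, K = q * K))
  obtain ⟨h0, h1⟩ := coef_mem q i a b
  rw [abs_mul, abs_of_nonneg h0]
  exact (mul_le_of_le_one_right (abs_nonneg _) h1).trans (hM _ _)

lemma kron_isSymm {M : Matrix (Fin n) (Fin n) ℝ} (hM : M.IsSymm) : (kron q M).IsSymm := by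
  ext a b
  simp only [transpose_apply, kron]
  refine Finset.sum_congr rfl fun i _ => ?_
  rw [hM.apply (a i) (b i)]
  simp [eq_comm]

variable [IsProbabilityMeasure μ]

omit [IsProbabilityMeasure μ] in
lemma Tm_symm {t t' : ℝ}
    (hs : ∀ (u : ℝ) (th xi : Rn n) (j l : Fin n),
      secant μ t t' u th xi j l = secant μ t t' u th xi l j) (u : ℝ) (th xi : Rn n) :
    (Tm μ t t' q u th xi).IsSymm ∧ ∀ k, (Tk μ t t' q u th xi k).IsSymm := by
  refine ⟨kron_isSymm ?_, fun k => kron_isSymm ?_⟩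
  · ext j l; simp [hs u th xi j l]
  · ext j l
    simp only [transpose_apply, Matrix.of_apply, dsec]
    congr 1
    funext p
    exact hs u p xi l j

omit [IsProbabilityMeasure μ] in
lemma Qm_symm {t t' u : ℝ} {th xi : Rn n} (h : ∀ k, (Tk μ t t' q u th xi k).IsSymm) :
    (Qm μ t t' q u th xi).IsSymm := by
  unfold Qm Matrix.IsSymm
  rw [transpose_sum]
  exact Finset.sum_congr rfl fun k _ => by rw [transpose_mul, (h k).eq]

omit [IsProbabilityMeasure μ] in
lemma Xj_zero (t t' β h : ℝ) (xi : Rn n) (w : Fin 1 → Rn n) (hw : w 0 = 0) :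
    Xj μ t t' q β h xi 0 w = 0 := by
  simp [Xj, hw]

omit [IsProbabilityMeasure μ] in
lemma Xj_succ (t t' β h : ℝ) (xi : Rn n) (j : ℕ) (w : Fin (j + 1) → Rn n) (p : Rn n) :
    Xj μ t t' q β h xi (j + 1) (Fin.snoc w p) = Xj μ t t' q β h xi j w
      + β • (Tm μ t t' q (((j : ℝ) + 1) * h) p xi - Tm μ t t' q ((j : ℝ) * h) (w (Fin.last j)) xi)
      - (β ^ 2 * h / 2) • Qm μ t t' q (((j : ℝ) + 1) * h) (w (Fin.last j)) xi := by
  simp only [Xj, Fin.snoc_last, Nat.cast_add, Nat.cast_one, Fin.sum_univ_castSucc,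
    Fin.val_castSucc, Fin.val_last, Fin.snoc_castSucc, smul_add, smul_sub]
  abel

/-- Expectation over one step. -/
lemma step_eq_integral (hb : BddSupp μ) (u h : ℝ) (th : Rn n) {f : Rn n → ℝ} (hf : Measurable f)
    {C : ℝ} (hC : ∀ x, |f x| ≤ C) :
    step μ u h th f
      = ∫ p, f (th + h • p.1 + Real.sqrt h • p.2) ∂(tilt μ u th).prod (gam n) := by
  have := Chain.tilt_prob hb u th
  have hm : Measurable fun p : Rn n × Rn n => f (th + h • p.1 + Real.sqrt h • p.2) :=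
    hf.comp (by fun_prop)
  rw [integral_prod _ (Chain.integrable_of_bdd hm fun p => hC _), Chain.tilt_int]
  rfl

/-- Second moment of two almost linear functions of one increment. -/
lemma cross_le (hb : BddSupp μ) {u : ℝ} (th : Rn n) {Rs : ℝ} (hR : ∀ᵐ x ∂μ, ‖x‖ ≤ Rs) {h : ℝ}
    (hh : 0 < h) (hh1 : h ≤ 1) {A B : Rn n} {D : ℝ} (hA : ‖A‖ ≤ D) (hB : ‖B‖ ≤ D)
    {f g : Rn n × Rn n → ℝ} (hf : Measurable f) (hg : Measurable g)
    (hf' : ∀ p : Rn n × Rn n, |f p - ⟪A, h • p.1 + Real.sqrt h • p.2⟫|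
      ≤ D * (h + ‖h • p.1 + Real.sqrt h • p.2‖ ^ 2))
    (hg' : ∀ p : Rn n × Rn n, |g p - ⟪B, h • p.1 + Real.sqrt h • p.2⟫|
      ≤ D * (h + ‖h • p.1 + Real.sqrt h • p.2‖ ^ 2)) :
    |∫ p, f p * g p ∂(tilt μ u th).prod (gam n) - h * ⟪A, B⟫|
      ≤ 9 * D ^ 2 * (∫ z, (1 + |Rs| + ‖z‖) ^ 6 ∂gam n) * (h * Real.sqrt h) := by
  have := Chain.tilt_prob hb u th
  set ν := tilt μ u th with hν
  have hD : 0 ≤ D := (norm_nonneg A).trans hA
  have hRν : ∀ᵐ x ∂ν, ‖x‖ ≤ |Rs| :=
    (tilted_absolutelyContinuous μ _).ae_le (hR.mono fun x hx => hx.trans (le_abs_self Rs))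
  have hRp : ∀ᵐ p ∂ν.prod (gam n), ‖p.1‖ ≤ |Rs| := Measure.quasiMeasurePreserving_fst.ae hRν
  have hρ : Integrable (fun z : Rn n => (1 + |Rs| + ‖z‖) ^ 6) (gam n) :=
    moment_bound (by positivity)
  have hρp : Integrable (fun p : Rn n × Rn n => (1 + |Rs| + ‖p.2‖) ^ 6) (ν.prod (gam n)) :=
    hρ.comp_snd ν
  set s := Real.sqrt h with hs
  have hs0 : 0 < s := Real.sqrt_pos.2 hh
  have hs2 : s * s = h := Real.mul_self_sqrt hh.le
  have hhs : h ≤ s := by nlinarith [Real.sqrt_le_one.2 hh1]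
  set η : Rn n × Rn n → Rn n := fun p => h • p.1 + s • p.2 with hη
  have hpt : ∀ᵐ p ∂ν.prod (gam n), |f p * g p - (h * ⟪A, p.2⟫ * ⟪B, p.2⟫
      + h * s * (⟪A, p.1⟫ * ⟪B, p.2⟫) + h * s * (⟪B, p.1⟫ * ⟪A, p.2⟫))|
        ≤ 9 * D ^ 2 * (h * s) * (1 + |Rs| + ‖p.2‖) ^ 6 := by
    filter_upwards [hRp] with p hp
    set ρ := 1 + |Rs| + ‖p.2‖ with hρd
    have hρ1 : 1 ≤ ρ := by linarith [abs_nonneg Rs, norm_nonneg p.2]
    have hn : ‖η p‖ ≤ s * ρ := by
      refine (norm_add_le _ _).trans ?_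
      rw [norm_smul, norm_smul, Real.norm_eq_abs, Real.norm_eq_abs, abs_of_pos hh, abs_of_pos hs0]
      nlinarith [norm_nonneg p.1, norm_nonneg p.2]
    have hr : h + ‖η p‖ ^ 2 ≤ 2 * h * ρ ^ 2 := by
      have := pow_le_pow_left₀ (norm_nonneg _) hn 2
      nlinarith [one_le_pow₀ (n := 2) hρ1]
    have e1 : ∀ C : Rn n, ⟪C, η p⟫ = h * ⟪C, p.1⟫ + s * ⟪C, p.2⟫ := fun C => by
      rw [hη, inner_add_right, real_inner_smul_right, real_inner_smul_right]
    have hl : ∀ C : Rn n, ‖C‖ ≤ D → |⟪C, η p⟫| ≤ D * (s * ρ) := fun C hC =>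
      (abs_real_inner_le_norm _ _).trans (mul_le_mul hC hn (norm_nonneg _) hD)
    have hl1 : ∀ C : Rn n, ‖C‖ ≤ D → |⟪C, p.1⟫| ≤ D * ρ := fun C hC =>
      (abs_real_inner_le_norm _ _).trans
        (mul_le_mul hC (by linarith [norm_nonneg p.2]) (norm_nonneg _) hD)
    set rf := f p - ⟪A, η p⟫ with hrf
    set rg := g p - ⟪B, η p⟫ with hrg
    have brf : |rf| ≤ 2 * D * h * ρ ^ 2 := (hf' p).trans (by nlinarith)
    have brg : |rg| ≤ 2 * D * h * ρ ^ 2 := (hg' p).trans (by nlinarith)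
    have key : f p * g p - (h * ⟪A, p.2⟫ * ⟪B, p.2⟫ + h * s * (⟪A, p.1⟫ * ⟪B, p.2⟫)
        + h * s * (⟪B, p.1⟫ * ⟪A, p.2⟫))
          = h * h * (⟪A, p.1⟫ * ⟪B, p.1⟫) + ⟪A, η p⟫ * rg + rf * ⟪B, η p⟫ + rf * rg := by
      rw [hrf, hrg, e1 A, e1 B]
      have : s ^ 2 = h := by rw [pow_two]; exact hs2
      ring_nf
      rw [this]
      ring
    rw [key]
    have b1 : |h * h * (⟪A, p.1⟫ * ⟪B, p.1⟫)| ≤ D ^ 2 * (h * s) * ρ ^ 6 := by
      rw [abs_mul, abs_mul, abs_mul, abs_of_pos hh]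
      calc h * h * (|⟪A, p.1⟫| * |⟪B, p.1⟫|) ≤ h * s * (D * ρ * (D * ρ)) := by
            gcongr
            · exact hl1 A hA
            · exact hl1 B hB
        _ = D ^ 2 * (h * s) * ρ ^ 2 := by ring
        _ ≤ _ := by gcongr; norm_num
    have b2 : ∀ (C : Rn n) (r : ℝ), ‖C‖ ≤ D → |r| ≤ 2 * D * h * ρ ^ 2 →
        |⟪C, η p⟫ * r| ≤ 2 * D ^ 2 * (h * s) * ρ ^ 6 := by
      intro C r hC hr'
      rw [abs_mul]
      calc |⟪C, η p⟫| * |r| ≤ D * (s * ρ) * (2 * D * h * ρ ^ 2) :=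
            mul_le_mul (hl C hC) hr' (abs_nonneg _) (by positivity)
        _ = 2 * D ^ 2 * (h * s) * ρ ^ 3 := by ring
        _ ≤ _ := by gcongr; norm_num
    have b4 : |rf * rg| ≤ 4 * D ^ 2 * (h * s) * ρ ^ 6 := by
      rw [abs_mul]
      calc |rf| * |rg| ≤ 2 * D * h * ρ ^ 2 * (2 * D * h * ρ ^ 2) :=
            mul_le_mul brf brg (abs_nonneg _) (by positivity)
        _ = 4 * D ^ 2 * (h * h) * ρ ^ 4 := by ring
        _ ≤ _ := by gcongr; norm_num
    have b3 : |rf * ⟪B, η p⟫| ≤ 2 * D ^ 2 * (h * s) * ρ ^ 6 := by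
      rw [mul_comm]; exact b2 B rf hB brf
    refine (abs_add_le _ _).trans ?_
    refine le_trans (add_le_add ((abs_add_le _ _).trans
      (add_le_add ((abs_add_le _ _).trans (add_le_add b1 (b2 A rg hA brg))) b3)) b4) ?_
    linarith
  obtain ⟨iAB, eAB⟩ := gam_inner_mul A B
  obtain ⟨iA, eA⟩ := gam_inner A
  obtain ⟨iB, eB⟩ := gam_inner B
  have hx : ∀ C : Rn n, Integrable (fun x : Rn n => ⟪C, x⟫) ν := fun C =>
    Integrable.of_bound (by fun_prop : Continuous fun x : Rn n => ⟪C, x⟫).aestronglyMeasurable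
      (‖C‖ * |Rs|) (hRν.mono fun x hx => (abs_real_inner_le_norm C x).trans
        (mul_le_mul_of_nonneg_left hx (norm_nonneg _)))
  have i1 : Integrable (fun p : Rn n × Rn n => h * ⟪A, p.2⟫ * ⟪B, p.2⟫) (ν.prod (gam n)) := by
    simpa only [mul_assoc] using (iAB.comp_snd ν).const_mul h
  have i2 := ((hx A).mul_prod iB).const_mul (h * s)
  have i3 := ((hx B).mul_prod iA).const_mul (h * s)
  have iL := (i1.add i2).add i3
  have iM := hρp.const_mul (9 * D ^ 2 * (h * s))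
  have ifg : Integrable (fun p => f p * g p) (ν.prod (gam n)) := by
    refine Integrable.mono' (iM.add iL.norm) (hf.mul hg).aestronglyMeasurable
      (hpt.mono fun p hp => ?_)
    simp only [Pi.add_apply, Real.norm_eq_abs]
    linarith [abs_sub_abs_le_abs_sub (f p * g p) (h * ⟪A, p.2⟫ * ⟪B, p.2⟫
      + h * s * (⟪A, p.1⟫ * ⟪B, p.2⟫) + h * s * (⟪B, p.1⟫ * ⟪A, p.2⟫))]
  have eL : ∫ p, (h * ⟪A, p.2⟫ * ⟪B, p.2⟫ + h * s * (⟪A, p.1⟫ * ⟪B, p.2⟫)
      + h * s * (⟪B, p.1⟫ * ⟪A, p.2⟫)) ∂ν.prod (gam n) = h * ⟪A, B⟫ := by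
    rw [integral_add (by exact i1.add i2) i3, integral_add i1 i2, integral_const_mul,
      integral_const_mul, integral_prod_mul (fun x => ⟪A, x⟫) (fun z => ⟪B, z⟫),
      integral_prod_mul (fun x => ⟪B, x⟫) (fun z => ⟪A, z⟫), eA, eB,
      integral_fun_snd (f := fun z => h * ⟪A, z⟫ * ⟪B, z⟫)]
    simp only [mul_assoc, integral_const_mul, eAB, probReal_univ, one_smul]
    ring
  rw [← eL, ← integral_sub ifg (by exact iL)]
  refine (abs_integral_le_integral_abs).trans ((integral_mono_ae (by exact (ifg.sub iL).abs) iM hpt).trans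
    (le_of_eq ?_))
  rw [integral_const_mul, integral_fun_snd (f := fun z : Rn n => (1 + |Rs| + ‖z‖) ^ 6), probReal_univ,
    one_smul]
  ring

/-- The consequences of `SecantReg` used here, for one triple `(t, t', K)`. -/
structure Reg (μ : Measure (Rn n)) (t t' K : ℝ) : Prop where
  cont : ∀ u ∈ Set.Icc 0 t, ∀ (j l k : Fin n),
    Continuous (fun p : Rn n × Rn n => secant μ t t' u p.1 p.2 j l) ∧
    Continuous (fun p : Rn n × Rn n => dsec μ t t' u p.1 p.2 j l k)
  symm : ∀ (u : ℝ) (th xi : Rn n) (j l : Fin n),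
    secant μ t t' u th xi j l = secant μ t t' u th xi l j
  nonneg : 0 ≤ K
  bd : ∀ u ∈ Set.Icc 0 t, ∀ (th xi : Rn n) (j l : Fin n),
    |secant μ t t' u th xi j l| ≤ K ∧ (∀ k, |dsec μ t t' u th xi j l k| ≤ K) ∧
    (∀ η : Rn n, |secant μ t t' u (th + η) xi j l - secant μ t t' u th xi j l
        - ∑ k, η k * dsec μ t t' u th xi j l k| ≤ K * ‖η‖ ^ 2) ∧
    ∀ v ∈ Set.Icc 0 t, |secant μ t t' v th xi j l - secant μ t t' u th xi j l| ≤ K * |v - u|

namespace Reg

variable {t t' K : ℝ}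

omit [IsProbabilityMeasure μ] in
lemma tm_abs (H : Reg μ t t' K) {u : ℝ} (hu : u ∈ Set.Icc 0 t) (th xi : Rn n)
    (a c : Fin q → Fin n) : |Tm μ t t' q u th xi a c| ≤ q * K :=
  kron_abs_le (fun j l => (H.bd u hu th xi j l).1) a c

omit [IsProbabilityMeasure μ] in
lemma tk_abs (H : Reg μ t t' K) {u : ℝ} (hu : u ∈ Set.Icc 0 t) (th xi : Rn n) (k : Fin n)
    (a c : Fin q → Fin n) : |Tk μ t t' q u th xi k a c| ≤ q * K :=
  kron_abs_le (fun j l => (H.bd u hu th xi j l).2.1 k) a c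

omit [IsProbabilityMeasure μ] in
lemma qm_abs (H : Reg μ t t' K) {u : ℝ} (hu : u ∈ Set.Icc 0 t) (th xi : Rn n)
    (a c : Fin q → Fin n) :
    |Qm μ t t' q u th xi a c| ≤ n * ((Fintype.card (Fin q → Fin n) : ℝ) * (q * K) ^ 2) := by
  rw [Qm, Matrix.sum_apply]
  refine (Finset.abs_sum_le_sum_abs _ _).trans ((Finset.sum_le_sum fun k _ => ?_).trans_eq
    (by simp : ∑ _k : Fin n, (Fintype.card (Fin q → Fin n) : ℝ) * (q * K) ^ 2
      = n * ((Fintype.card (Fin q → Fin n) : ℝ) * (q * K) ^ 2)))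
  rw [Matrix.mul_apply]
  refine (Finset.abs_sum_le_sum_abs _ _).trans ((Finset.sum_le_sum fun e _ => ?_).trans_eq
    (by simp : ∑ _e : Fin q → Fin n, (q * K : ℝ) ^ 2
      = (Fintype.card (Fin q → Fin n) : ℝ) * (q * K) ^ 2))
  rw [abs_mul, pow_two]
  exact mul_le_mul (H.tk_abs hu th xi k a e) (H.tk_abs hu th xi k e c) (abs_nonneg _)
    (mul_nonneg (Nat.cast_nonneg q) H.nonneg)

omit [IsProbabilityMeasure μ] in
lemma secant_cont (H : Reg μ t t' K) {u : ℝ} (hu : u ∈ Set.Icc 0 t) (xi : Rn n) (j l : Fin n) :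
    Continuous fun th => secant μ t t' u th xi j l := by
  have hp : Continuous fun th : Rn n => (th, xi) := continuous_id.prodMk continuous_const
  exact Continuous.comp (g := fun p : Rn n × Rn n => secant μ t t' u p.1 p.2 j l) (f := fun th => (th, xi))
    (H.cont u hu j l j).1 hp

omit [IsProbabilityMeasure μ] in
lemma tm_cont (H : Reg μ t t' K) {u : ℝ} (hu : u ∈ Set.Icc 0 t) (xi : Rn n)
    (a c : Fin q → Fin n) : Continuous fun th => Tm μ t t' q u th xi a c := by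
  simp only [Tm, kron, Matrix.of_apply]
  exact continuous_finsetSum _ fun i _ => (H.secant_cont hu xi (a i) (c i)).mul continuous_const

omit [IsProbabilityMeasure μ] in
lemma tk_cont (H : Reg μ t t' K) {u : ℝ} (hu : u ∈ Set.Icc 0 t) (xi : Rn n) (k : Fin n)
    (a c : Fin q → Fin n) : Continuous fun th => Tk μ t t' q u th xi k a c := by
  simp only [Tk, kron, Matrix.of_apply]
  refine continuous_finsetSum _ fun i _ => Continuous.mul ?_ continuous_const
  have hp : Continuous fun th : Rn n => (th, xi) := continuous_id.prodMk continuous_const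
  exact Continuous.comp (g := fun p : Rn n × Rn n => dsec μ t t' u p.1 p.2 (a i) (c i) k)
    (f := fun th => (th, xi)) (H.cont u hu (a i) (c i) k).2 hp

omit [IsProbabilityMeasure μ] in
/-- First-order expansion of one increment. -/
lemma tm_lin (H : Reg μ t t' K) {u u' h : ℝ} (hu : u ∈ Set.Icc 0 t) (hu' : u' ∈ Set.Icc 0 t)
    (hd : |u' - u| = h) (th xi η : Rn n) (a c : Fin q → Fin n) :
    |Tm μ t t' q u' (th + η) xi a c - Tm μ t t' q u th xi a c
        - ∑ k, η k * Tk μ t t' q u' th xi k a c| ≤ q * (K * (h + ‖η‖ ^ 2)) := by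
  have hsec : ∀ j l, |secant μ t t' u' (th + η) xi j l - secant μ t t' u th xi j l
      - ∑ k, η k * dsec μ t t' u' th xi j l k| ≤ K * (h + ‖η‖ ^ 2) := by
    intro j l
    have h1 := abs_le.1 ((H.bd u' hu' th xi j l).2.2.1 η)
    have h2 := (H.bd u hu th xi j l).2.2.2 u' hu'
    rw [hd] at h2
    have h3 := abs_le.1 h2
    rw [abs_le]
    constructor <;> nlinarith
  have e : Tm μ t t' q u' (th + η) xi a c - Tm μ t t' q u th xi a c
      - ∑ k, η k * Tk μ t t' q u' th xi k a c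
      = ∑ i, (secant μ t t' u' (th + η) xi (a i) (c i) - secant μ t t' u th xi (a i) (c i)
          - ∑ k, η k * dsec μ t t' u' th xi (a i) (c i) k)
        * ∏ l ∈ Finset.univ.erase i, if a l = c l then 1 else 0 := by
    simp only [Tm, Tk, kron, Matrix.of_apply, Finset.mul_sum]
    rw [Finset.sum_comm, ← Finset.sum_sub_distrib, ← Finset.sum_sub_distrib]
    refine Finset.sum_congr rfl fun i _ => ?_
    simp only [sub_mul, Finset.sum_mul, mul_assoc]
  rw [e]
  refine (Finset.abs_sum_le_sum_abs _ _).trans ((Finset.sum_le_sum fun i _ => ?_).trans_eq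
    (by simp : ∑ _i : Fin q, K * (h + ‖η‖ ^ 2) = q * (K * (h + ‖η‖ ^ 2))))
  obtain ⟨h0, h1⟩ := coef_mem q i a c
  rw [abs_mul, abs_of_nonneg h0]
  exact (mul_le_of_le_one_right (abs_nonneg _) h1).trans (hsec _ _)

/-- One increment of the Kronecker sum is centred. -/
lemma tm_mean (H : Reg μ t t' K) (hSm : SecantMart) (hμ : IsSLC 0 μ) (hb : BddSupp μ)
    (htt : t < t') {u u' h : ℝ} (hu : u ∈ Set.Icc 0 t) (hu' : u' ∈ Set.Icc 0 t) (hh : 0 ≤ h)
    (hd : u' = u + h) (th xi : Rn n) (a c : Fin q → Fin n) :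
    ∫ p, Tm μ t t' q u' (th + h • p.1 + Real.sqrt h • p.2) xi a c ∂(tilt μ u th).prod (gam n)
      = Tm μ t t' q u th xi a c := by
  have := Chain.tilt_prob hb u th
  simp only [Tm, kron, Matrix.of_apply]
  have hθ : Measurable fun p : Rn n × Rn n => th + h • p.1 + Real.sqrt h • p.2 := by fun_prop
  have hm : ∀ i, Measurable fun p : Rn n × Rn n =>
      secant μ t t' u' (th + h • p.1 + Real.sqrt h • p.2) xi (a i) (c i) :=
    fun i => (H.secant_cont hu' xi (a i) (c i)).measurable.comp hθ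
  rw [integral_finsetSum _ fun i _ => (Chain.integrable_of_bdd (hm i)
    fun p => (H.bd u' hu' _ xi (a i) (c i)).1).mul_const _]
  refine Finset.sum_congr rfl fun i _ => ?_
  rw [integral_mul_const, ← hSm n μ inferInstance hμ hb t t' u h hu.1 hh (hd ▸ hu'.2) htt th xi
    (a i) (c i), ← hd, step_eq_integral hb u h th (H.secant_cont hu' xi (a i) (c i)).measurable
    (fun x => (H.bd u' hu' x xi (a i) (c i)).1)]

end Reg

/-- `tr exp` of a symmetric matrix is nonnegative. -/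
lemma trace_exp_nonneg {A : Matrix ι ι ℝ} (hA : A.IsSymm) : 0 ≤ (NormedSpace.exp A).trace := by
  have hs : (NormedSpace.exp ((2 : ℝ)⁻¹ • A)).IsSymm := by
    unfold Matrix.IsSymm
    rw [← Matrix.exp_transpose, (hA.smul _).eq]
  have he : NormedSpace.exp A
      = NormedSpace.exp ((2 : ℝ)⁻¹ • A) * NormedSpace.exp ((2 : ℝ)⁻¹ • A) := by
    rw [← Matrix.exp_add_of_commute _ _ (Commute.refl _), ← add_smul]
    norm_num
  rw [he, Matrix.trace]
  refine Finset.sum_nonneg fun a _ => ?_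
  rw [Matrix.diag_apply, Matrix.mul_apply]
  exact Finset.sum_nonneg fun c _ => by rw [← hs.apply a c]; exact mul_self_nonneg _

/-- Moments of the size of a random matrix with entries of order `s ρ²`. -/
lemma moments_le {ν : Measure (Rn n)} [IsProbabilityMeasure ν] {Rs D s b : ℝ} (hs : 0 ≤ s)
    (hD : 0 ≤ D) {E : Rn n × Rn n → ℝ} (hEm : Measurable E) (hE0 : ∀ p, 0 ≤ E p) (hEb : ∀ p, E p ≤ b)
    (hE : ∀ᵐ p ∂ν.prod (gam n), E p ≤ D * s * (1 + |Rs| + ‖p.2‖) ^ 2) :
    ∫ p, E p ^ 3 ∂ν.prod (gam n) ≤ D ^ 3 * (∫ z, (1 + |Rs| + ‖z‖) ^ 6 ∂gam n) * (s * s * s) ∧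
    ∫ p, E p ∂ν.prod (gam n) ≤ D * (∫ z, (1 + |Rs| + ‖z‖) ^ 6 ∂gam n) * s := by
  have hρ : Integrable (fun p : Rn n × Rn n => (1 + |Rs| + ‖p.2‖) ^ 6) (ν.prod (gam n)) :=
    (moment_bound (n := n) (by positivity : 0 ≤ 1 + |Rs|)).comp_snd ν
  have he : ∫ p, (1 + |Rs| + ‖p.2‖) ^ 6 ∂ν.prod (gam n)
      = ∫ z, (1 + |Rs| + ‖z‖) ^ 6 ∂gam n := by
    rw [integral_fun_snd (f := fun z : Rn n => (1 + |Rs| + ‖z‖) ^ 6), probReal_univ, one_smul]
  have hi : ∀ k : ℕ, Integrable (fun p => E p ^ k) (ν.prod (gam n)) := fun k =>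
    Chain.integrable_of_bdd (C := b ^ k) (hEm.pow_const k) fun p => by
      rw [abs_pow, abs_of_nonneg (hE0 _)]
      exact pow_le_pow_left₀ (hE0 _) (hEb p) k
  constructor
  · refine (integral_mono_ae (hi 3) (hρ.const_mul (D ^ 3 * (s * s * s)))
      (hE.mono fun p hp => (pow_le_pow_left₀ (hE0 _) hp 3).trans (le_of_eq ?_))).trans (le_of_eq ?_)
    · ring
    · rw [integral_const_mul, he]; ring
  · refine (integral_mono_ae (by simpa using hi 1) (hρ.const_mul (D * s))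
      (hE.mono fun p hp => hp.trans ?_)).trans (le_of_eq ?_)
    · refine mul_le_mul_of_nonneg_left (pow_le_pow_right₀ ?_ (by norm_num)) (by positivity)
      linarith [abs_nonneg Rs, norm_nonneg p.2]
    · rw [integral_const_mul, he]; ring

/-- Gradient of one entry of the increment. -/
noncomputable def G1 (μ : Measure (Rn n)) (t t' : ℝ) (q : ℕ) (β u' : ℝ) (th xi : Rn n)
    (a c : Fin q → Fin n) : Rn n :=
  β • WithLp.toLp 2 fun k => Tk μ t t' q u' th xi k a c

/-- The increment. -/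
noncomputable def Y1 (μ : Measure (Rn n)) (t t' : ℝ) (q : ℕ) (β u u' h : ℝ) (th xi : Rn n)
    (p : Rn n × Rn n) : Matrix (Fin q → Fin n) (Fin q → Fin n) ℝ :=
  β • (Tm μ t t' q u' (th + h • p.1 + Real.sqrt h • p.2) xi - Tm μ t t' q u th xi)

/-- Scale of all entries. -/
def dK (n q : ℕ) (β K : ℝ) : ℝ := q * K * (n + 1) * (|β| + 1)

variable {t t' K β u u' h : ℝ}

omit [IsProbabilityMeasure μ] in
lemma G1_inner (th xi η : Rn n) (a c : Fin q → Fin n) :
    ⟪G1 μ t t' q β u' th xi a c, η⟫ = β * ∑ k, η k * Tk μ t t' q u' th xi k a c := by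
  rw [G1, real_inner_smul_left, PiLp.inner_apply]
  simp [mul_comm]

omit [IsProbabilityMeasure μ] in
lemma G1_norm (H : Reg μ t t' K) (hu' : u' ∈ Set.Icc 0 t) (th xi : Rn n) (a c : Fin q → Fin n) :
    ‖G1 μ t t' q β u' th xi a c‖ ≤ dK n q β K := by
  have hK := H.nonneg
  rw [G1, norm_smul, Real.norm_eq_abs]
  have : ‖(WithLp.toLp 2 fun k => Tk μ t t' q u' th xi k a c : Rn n)‖ ≤ (n + 1) * (q * K) := by
    rw [EuclideanSpace.norm_eq]
    refine (Real.sqrt_le_left (by positivity)).2 ?_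
    calc ∑ k, ‖(WithLp.toLp 2 fun k => Tk μ t t' q u' th xi k a c : Rn n) k‖ ^ 2
        ≤ ∑ _k : Fin n, (q * K : ℝ) ^ 2 := Finset.sum_le_sum fun k _ => by
          rw [Real.norm_eq_abs, sq_abs, ← sq_abs]
          exact pow_le_pow_left₀ (abs_nonneg _) (H.tk_abs hu' th xi k a c) 2
      _ ≤ _ := by
          simp only [Finset.sum_const, Finset.card_univ, Fintype.card_fin, nsmul_eq_mul]
          rw [mul_pow, mul_pow, mul_pow]
          refine mul_le_mul_of_nonneg_right ?_ (by positivity : (0 : ℝ) ≤ (q : ℝ) ^ 2 * K ^ 2)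
          nlinarith [(Nat.cast_nonneg n : (0 : ℝ) ≤ n)]
  calc |β| * ‖(WithLp.toLp 2 fun k => Tk μ t t' q u' th xi k a c : Rn n)‖
        ≤ (|β| + 1) * ((n + 1) * (q * K)) :=
        mul_le_mul (by linarith : |β| ≤ |β| + 1) this (norm_nonneg _) (by positivity)
    _ = _ := by rw [dK]; ring

omit [IsProbabilityMeasure μ] in
lemma Y1_facts (H : Reg μ t t' K) (hu : u ∈ Set.Icc 0 t) (hu' : u' ∈ Set.Icc 0 t) (hh : 0 ≤ h)
    (hd : |u' - u| = h) (th xi : Rn n) (a c : Fin q → Fin n) :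
    (Measurable fun p => Y1 μ t t' q β u u' h th xi p a c) ∧
    (∀ p, |Y1 μ t t' q β u u' h th xi p a c| ≤ 2 * dK n q β K) ∧
    ∀ p : Rn n × Rn n, |Y1 μ t t' q β u u' h th xi p a c
        - ⟪G1 μ t t' q β u' th xi a c, h • p.1 + Real.sqrt h • p.2⟫|
      ≤ dK n q β K * (h + ‖h • p.1 + Real.sqrt h • p.2‖ ^ 2) := by
  have hK := H.nonneg
  have hn : (0 : ℝ) ≤ n := Nat.cast_nonneg n
  have hqK : (0 : ℝ) ≤ q * K * (|β| + 1) := by positivity
  refine ⟨?_, fun p => ?_, fun p => ?_⟩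
  · have hθ : Measurable fun p : Rn n × Rn n => th + h • p.1 + Real.sqrt h • p.2 := by fun_prop
    have hm : Measurable fun p : Rn n × Rn n =>
        Tm μ t t' q u' (th + h • p.1 + Real.sqrt h • p.2) xi a c :=
      (H.tm_cont hu' xi a c).measurable.comp hθ
    simp only [Y1, Matrix.smul_apply, Matrix.sub_apply, smul_eq_mul]
    exact measurable_const.mul (hm.sub measurable_const)
  · simp only [Y1, Matrix.smul_apply, Matrix.sub_apply, smul_eq_mul, abs_mul]
    refine (mul_le_mul (by linarith : |β| ≤ |β| + 1) ((abs_sub _ _).trans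
      (add_le_add (H.tm_abs hu' _ xi a c) (H.tm_abs hu _ xi a c))) (abs_nonneg _) (by positivity)).trans ?_
    rw [dK]
    nlinarith
  · simp only [Y1, Matrix.smul_apply, Matrix.sub_apply, smul_eq_mul, G1_inner, add_assoc]
    rw [← mul_sub, abs_mul]
    refine (mul_le_mul (by linarith : |β| ≤ |β| + 1) (H.tm_lin hu hu' hd th xi _ a c) (abs_nonneg _)
      (by positivity)).trans ?_
    rw [dK]
    have : (0 : ℝ) ≤ q * K * (|β| + 1) * (h + ‖h • p.1 + Real.sqrt h • p.2‖ ^ 2) := by positivity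
    nlinarith

/-- Size of one increment. -/
lemma Y1_small (H : Reg μ t t' K) (hb : BddSupp μ) (hu : u ∈ Set.Icc 0 t) (hu' : u' ∈ Set.Icc 0 t)
    (hh : 0 < h) (hh1 : h ≤ 1) (hd : |u' - u| = h) {Rs : ℝ} (hR : ∀ᵐ x ∂μ, ‖x‖ ≤ Rs)
    (th xi : Rn n) :
    ∀ᵐ p ∂(tilt μ u th).prod (gam n), esum (Y1 μ t t' q β u u' h th xi p)
      ≤ (Fintype.card (Fin q → Fin n) : ℝ) ^ 2 * (3 * dK n q β K) * Real.sqrt h
        * (1 + |Rs| + ‖p.2‖) ^ 2 := by
  have := Chain.tilt_prob hb u th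
  have hD : 0 ≤ dK n q β K := by
    have := H.nonneg
    rw [dK]; positivity
  have hRν : ∀ᵐ p ∂(tilt μ u th).prod (gam n), ‖p.1‖ ≤ |Rs| := Measure.quasiMeasurePreserving_fst.ae
    ((tilted_absolutelyContinuous μ _).ae_le (hR.mono fun x hx => hx.trans (le_abs_self Rs)))
  set s := Real.sqrt h with hs
  have hs0 : 0 < s := Real.sqrt_pos.2 hh
  have hs2 : s * s = h := Real.mul_self_sqrt hh.le
  have hhs : h ≤ s := by nlinarith [Real.sqrt_le_one.2 hh1]
  filter_upwards [hRν] with p hp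
  set ρ := 1 + |Rs| + ‖p.2‖
  have hρ1 : 1 ≤ ρ := by linarith [abs_nonneg Rs, norm_nonneg p.2]
  have hn : ‖h • p.1 + s • p.2‖ ≤ s * ρ := by
    refine (norm_add_le _ _).trans ?_
    rw [norm_smul, norm_smul, Real.norm_eq_abs, Real.norm_eq_abs, abs_of_pos hh, abs_of_pos hs0]
    nlinarith [norm_nonneg p.1, norm_nonneg p.2]
  refine (esum_le (B := 3 * dK n q β K * (s * ρ ^ 2)) fun a c => ?_).trans (le_of_eq (by ring))
  obtain ⟨-, -, h0⟩ := Y1_facts H hu hu' hh.le hd th xi a c (β := β)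
  have h1 := abs_le.1 (h0 p)
  have h2 := abs_le.1 ((abs_real_inner_le_norm (G1 μ t t' q β u' th xi a c) (h • p.1 + s • p.2)).trans
    (mul_le_mul (G1_norm H hu' th xi a c) hn (norm_nonneg _) hD))
  have h3 : h + ‖h • p.1 + s • p.2‖ ^ 2 ≤ 2 * (s * ρ ^ 2) := by
    have := pow_le_pow_left₀ (norm_nonneg _) hn 2
    nlinarith [one_le_pow₀ (n := 2) hρ1]
  have h4 : s * ρ ≤ s * ρ ^ 2 := by nlinarith
  have h5 := mul_le_mul_of_nonneg_left h3 hD
  have h6 := mul_le_mul_of_nonneg_left h4 hD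
  rw [abs_le]
  constructor <;> linarith

/-- The second moment of one increment is its quadratic variation, up to `h^(3/2)`. -/
lemma second_moment (H : Reg μ t t' K) (hb : BddSupp μ) (hu : u ∈ Set.Icc 0 t)
    (hu' : u' ∈ Set.Icc 0 t) (hh : 0 < h) (hh1 : h ≤ 1) (hd : |u' - u| = h) {Rs : ℝ}
    (hR : ∀ᵐ x ∂μ, ‖x‖ ≤ Rs) (th xi : Rn n) (a c : Fin q → Fin n) :
    |((2 : ℝ)⁻¹ • (Matrix.of fun a c => ∫ p, (Y1 μ t t' q β u u' h th xi p
          * Y1 μ t t' q β u u' h th xi p) a c ∂(tilt μ u th).prod (gam n))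
        - (β ^ 2 * h / 2) • Qm μ t t' q u' th xi) a c|
      ≤ (Fintype.card (Fin q → Fin n) : ℝ)
        * (9 * dK n q β K ^ 2 * (∫ z, (1 + |Rs| + ‖z‖) ^ 6 ∂gam n)) * (h * Real.sqrt h) := by
  have := Chain.tilt_prob hb u th
  have hD : 0 ≤ dK n q β K := by
    have := H.nonneg
    rw [dK]; positivity
  simp only [Matrix.sub_apply, Matrix.smul_apply, smul_eq_mul, Matrix.of_apply, Matrix.mul_apply]
  rw [integral_finsetSum _ fun e _ => Chain.integrable_of_bdd
    (C := 2 * dK n q β K * (2 * dK n q β K))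
    ((Y1_facts H hu hu' hh.le hd th xi a e).1.fun_mul (Y1_facts H hu hu' hh.le hd th xi e c).1)
    fun p => by
      rw [abs_mul]
      exact mul_le_mul ((Y1_facts H hu hu' hh.le hd th xi a e).2.1 p)
        ((Y1_facts H hu hu' hh.le hd th xi e c).2.1 p) (abs_nonneg _) (by positivity)]
  have eQ : β ^ 2 * h / 2 * Qm μ t t' q u' th xi a c
      = 2⁻¹ * ∑ e, h * ⟪G1 μ t t' q β u' th xi a e, G1 μ t t' q β u' th xi e c⟫ := by
    have : ∀ e, ⟪G1 μ t t' q β u' th xi a e, G1 μ t t' q β u' th xi e c⟫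
        = β ^ 2 * ∑ k, Tk μ t t' q u' th xi k a e * Tk μ t t' q u' th xi k e c := by
      intro e
      rw [G1_inner]
      simp only [G1, PiLp.smul_apply, smul_eq_mul, Finset.mul_sum]
      exact Finset.sum_congr rfl fun k _ => by ring
    simp only [this, Qm, Matrix.sum_apply, Matrix.mul_apply, Finset.mul_sum]
    rw [Finset.sum_comm]
    exact Finset.sum_congr rfl fun e _ => Finset.sum_congr rfl fun k _ => by ring
  rw [eQ, Finset.mul_sum, Finset.mul_sum, ← Finset.sum_sub_distrib]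
  refine (Finset.abs_sum_le_sum_abs _ _).trans ((Finset.sum_le_sum fun e _ => ?_).trans_eq
    (by simp only [Finset.sum_const, Finset.card_univ, nsmul_eq_mul]; ring :
      ∑ _e : Fin q → Fin n, 9 * dK n q β K ^ 2 * (∫ z, (1 + |Rs| + ‖z‖) ^ 6 ∂gam n)
          * (h * Real.sqrt h)
        = (Fintype.card (Fin q → Fin n) : ℝ)
          * (9 * dK n q β K ^ 2 * (∫ z, (1 + |Rs| + ‖z‖) ^ 6 ∂gam n)) * (h * Real.sqrt h)))
  rw [← mul_sub, abs_mul, abs_of_pos (by norm_num : (0 : ℝ) < 2⁻¹)]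
  refine (mul_le_of_le_one_left (abs_nonneg _) (by norm_num)).trans ?_
  exact cross_le hb th hR hh hh1 (G1_norm H hu' th xi a e) (G1_norm H hu' th xi e c)
    (Y1_facts H hu hu' hh.le hd th xi a e).1 (Y1_facts H hu hu' hh.le hd th xi e c).1
    (Y1_facts H hu hu' hh.le hd th xi a e).2.2 (Y1_facts H hu hu' hh.le hd th xi e c).2.2

/-- One step of the matrix exponential supermartingale. -/
lemma step_le (hA : MatStep) (hSm : SecantMart) (H : Reg μ t t' K) (hμ : IsSLC 0 μ)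
    (hb : BddSupp μ) (htt : t < t') (q : ℕ) (β : ℝ) :
    ∃ K' : ℝ, 0 ≤ K' ∧ ∀ (u u' h : ℝ), u ∈ Set.Icc 0 t → u' ∈ Set.Icc 0 t → 0 < h → h ≤ 1 →
      u' = u + h → ∀ (th xi : Rn n) (X : Matrix (Fin q → Fin n) (Fin q → Fin n) ℝ), X.IsSymm →
      ∫ p, (NormedSpace.exp (X + Y1 μ t t' q β u u' h th xi p
            - (β ^ 2 * h / 2) • Qm μ t t' q u' th xi)).trace ∂(tilt μ u th).prod (gam n)
        ≤ (NormedSpace.exp X).trace * (1 + K' * (h * Real.sqrt h)) := by
  obtain ⟨Rs, hRs⟩ := id hb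
  set cd : ℝ := (Fintype.card (Fin q → Fin n) : ℝ) with hcd
  set ρ6 := ∫ z, (1 + |Rs| + ‖z‖) ^ 6 ∂gam n with hρ6
  have hρ0 : 0 ≤ ρ6 := integral_nonneg fun z => by positivity
  set D := dK n q β K with hD
  have hD0 : 0 ≤ D := by
    have := H.nonneg
    rw [hD, dK]; positivity
  set QC : ℝ := cd ^ 2 * (β ^ 2 * (n * (cd * (q * K) ^ 2))) with hQC
  have hQC0 : 0 ≤ QC := by positivity
  set b : ℝ := cd ^ 2 * (2 * D) + QC with hbd
  obtain ⟨KA, hKA0, hKA⟩ := hA (Fin q → Fin n) b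
  set c0 : ℝ := cd ^ 2 * (cd * (9 * D ^ 2 * ρ6)) with hc0
  refine ⟨c0 + KA * ((cd ^ 2 * (3 * D)) ^ 3 * ρ6 + QC ^ 2 + QC * (cd ^ 2 * (3 * D) * ρ6)),
    by positivity, fun u u' h hu hu' hh hh1 hd th xi X hX => ?_⟩
  have := Chain.tilt_prob hb u th
  have hda : |u' - u| = h := by rw [hd, add_sub_cancel_left, abs_of_pos hh]
  have hs := fun u th => Tm_symm (q := q) (μ := μ) H.symm u th xi
  have hC : esum ((β ^ 2 * h / 2) • Qm μ t t' q u' th xi) ≤ h * QC := by
    refine (esum_le (B := h * (β ^ 2 * (n * (cd * (q * K) ^ 2)))) fun a c => ?_).trans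
      (le_of_eq (by rw [hQC]; ring))
    rw [Matrix.smul_apply, smul_eq_mul, abs_mul, abs_of_nonneg (by positivity)]
    refine (mul_le_mul_of_nonneg_left (H.qm_abs hu' th xi a c) (by positivity)).trans ?_
    have : 0 ≤ β ^ 2 * h * (n * (cd * (q * K) ^ 2)) := by positivity
    rw [← hcd]
    linarith
  have hY2 : ∀ p a c, |Y1 μ t t' q β u u' h th xi p a c| ≤ 2 * D :=
    fun p a c => (Y1_facts H hu hu' hh.le hda th xi a c).2.1 p
  have hYe : ∀ p, esum (Y1 μ t t' q β u u' h th xi p) ≤ b := fun p =>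
    (esum_le (hY2 p)).trans (le_add_of_nonneg_right hQC0)
  have hCb : esum ((β ^ 2 * h / 2) • Qm μ t t' q u' th xi) ≤ b := hC.trans
    ((mul_le_of_le_one_left hQC0 hh1).trans (le_add_of_nonneg_left (by positivity)))
  have hY0 : ∀ a c, ∫ p, Y1 μ t t' q β u u' h th xi p a c ∂(tilt μ u th).prod (gam n) = 0 := by
    intro a c
    simp only [Y1, Matrix.smul_apply, Matrix.sub_apply, smul_eq_mul]
    have hθ : Measurable fun p : Rn n × Rn n => th + h • p.1 + Real.sqrt h • p.2 := by fun_prop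
    have hm : Measurable fun p : Rn n × Rn n =>
        Tm μ t t' q u' (th + h • p.1 + Real.sqrt h • p.2) xi a c :=
      (H.tm_cont hu' xi a c).measurable.comp hθ
    rw [integral_const_mul, integral_sub (Chain.integrable_of_bdd
      hm fun p => H.tm_abs hu' _ xi a c)
      (integrable_const _), integral_const, probReal_univ, one_smul,
      H.tm_mean hSm hμ hb htt hu hu' hh.le hd th xi a c, sub_self, mul_zero]
  have hquad : ∀ v : (Fin q → Fin n) → ℝ,
      v ⬝ᵥ (((2 : ℝ)⁻¹ • (Matrix.of fun a c => ∫ p, (Y1 μ t t' q β u u' h th xi p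
          * Y1 μ t t' q β u u' h th xi p) a c ∂(tilt μ u th).prod (gam n))
        - (β ^ 2 * h / 2) • Qm μ t t' q u' th xi) *ᵥ v)
        ≤ c0 * (h * Real.sqrt h) * (v ⬝ᵥ v) := by
    intro v
    refine (le_abs_self _).trans ((quad_le_esum _ v).trans ?_)
    refine mul_le_mul_of_nonneg_right ((esum_le fun a c =>
      second_moment H hb hu hu' hh hh1 hda hRs th xi a c).trans (le_of_eq ?_))
      (Finset.sum_nonneg fun i _ => mul_self_nonneg _)
    rw [hc0, hcd, hD, hρ6]; ring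
  refine (hKA (Rn n × Rn n) _ inferInstance X ((β ^ 2 * h / 2) • Qm μ t t' q u' th xi)
    (fun p => Y1 μ t t' q β u u' h th xi p) (c0 * (h * Real.sqrt h)) hX
    ((Qm_symm (hs _ _).2).smul _) (fun p => ((hs _ _).1.sub (hs _ _).1).smul _)
    (fun a c => (Y1_facts H hu hu' hh.le hda th xi a c).1) hCb hYe hY0 hquad).trans ?_
  refine mul_le_mul_of_nonneg_left ?_ (trace_exp_nonneg hX)
  have hem : Measurable fun p => esum (Y1 μ t t' q β u u' h th xi p) := by
    simp only [esum]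
    exact Finset.measurable_sum _ fun a _ => Finset.measurable_sum _ fun c _ =>
      (Y1_facts H hu hu' hh.le hda th xi a c).1.abs
  obtain ⟨hE3, hE1⟩ := moments_le (D := cd ^ 2 * (3 * D)) (Real.sqrt_nonneg h)
    (by positivity) hem (fun p => esum_nonneg _) hYe (Y1_small H hb hu hu' hh hh1 hda hRs th xi)
  rw [← hρ6] at hE3 hE1
  have hs2 : Real.sqrt h * Real.sqrt h = h := Real.mul_self_sqrt hh.le
  rw [hs2] at hE3
  have hsq : esum ((β ^ 2 * h / 2) • Qm μ t t' q u' th xi) ^ 2 ≤ QC ^ 2 * (h * Real.sqrt h) := by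
    refine (pow_le_pow_left₀ (esum_nonneg _) hC 2).trans ?_
    rw [mul_pow, mul_comm, pow_two h]
    refine mul_le_mul_of_nonneg_left (mul_le_mul_of_nonneg_left ?_ hh.le) (sq_nonneg _)
    nlinarith [Real.sqrt_le_one.2 hh1, Real.sqrt_nonneg h]
  have hC1 := (mul_le_mul hC hE1 (integral_nonneg fun p => esum_nonneg _) (by positivity)).trans
    (le_of_eq (by ring :
      h * QC * (cd ^ 2 * (3 * D) * ρ6 * Real.sqrt h)
        = QC * (cd ^ 2 * (3 * D) * ρ6) * (h * Real.sqrt h)))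
  have := mul_le_mul_of_nonneg_left (add_le_add (add_le_add hE3 hsq) hC1) hKA0
  linarith

omit [IsProbabilityMeasure μ] in
lemma Xj_cont (H : Reg μ t t' K) (hh : 0 ≤ h) {N : ℕ} (hNh : (N : ℝ) * h ≤ t) (xi : Rn n) (j : ℕ)
    (hj : j ≤ N) : Continuous fun w : Fin (j + 1) → Rn n => Xj μ t t' q β h xi j w := by
  have hmem : ∀ i : ℕ, i ≤ N → (i : ℝ) * h ∈ Set.Icc 0 t := fun i hi =>
    ⟨by positivity, le_trans (mul_le_mul_of_nonneg_right (by exact_mod_cast hi) hh) hNh⟩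
  refine continuous_matrix fun a c => ?_
  simp only [Xj, Matrix.sub_apply, Matrix.smul_apply, smul_eq_mul, Matrix.sum_apply, Qm,
    Matrix.mul_apply]
  have hev : ∀ i : Fin (j + 1), Continuous fun w : Fin (j + 1) → Rn n => w i := fun i =>
    continuous_apply i
  refine Continuous.sub (continuous_const.mul (Continuous.sub
      (Continuous.comp (g := fun th => Tm μ t t' q ((j : ℝ) * h) th xi a c)
        (f := fun w : Fin (j + 1) → Rn n => w (Fin.last j)) (H.tm_cont (hmem j hj) xi a c) (hev _))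
      continuous_const))
    (continuous_const.mul (continuous_finsetSum _ fun i _ => continuous_finsetSum _ fun k _ =>
      continuous_finsetSum _ fun e _ => ?_))
  have hi : ((i : ℕ) + 1 : ℝ) * h ∈ Set.Icc 0 t := by
    have := hmem ((i : ℕ) + 1) (lt_of_lt_of_le i.2 hj)
    rwa [Nat.cast_add, Nat.cast_one] at this
  exact (Continuous.comp (g := fun th => Tk μ t t' q (((i : ℕ) + 1 : ℝ) * h) th xi k a e)
      (f := fun w : Fin (j + 1) → Rn n => w i.castSucc) (H.tk_cont hi xi k a e) (hev _)).mul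
    (Continuous.comp (g := fun th => Tk μ t t' q (((i : ℕ) + 1 : ℝ) * h) th xi k e c)
      (f := fun w : Fin (j + 1) → Rn n => w i.castSucc) (H.tk_cont hi xi k e c) (hev _))

omit [IsProbabilityMeasure μ] in
lemma Xj_abs (H : Reg μ t t' K) (ht : 0 ≤ t) (hh : 0 ≤ h) {N : ℕ} (hNh : (N : ℝ) * h ≤ t)
    (xi : Rn n) (j : ℕ) (hj : j ≤ N) (w : Fin (j + 1) → Rn n) (a c : Fin q → Fin n) :
    |Xj μ t t' q β h xi j w a c| ≤ |β| * (2 * (q * K))
      + |β ^ 2 * h / 2| * (N * (n * ((Fintype.card (Fin q → Fin n) : ℝ) * (q * K) ^ 2))) := by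
  have hmem : ∀ i : ℕ, i ≤ N → (i : ℝ) * h ∈ Set.Icc 0 t := fun i hi =>
    ⟨by positivity, le_trans (mul_le_mul_of_nonneg_right (by exact_mod_cast hi) hh) hNh⟩
  simp only [Xj, Matrix.sub_apply, Matrix.smul_apply, smul_eq_mul, Matrix.sum_apply]
  refine (abs_sub _ _).trans (add_le_add ?_ ?_) <;> rw [abs_mul]
  · refine mul_le_mul_of_nonneg_left ((abs_sub _ _).trans ?_) (abs_nonneg _)
    linarith [H.tm_abs (hmem j hj) (w (Fin.last j)) xi a c, H.tm_abs ⟨le_rfl, ht⟩ 0 xi a c]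
  · refine mul_le_mul_of_nonneg_left ((Finset.abs_sum_le_sum_abs _ _).trans
      ((Finset.sum_le_sum fun i _ => H.qm_abs ?_ _ xi a c).trans ?_)) (abs_nonneg _)
    · have := hmem ((i : ℕ) + 1) (lt_of_lt_of_le i.2 hj)
      rwa [Nat.cast_add, Nat.cast_one] at this
    · simp only [Finset.sum_const, Finset.card_univ, Fintype.card_fin, nsmul_eq_mul]
      exact mul_le_mul_of_nonneg_right (by exact_mod_cast hj) (by positivity)

omit [IsProbabilityMeasure μ] in
lemma Xj_symm (H : Reg μ t t' K) (xi : Rn n) (j : ℕ) (w : Fin (j + 1) → Rn n) :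
    (Xj μ t t' q β h xi j w).IsSymm := by
  have hs := fun u th => Tm_symm (q := q) (μ := μ) H.symm u th xi
  refine IsSymm.sub (((hs _ _).1.sub (hs _ _).1).smul _) (IsSymm.smul ?_ _)
  unfold Matrix.IsSymm
  rw [transpose_sum]
  exact Finset.sum_congr rfl fun i _ => (Qm_symm (hs _ _).2).eq

omit [IsProbabilityMeasure μ] in
lemma measurable_snoc (j : ℕ) : Measurable fun r : (Fin (j + 1) → Rn n) × Rn n =>
    (Fin.snoc r.1 r.2 : Fin (j + 1 + 1) → Rn n) := by
  refine measurable_pi_lambda _ fun k => ?_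
  refine Fin.lastCases ?_ (fun i => ?_) k
  · simp only [Fin.snoc_last]; exact measurable_snd
  · simp only [Fin.snoc_castSucc]; fun_prop

/-- The supermartingale. -/
theorem expMart (hA : MatStep) (hSm : SecantMart) (hSr : SecantReg) (hμ : IsSLC 0 μ)
    (hb : BddSupp μ) {t t' : ℝ} (ht : 0 < t) (htt : t < t') (q : ℕ) (β : ℝ) :
    ∃ K : ℝ, 0 ≤ K ∧ ∀ (N : ℕ), 0 < N → t / N ≤ 1 → ∀ xi : Rn n,
      ∫ p, (NormedSpace.exp (Xj μ t t' q β (t / N) xi N (Chain.pre (t / N) p N))).trace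
          ∂Chain.law μ N
        ≤ ((n : ℝ) ^ q) * Real.exp (K * t * Real.sqrt (t / N)) := by
  obtain ⟨hcont, hsym, K, hK0, hK⟩ := hSr n μ inferInstance hμ hb t t' ht.le htt
  have H : Reg μ t t' K := ⟨hcont, hsym, hK0, hK⟩
  obtain ⟨K', hK'0, hK'⟩ := step_le hA hSm H hμ hb htt q β
  refine ⟨K', hK'0, fun N hN hN1 xi => ?_⟩
  set h := t / N with hh'
  have hNr : (0 : ℝ) < N := by exact_mod_cast hN
  have hh : 0 < h := div_pos ht hNr
  have hNh : (N : ℝ) * h = t := by rw [hh']; field_simp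
  obtain ⟨CB, hCB⟩ := trace_exp_bound (ι := Fin q → Fin n)
    (|β| * (2 * (q * K))
      + |β ^ 2 * h / 2| * (N * (n * ((Fintype.card (Fin q → Fin n) : ℝ) * (q * K) ^ 2))))
  have hWb : ∀ j, j ≤ N → ∀ w, |(NormedSpace.exp (Xj μ t t' q β h xi j w)).trace| ≤ CB :=
    fun j hj w => hCB _ (Xj_abs H ht.le hh.le hNh.le xi j hj w)
  have hWm : ∀ j, j ≤ N → Measurable fun w : Fin (j + 1) → Rn n =>
      (NormedSpace.exp (Xj μ t t' q β h xi j w)).trace :=
    fun j hj => (continuous_trace_exp.comp (Xj_cont H hh.le hNh.le xi j hj)).measurable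
  have hiter : ∀ j, j ≤ N →
      ∫ p, (NormedSpace.exp (Xj μ t t' q β h xi j (Chain.pre h p j))).trace ∂Chain.law μ N
        ≤ (n : ℝ) ^ q * Real.exp (K' * (h * Real.sqrt h) * j) := by
    intro j
    induction j with
    | zero =>
      intro _
      have e : ∀ p : Rn n × (Fin N → Rn n),
          (NormedSpace.exp (Xj μ t t' q β h xi 0 (Chain.pre h p 0))).trace = (n : ℝ) ^ q := fun p => by
        rw [Xj_zero _ _ _ _ _ _ (by simp [Chain.pre, Chain.pth_zero]), NormedSpace.exp_zero,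
          Matrix.trace_one]
        simp
      simp only [e, integral_const, probReal_univ, one_smul]
      simp
    | succ j ih =>
      intro hj
      have hj' : j < N := hj
      have epre : ∀ p : Rn n × (Fin N → Rn n),
          Chain.pre h p (j + 1) = Fin.snoc (Chain.pre h p j) (Chain.pth h p (j + 1)) := by
        intro p
        funext k
        refine Fin.lastCases ?_ (fun i => ?_) k
        · simp [Chain.pre]
        · simp [Chain.pre]
      simp only [epre]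
      rw [(Chain.markov hb hh j).2 hj'
        (fun w p => (NormedSpace.exp (Xj μ t t' q β h xi (j + 1) (Fin.snoc w p))).trace) CB
        ((hWm (j + 1) hj).comp (measurable_snoc j)) fun w p => hWb (j + 1) hj _]
      have hi1 : Integrable (fun p : Rn n × (Fin N → Rn n) =>
          (NormedSpace.exp (Xj μ t t' q β h xi j (Chain.pre h p j))).trace) (Chain.law μ N) :=
        Chain.integrable_of_bdd ((hWm j hj'.le).comp (Chain.measurable_pre j))
          fun p => hWb j hj'.le _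
      have hmem : (j : ℝ) * h ∈ Set.Icc 0 t := ⟨by positivity,
        hNh ▸ mul_le_mul_of_nonneg_right (by exact_mod_cast hj'.le) hh.le⟩
      have hmem' : ((j : ℝ) + 1) * h ∈ Set.Icc 0 t := ⟨by positivity, hNh ▸
        mul_le_mul_of_nonneg_right (by exact_mod_cast hj) hh.le⟩
      have hstep : ∀ w : Fin (j + 1) → Rn n,
          step μ ((j : ℝ) * h) h (w (Fin.last j))
              (fun p => (NormedSpace.exp (Xj μ t t' q β h xi (j + 1) (Fin.snoc w p))).trace)
            ≤ (NormedSpace.exp (Xj μ t t' q β h xi j w)).trace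
              * (1 + K' * (h * Real.sqrt h)) := by
        intro w
        have hm : Measurable fun p : Rn n =>
            (NormedSpace.exp (Xj μ t t' q β h xi (j + 1) (Fin.snoc w p))).trace :=
          (hWm (j + 1) hj).comp ((measurable_snoc j).comp
            ((measurable_const (a := w)).prodMk measurable_id))
        rw [step_eq_integral hb _ _ _ hm fun p => hWb (j + 1) hj _]
        simp only [Xj_succ]
        exact hK' _ _ h hmem hmem' hh hN1 (by ring) (w (Fin.last j)) xi _ (Xj_symm H xi j w)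
      calc _ ≤ ∫ p, (NormedSpace.exp (Xj μ t t' q β h xi j (Chain.pre h p j))).trace
            * (1 + K' * (h * Real.sqrt h)) ∂Chain.law μ N := by
            refine integral_mono (Chain.integrable_of_bdd ?_ fun p =>
              Chain.abs_step_le hb (fun x => hWb (j + 1) hj _) _ _ _) (hi1.mul_const _) fun p => ?_
            · exact Chain.measurable_step_param (Chain.measurable_pth j)
                (G := fun p x => (NormedSpace.exp (Xj μ t t' q β h xi (j + 1)
                  (Fin.snoc (Chain.pre h p j) x))).trace)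
                ((hWm (j + 1) hj).comp ((measurable_snoc j).comp
                  (((Chain.measurable_pre j).comp measurable_fst).prodMk measurable_snd))) _ _
            · exact hstep (Chain.pre h p j)
        _ ≤ (n : ℝ) ^ q * Real.exp (K' * (h * Real.sqrt h) * j)
              * (1 + K' * (h * Real.sqrt h)) := by
            rw [integral_mul_const]
            exact mul_le_mul_of_nonneg_right (ih hj'.le) (by positivity)
        _ ≤ (n : ℝ) ^ q * Real.exp (K' * (h * Real.sqrt h) * j)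
              * Real.exp (K' * (h * Real.sqrt h)) := by
            refine mul_le_mul_of_nonneg_left ?_ (by positivity)
            linarith [Real.add_one_le_exp (K' * (h * Real.sqrt h))]
        _ = _ := by
            rw [mul_assoc, ← Real.exp_add]
            push_cast
            ring_nf
  refine (hiter N le_rfl).trans (le_of_eq ?_)
  rw [← hNh]
  ring_nf

end MartExp

end Vale.Agent.P245.Poly
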