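import Vale.Agent.P245.Poly.Defs

/-!
# P245, module A: matrices

Golden–Thompson for real symmetric matrices, one step of the matrix exponential martingale,
and Kronecker sums tested against tensor powers.
-/

namespace Vale.Agent.P245.Poly.Mat

open MeasureTheory Matrix Filter
open scoped Matrix.Norms.Operator Topology

variable {ι : Type*} [Fintype ι]

/-! ### Sums of absolute values -/

theorem esum_nonneg (A : Matrix ι ι ℝ) : 0 ≤ esum A :=
  Finset.sum_nonneg fun _ _ => Finset.sum_nonneg fun _ _ => abs_nonneg _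

theorem abs_le_esum (A : Matrix ι ι ℝ) (i j : ι) : |A i j| ≤ esum A :=
  (Finset.single_le_sum (f := fun k => |A i k|) (fun _ _ => abs_nonneg _) (Finset.mem_univ j)).trans
    (Finset.single_le_sum (f := fun l => ∑ k, |A l k|)
      (fun _ _ => Finset.sum_nonneg fun _ _ => abs_nonneg _) (Finset.mem_univ i))

theorem esum_sub_le (A B : Matrix ι ι ℝ) : esum (A - B) ≤ esum A + esum B := by
  unfold esum
  rw [← Finset.sum_add_distrib]
  gcongr with i
  rw [← Finset.sum_add_distrib]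
  gcongr with j
  exact abs_sub _ _

theorem rowsum_le_norm (A : Matrix ι ι ℝ) (i : ι) : ∑ j, |A i j| ≤ ‖A‖ := by
  rw [Matrix.linfty_opNorm_def]
  have h := Finset.le_sup (f := fun i => ∑ j, ‖A i j‖₊) (Finset.mem_univ i)
  rw [← NNReal.coe_le_coe] at h
  simpa [Real.norm_eq_abs] using h

theorem abs_le_norm (A : Matrix ι ι ℝ) (i j : ι) : |A i j| ≤ ‖A‖ :=
  (Finset.single_le_sum (f := fun k => |A i k|) (fun _ _ => abs_nonneg _) (Finset.mem_univ j)).trans
    (rowsum_le_norm A i)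

theorem esum_le_card_mul_norm (A : Matrix ι ι ℝ) : esum A ≤ Fintype.card ι * ‖A‖ := by
  refine (Finset.sum_le_card_nsmul Finset.univ _ ‖A‖ fun i _ => rowsum_le_norm A i).trans ?_
  simp

theorem norm_le_esum (A : Matrix ι ι ℝ) : ‖A‖ ≤ esum A := by
  rw [Matrix.linfty_opNorm_def]
  have h : (Finset.univ.sup fun i => ∑ j, ‖A i j‖₊) ≤ ⟨esum A, esum_nonneg A⟩ := by
    refine Finset.sup_le fun i _ => NNReal.coe_le_coe.1 ?_
    simpa [Real.norm_eq_abs, esum, -NNReal.coe_le_coe] using!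
      Finset.single_le_sum (f := fun l => ∑ k, |A l k|)
        (fun _ _ => Finset.sum_nonneg fun _ _ => abs_nonneg _) (Finset.mem_univ i)
  exact_mod_cast h

theorem esum_mul_le (A B : Matrix ι ι ℝ) : esum (A * B) ≤ esum A * esum B := by
  unfold esum
  rw [Finset.sum_mul]
  gcongr with i
  calc ∑ j, |(A * B) i j| ≤ ∑ j, ∑ k, |A i k| * |B k j| := by
        gcongr with j
        rw [Matrix.mul_apply]
        refine (Finset.abs_sum_le_sum_abs _ _).trans (le_of_eq ?_)
        simp [abs_mul]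
    _ = ∑ k, |A i k| * ∑ j, |B k j| := by
        rw [Finset.sum_comm]
        simp [Finset.mul_sum]
    _ ≤ ∑ k, |A i k| * ∑ l, ∑ j, |B l j| := by
        refine Finset.sum_le_sum fun k _ => mul_le_mul_of_nonneg_left ?_ (abs_nonneg _)
        exact Finset.single_le_sum (f := fun l => ∑ j, |B l j|)
          (fun _ _ => Finset.sum_nonneg fun _ _ => abs_nonneg _) (Finset.mem_univ k)
    _ = (∑ k, |A i k|) * ∑ l, ∑ j, |B l j| := (Finset.sum_mul _ _ _).symm

theorem abs_quad_le (A : Matrix ι ι ℝ) (v : ι → ℝ) : |v ⬝ᵥ (A *ᵥ v)| ≤ esum A * (v ⬝ᵥ v) := by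
  have hs : ∀ i, v i ^ 2 ≤ v ⬝ᵥ v := fun i => by
    rw [pow_two]
    exact Finset.single_le_sum (f := fun k => v k * v k) (fun k _ => mul_self_nonneg _)
      (Finset.mem_univ i)
  simp only [dotProduct, Matrix.mulVec, Finset.mul_sum]
  refine (Finset.abs_sum_le_sum_abs _ _).trans ?_
  rw [← Finset.mul_sum, esum, Finset.sum_mul]
  gcongr with i
  refine (Finset.abs_sum_le_sum_abs _ _).trans ?_
  rw [Finset.sum_mul]
  gcongr with j
  rw [abs_mul, abs_mul, mul_left_comm]
  gcongr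
  have := hs i; have := hs j
  simp only [dotProduct] at *
  nlinarith [two_mul_le_add_sq |v i| |v j|, sq_abs (v i), sq_abs (v j)]

/-! ### Traces of products of symmetric matrices -/

theorem trace_mul_le (A B : Matrix ι ι ℝ) :
    2 * (A * B).trace ≤ (Aᵀ * A).trace + (B * Bᵀ).trace := by
  simp only [Matrix.trace, Matrix.diag, Matrix.mul_apply, Matrix.transpose_apply]
  rw [Finset.sum_comm (f := fun i j => A j i * A j i),
    Finset.sum_comm (f := fun i j => B i j * B i j), ← Finset.sum_add_distrib, Finset.mul_sum]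
  gcongr with i
  rw [Finset.mul_sum, ← Finset.sum_add_distrib]
  gcongr with j
  nlinarith [sq_nonneg (A i j - B j i)]

variable [DecidableEq ι]

theorem trace_pow_comm (U V : Matrix ι ι ℝ) (m : ℕ) : ((U * V) ^ m).trace = ((V * U) ^ m).trace := by
  cases m with
  | zero => simp
  | succ k =>
    have h : SemiconjBy V (U * V) (V * U) := by simp [SemiconjBy, mul_assoc]
    have h' := (h.pow_right k).eq
    rw [pow_succ', Matrix.mul_assoc U V, Matrix.trace_mul_comm, h', pow_succ, Matrix.mul_assoc]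

theorem trace_pow_two_pow (k : ℕ) :
    (∀ X : Matrix ι ι ℝ, |(X ^ (2 * 2 ^ k)).trace| ≤ ((Xᵀ * X) ^ 2 ^ k).trace) ∧
    (∀ P Q : Matrix ι ι ℝ, P.IsSymm → Q.IsSymm →
      ((P * Q) ^ 2 ^ k).trace ≤ (P ^ 2 ^ k * Q ^ 2 ^ k).trace) := by
  induction k with
  | zero =>
    refine ⟨fun X => ?_, fun P Q _ _ => by simp⟩
    have h1 := trace_mul_le X X
    have h2 := trace_mul_le (-X) X
    have hc := Matrix.trace_mul_comm X Xᵀ
    simp only [neg_mul, mul_neg, Matrix.transpose_neg, neg_neg, Matrix.trace_neg] at h2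
    simp only [pow_zero, mul_one, pow_one, pow_two, abs_le]
    constructor <;> linarith
  | succ k ih =>
    obtain ⟨ha, hc⟩ := ih
    refine ⟨fun X => ?_, fun P Q hP hQ => ?_⟩
    · have e : X ^ (2 * 2 ^ (k + 1)) = (X * X) ^ (2 * 2 ^ k) := by
        rw [← pow_two X, ← pow_mul]
        congr 1
        ring
      have e2 : (((X * X)ᵀ * (X * X)) ^ 2 ^ k).trace = ((Xᵀ * X * (X * Xᵀ)) ^ 2 ^ k).trace := by
        rw [Matrix.transpose_mul, Matrix.mul_assoc Xᵀ Xᵀ, trace_pow_comm]
        simp only [Matrix.mul_assoc]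
      have h1 : (Xᵀ * X).IsSymm := by simp [Matrix.IsSymm, Matrix.transpose_mul]
      have h2 : (X * Xᵀ).IsSymm := by simp [Matrix.IsSymm, Matrix.transpose_mul]
      have h3 := trace_mul_le ((Xᵀ * X) ^ 2 ^ k) ((X * Xᵀ) ^ 2 ^ k)
      rw [(h1.pow _).eq, (h2.pow _).eq, ← pow_add, ← pow_add, trace_pow_comm X Xᵀ] at h3
      have h4 := hc _ _ h1 h2
      have h5 := ha (X * X)
      rw [e]
      rw [e2] at h5
      rw [pow_succ, mul_two]
      linarith
    · have h1 := ha (P * Q)
      have e : ((P * Q)ᵀ * (P * Q)) = Q * (P * P * Q) := by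
        rw [Matrix.transpose_mul, hP.eq, hQ.eq]
        simp only [Matrix.mul_assoc]
      rw [e] at h1
      replace h1 := h1.trans_eq
        ((trace_pow_comm Q (P * P * Q) _).trans (by rw [Matrix.mul_assoc (P * P)]))
      have h2 := hc (P * P) (Q * Q) (by simp [Matrix.IsSymm, Matrix.transpose_mul, hP.eq])
        (by simp [Matrix.IsSymm, Matrix.transpose_mul, hQ.eq])
      rw [← pow_two P, ← pow_two Q, ← pow_mul, ← pow_mul] at h2
      rw [pow_succ']
      rw [← pow_two P, ← pow_two Q] at h1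
      exact ((le_abs_self _).trans h1).trans h2

/-! ### Exponential in a normed algebra -/

section Normed

variable {𝔸 : Type*} [NormedRing 𝔸] [NormedAlgebra ℝ 𝔸] [CompleteSpace 𝔸]

theorem norm_exp_le [NormOneClass 𝔸] (x : 𝔸) : ‖NormedSpace.exp x‖ ≤ Real.exp ‖x‖ := by
  have h := NormedSpace.exp_series_hasSum_exp' (𝕂 := ℝ) x
  have hr : HasSum (fun n : ℕ => ‖x‖ ^ n / n.factorial) (Real.exp ‖x‖) := by
    rw [Real.exp_eq_exp_ℝ]
    exact NormedSpace.expSeries_div_hasSum_exp (‖x‖)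
  refine h.norm_le_of_bounded hr fun n => ?_
  rw [norm_smul, Real.norm_eq_abs, abs_of_nonneg (by positivity), div_eq_inv_mul]
  exact mul_le_mul_of_nonneg_left (norm_pow_le x n) (by positivity)

theorem norm_exp_taylor_le (x : 𝔸) :
    ‖NormedSpace.exp x - (1 + x + (2 : ℝ)⁻¹ • x ^ 2)‖ ≤ ‖x‖ ^ 3 * Real.exp ‖x‖ := by
  have h := (hasSum_nat_add_iff' 3).2 (NormedSpace.exp_series_hasSum_exp' (𝕂 := ℝ) x)
  simp only [Finset.sum_range_succ, Finset.sum_range_zero, Nat.factorial] at h
  norm_num at h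
  simp only [one_div] at h
  have hr : HasSum (fun n : ℕ => ‖x‖ ^ 3 * (‖x‖ ^ n / n.factorial))
      (‖x‖ ^ 3 * Real.exp ‖x‖) := by
    rw [Real.exp_eq_exp_ℝ]
    exact (NormedSpace.expSeries_div_hasSum_exp (‖x‖)).mul_left _
  refine h.norm_le_of_bounded hr fun n => ?_
  rw [norm_smul, Real.norm_eq_abs, abs_of_nonneg (by positivity), div_eq_inv_mul, mul_left_comm,
    ← pow_add, add_comm 3 n]
  gcongr ?_ * ?_
  · have h1 : ∀ y : ℝ, 0 ≤ y → (y + 1)⁻¹ ≤ 1 := fun y hy => inv_le_one_of_one_le₀ (by linarith)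
    refine mul_le_of_le_one_right (by positivity) (h1 _ (by positivity)) |>.trans ?_
    refine mul_le_of_le_one_right (by positivity) (h1 _ (by positivity)) |>.trans ?_
    exact mul_le_of_le_one_right (by positivity) (h1 _ (by positivity))
  · exact norm_pow_le' x (Nat.succ_pos _)

omit [NormedAlgebra ℝ 𝔸] [CompleteSpace 𝔸] in
theorem norm_pow_sub_pow_le [NormOneClass 𝔸] (P S : 𝔸) (r : ℝ) (hP : ‖P‖ ≤ r) (hS : ‖S‖ ≤ r)
    (h1 : 1 ≤ r) (m : ℕ) : ‖P ^ m - S ^ m‖ ≤ m * r ^ m * ‖P - S‖ := by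
  have h0 : 0 ≤ r := zero_le_one.trans h1
  induction m with
  | zero => simp
  | succ m ih =>
    have e : P ^ (m + 1) - S ^ (m + 1) = P ^ m * (P - S) + (P ^ m - S ^ m) * S := by
      rw [pow_succ, pow_succ]; noncomm_ring
    rw [e]
    refine (norm_add_le _ _).trans ?_
    refine (add_le_add (norm_mul_le _ _) (norm_mul_le _ _)).trans ?_
    have hp : ‖P ^ m‖ ≤ r ^ m := (norm_pow_le P m).trans (by gcongr)
    calc ‖P ^ m‖ * ‖P - S‖ + ‖P ^ m - S ^ m‖ * ‖S‖
        ≤ r ^ m * ‖P - S‖ * r + (m * r ^ m * ‖P - S‖) * r := by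
          refine add_le_add ?_ ?_
          · refine (mul_le_mul_of_nonneg_right hp (norm_nonneg _)).trans ?_
            exact le_mul_of_one_le_right (by positivity) h1
          · gcongr
      _ = _ := by push_cast; ring

/-- The Lie product formula, along powers of two. -/
theorem tendsto_lie_product [NormedAlgebra ℚ 𝔸] [NormOneClass 𝔸] (a b : 𝔸) :
    Tendsto (fun k : ℕ => (NormedSpace.exp (((2 : ℝ) ^ k)⁻¹ • a) *
      NormedSpace.exp (((2 : ℝ) ^ k)⁻¹ • b)) ^ 2 ^ k) atTop (𝓝 (NormedSpace.exp (a + b))) := by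
  set g : ℝ → 𝔸 := fun x => NormedSpace.exp (x • a) * NormedSpace.exp (x • b) -
    NormedSpace.exp (x • (a + b)) with hg
  have hd : HasDerivAt g 0 0 := by
    have := ((hasDerivAt_exp_smul_const a (0 : ℝ)).mul (hasDerivAt_exp_smul_const b (0 : ℝ))).sub
      (hasDerivAt_exp_smul_const (a + b) (0 : ℝ))
    simpa [hg, Pi.mul_def, Pi.sub_def] using this
  have hg0 : g 0 = 0 := by simp [hg]
  have hs : Tendsto (fun k : ℕ => ((2 : ℝ) ^ k)⁻¹) atTop (𝓝[≠] 0) :=
    tendsto_nhdsWithin_iff.2 ⟨(tendsto_pow_atTop_atTop_of_one_lt one_lt_two).inv_tendsto_atTop,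
      Eventually.of_forall fun k => inv_ne_zero (pow_ne_zero _ two_ne_zero)⟩
  have hl : Tendsto (fun k : ℕ => (2 : ℝ) ^ k * ‖g ((2 : ℝ) ^ k)⁻¹‖) atTop (𝓝 0) := by
    have := ((hasDerivAt_iff_tendsto_slope.1 hd).comp hs).norm
    simpa [slope_def_module, hg0, norm_smul] using this
  rw [tendsto_iff_norm_sub_tendsto_zero]
  set R : ℝ := Real.exp (‖a‖ + ‖b‖) with hR
  refine squeeze_zero (fun _ => norm_nonneg _) (fun k => ?_) (by simpa using hl.const_mul R)
  set s : ℝ := ((2 : ℝ) ^ k)⁻¹ with hs'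
  have hsp : 0 < s := by positivity
  have h2 : ((2 ^ k : ℕ) : ℝ) * s = 1 := by simp [hs']
  have eS : NormedSpace.exp (a + b) = NormedSpace.exp (s • (a + b)) ^ 2 ^ k := by
    rw [← NormedSpace.exp_nsmul, ← Nat.cast_smul_eq_nsmul ℝ, smul_smul, h2, one_smul]
  rw [eS]
  refine (norm_pow_sub_pow_le _ _ (Real.exp (s * (‖a‖ + ‖b‖))) ?_ ?_
    (Real.one_le_exp (by positivity)) (2 ^ k)).trans (le_of_eq ?_)
  · refine (norm_mul_le _ _).trans ?_
    refine (mul_le_mul (norm_exp_le _) (norm_exp_le _) (norm_nonneg _) (by positivity)).trans ?_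
    rw [← Real.exp_add, norm_smul, norm_smul, Real.norm_of_nonneg hsp.le, mul_add]
  · refine (norm_exp_le _).trans (Real.exp_le_exp.2 ?_)
    rw [norm_smul, Real.norm_of_nonneg hsp.le]
    gcongr
    exact norm_add_le _ _
  · rw [← Real.exp_nat_mul, ← mul_assoc, h2, one_mul, ← hR]
    simp only [hg]
    push_cast
    ring

end Normed

/-! ### Golden–Thompson -/

omit [Fintype ι] [DecidableEq ι] in
theorem isSymm_smul {A : Matrix ι ι ℝ} (h : A.IsSymm) (s : ℝ) : (s • A).IsSymm := h.smul s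

set_option backward.isDefEq.respectTransparency false in
/-- The Golden–Thompson inequality for real symmetric matrices. -/
theorem golden_thompson (A B : Matrix ι ι ℝ) (hA : A.IsSymm) (hB : B.IsSymm) :
    (NormedSpace.exp (A + B)).trace ≤ (NormedSpace.exp A * NormedSpace.exp B).trace := by
  rcases isEmpty_or_nonempty ι with h | h
  · simp [Matrix.trace]
  have hc : Continuous fun M : Matrix ι ι ℝ => M.trace := continuous_id.matrix_trace
  refine le_of_tendsto ((hc.tendsto _).comp (tendsto_lie_product A B)) (Eventually.of_forall fun k => ?_)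
  have h2 : ((2 ^ k : ℕ) : ℝ) * ((2 : ℝ) ^ k)⁻¹ = 1 := by simp
  have e : ∀ M : Matrix ι ι ℝ,
      NormedSpace.exp (((2 : ℝ) ^ k)⁻¹ • M) ^ 2 ^ k = NormedSpace.exp M := fun M => by
    rw [← Matrix.exp_nsmul, ← Nat.cast_smul_eq_nsmul ℝ, smul_smul, h2, one_smul]
  simp only [Function.comp_apply]
  refine ((trace_pow_two_pow k).2 _ _ (isSymm_smul hA _).exp (isSymm_smul hB _).exp).trans ?_
  rw [e, e]

set_option backward.isDefEq.respectTransparency false in
theorem exp_eq_half_mul (A : Matrix ι ι ℝ) :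
    NormedSpace.exp A =
      NormedSpace.exp ((2 : ℝ)⁻¹ • A) * NormedSpace.exp ((2 : ℝ)⁻¹ • A) := by
  rw [← Matrix.exp_add_of_commute _ _ (Commute.refl _), ← add_smul]
  norm_num

theorem trace_exp_mul_le (A Z : Matrix ι ι ℝ) (hA : A.IsSymm) (lam : ℝ)
    (hZ : ∀ v : ι → ℝ, v ⬝ᵥ (Z *ᵥ v) ≤ lam * (v ⬝ᵥ v)) :
    (NormedSpace.exp A * Z).trace ≤ lam * (NormedSpace.exp A).trace := by
  have hE := (isSymm_smul hA (2 : ℝ)⁻¹).exp
  set E := NormedSpace.exp ((2 : ℝ)⁻¹ • A) with hEd
  have h1 : (NormedSpace.exp A * Z).trace = ∑ i, (fun j => E j i) ⬝ᵥ (Z *ᵥ fun j => E j i) := by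
    rw [exp_eq_half_mul, ← hEd, Matrix.mul_assoc, Matrix.trace_mul_comm E (E * Z)]
    simp only [Matrix.trace, Matrix.diag, Matrix.mul_apply, dotProduct, Matrix.mulVec,
      Finset.mul_sum, Finset.sum_mul]
    refine Finset.sum_congr rfl fun i _ => ?_
    rw [Finset.sum_comm]
    refine Finset.sum_congr rfl fun j _ => Finset.sum_congr rfl fun l _ => ?_
    rw [hE.apply i j]; ring
  have h2 : (NormedSpace.exp A).trace = ∑ i, (fun j => E j i) ⬝ᵥ fun j => E j i := by
    rw [exp_eq_half_mul, ← hEd]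
    simp only [Matrix.trace, Matrix.diag, Matrix.mul_apply, dotProduct]
    exact Finset.sum_congr rfl fun i _ => Finset.sum_congr rfl fun j _ => by rw [hE.apply i j]
  rw [h1, h2, Finset.mul_sum]
  exact Finset.sum_le_sum fun i _ => hZ _

omit [Fintype ι] [DecidableEq ι] in
theorem isHermitian_of_isSymm {A : Matrix ι ι ℝ} (h : A.IsSymm) : A.IsHermitian :=
  Matrix.IsHermitian.ext fun i j => by simpa using h.apply i j

theorem expLeTrace : ExpLeTrace := by
  intro κ _ _ A v hA hv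
  have hH := isHermitian_of_isSymm hA
  set U : Matrix κ κ ℝ := (hH.eigenvectorUnitary : Matrix κ κ ℝ) with hU
  set l : κ → ℝ := hH.eigenvalues with hl
  have hA' : A = U * Matrix.diagonal l * Uᵀ := by
    conv_lhs => rw [hH.spectral_theorem]
    simp [Unitary.conjStarAlgAut_apply, hU, hl, Matrix.star_eq_conjTranspose,
      Matrix.conjTranspose_eq_transpose_of_trivial]
  have h1 : U * Uᵀ = 1 := by
    simpa [hU, Matrix.star_eq_conjTranspose, Matrix.conjTranspose_eq_transpose_of_trivial] using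
      Unitary.coe_mul_star_self hH.eigenvectorUnitary
  have h2 : Uᵀ * U = 1 := mul_eq_one_comm.1 h1
  have hexp : NormedSpace.exp A = U * Matrix.diagonal (fun i => Real.exp (l i)) * Uᵀ := by
    have := Matrix.exp_units_conj (⟨U, Uᵀ, h1, h2⟩ : (Matrix κ κ ℝ)ˣ) (Matrix.diagonal l)
    rw [hA']
    simpa [Matrix.exp_diagonal, Pi.exp_def, Real.exp_eq_exp_ℝ] using this
  set w := Uᵀ *ᵥ v with hw
  have hsum : ∑ i, w i ^ 2 = 1 := by
    calc ∑ i, w i ^ 2 = w ⬝ᵥ w := by simp [dotProduct, pow_two]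
      _ = v ⬝ᵥ ((U * Uᵀ) *ᵥ v) := by
        rw [← Matrix.mulVec_mulVec, dotProduct_mulVec v U, ← Matrix.mulVec_transpose, hw]
      _ = 1 := by rw [h1, Matrix.one_mulVec, hv]
  have hq : v ⬝ᵥ (A *ᵥ v) = ∑ i, w i ^ 2 • l i := by
    rw [hA', ← Matrix.mulVec_mulVec, ← Matrix.mulVec_mulVec, dotProduct_mulVec v U,
      ← Matrix.mulVec_transpose, ← hw]
    simp only [dotProduct, Matrix.mulVec_diagonal, smul_eq_mul]
    exact Finset.sum_congr rfl fun i _ => by ring
  rw [hq]
  refine (convexOn_exp.map_sum_le (fun i _ => sq_nonneg _) hsum fun i _ => Set.mem_univ _).trans ?_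
  rw [hexp, Matrix.trace_mul_cycle, h2, Matrix.one_mul, Matrix.trace_diagonal]
  refine Finset.sum_le_sum fun i _ => ?_
  have : w i ^ 2 ≤ 1 :=
    hsum ▸ Finset.single_le_sum (f := fun i => w i ^ 2) (fun k _ => sq_nonneg _) (Finset.mem_univ i)
  exact mul_le_of_le_one_left (Real.exp_pos _).le this

/-! ### The martingale step -/

omit [DecidableEq ι] in
theorem integral_bilin {Ω : Type*} [MeasurableSpace Ω] {P : Measure Ω} (N : Ω → Matrix ι ι ℝ)
    (hN : ∀ i j, Integrable (fun w => N w i j) P) (u z : ι → ℝ) :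
    Integrable (fun w => u ⬝ᵥ (N w *ᵥ z)) P ∧
      ∫ w, u ⬝ᵥ (N w *ᵥ z) ∂P = u ⬝ᵥ ((Matrix.of fun i j => ∫ w, N w i j ∂P) *ᵥ z) := by
  simp only [dotProduct, Matrix.mulVec, Finset.mul_sum, Matrix.of_apply]
  have h : ∀ i j, Integrable (fun w => u i * (N w i j * z j)) P := fun i j =>
    ((hN i j).mul_const _).const_mul _
  refine ⟨integrable_finsetSum _ fun i _ => integrable_finsetSum _ fun j _ => h i j, ?_⟩
  rw [integral_finsetSum _ fun i _ => integrable_finsetSum _ fun j _ => h i j]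
  refine Finset.sum_congr rfl fun i _ => ?_
  rw [integral_finsetSum _ fun j _ => h i j]
  refine Finset.sum_congr rfl fun j _ => ?_
  rw [integral_const_mul, integral_mul_const]

omit [DecidableEq ι] in
theorem integrable_comp {Ω : Type*} [MeasurableSpace Ω] {P : Measure Ω} [IsFiniteMeasure P]
    {Y : Ω → Matrix ι ι ℝ} (hm : ∀ i j, Measurable fun w => Y w i j)
    {F : Matrix ι ι ℝ → ℝ} (hF : Continuous F) {C : ℝ} (hC : ∀ w, |F (Y w)| ≤ C) :
    Integrable (fun w => F (Y w)) P := by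
  have h1 : Measurable fun w => (fun i j => Y w i j : ι → ι → ℝ) :=
    measurable_pi_lambda _ fun i => measurable_pi_lambda _ fun j => hm i j
  have h2 : Continuous fun M : ι → ι → ℝ => F (Matrix.of M) := hF.comp continuous_id
  exact Integrable.of_bound (h2.measurable.comp h1).aestronglyMeasurable C
    (Eventually.of_forall hC)

set_option backward.isDefEq.respectTransparency false in
theorem quad_exp_le (D : Matrix ι ι ℝ) (v : ι → ℝ) :
    v ⬝ᵥ (NormedSpace.exp D *ᵥ v) ≤ v ⬝ᵥ v + v ⬝ᵥ (D *ᵥ v)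
      + 2⁻¹ * (v ⬝ᵥ ((D * D) *ᵥ v))
      + Fintype.card ι * (‖D‖ ^ 3 * Real.exp ‖D‖) * (v ⬝ᵥ v) := by
  set R := NormedSpace.exp D - (1 + D + (2 : ℝ)⁻¹ • D ^ 2) with hR
  have h : v ⬝ᵥ (R *ᵥ v) ≤ Fintype.card ι * (‖D‖ ^ 3 * Real.exp ‖D‖) * (v ⬝ᵥ v) := by
    refine (le_abs_self _).trans ((abs_quad_le R v).trans ?_)
    gcongr
    · exact Finset.sum_nonneg fun i _ => mul_self_nonneg _
    refine (esum_le_card_mul_norm R).trans ?_
    gcongr
    exact norm_exp_taylor_le D
  have e : NormedSpace.exp D = R + (1 + D + (2 : ℝ)⁻¹ • (D * D)) := by rw [hR, pow_two]; abel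
  rw [e]
  simp only [Matrix.add_mulVec, Matrix.one_mulVec, dotProduct_add, Matrix.smul_mulVec,
    dotProduct_smul, smul_eq_mul]
  linarith

set_option backward.isDefEq.respectTransparency false in
theorem matStep : MatStep := by
  intro κ _ _ b
  set β : ℝ := |b| with hβ
  set k : ℝ := Fintype.card κ * Real.exp (2 * β) with hk
  refine ⟨4 * k + 4 * k * β + 1, by positivity, ?_⟩
  intro Ω _ P _ A C Y c hA hC hY hm hCb hYb h0 hquad
  rcases isEmpty_or_nonempty κ with h | h
  · simp [Matrix.trace]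
  have hb' : b ≤ β := le_abs_self b
  have hDn : ∀ w, ‖Y w - C‖ ≤ esum (Y w) + esum C := fun w =>
    (norm_le_esum _).trans (esum_sub_le _ _)
  have hD2 : ∀ w, ‖Y w - C‖ ≤ 2 * β := fun w => by
    linarith [hDn w, hYb w, hCb]
  have hexp : Continuous (NormedSpace.exp : Matrix κ κ ℝ → Matrix κ κ ℝ) :=
    NormedSpace.exp_continuous
  have hEY : ∀ i j, Integrable (fun w => Y w i j) P := fun i j =>
    integrable_comp hm (continuous_id.matrix_elem i j) fun w =>
      (abs_le_esum _ i j).trans (hYb w)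
  have hYY : ∀ i j, Integrable (fun w => (Y w * Y w) i j) P := fun i j =>
    integrable_comp hm ((continuous_id.matrix_mul continuous_id).matrix_elem i j)
      (C := β * β) fun w => (abs_le_esum _ i j).trans <| (esum_mul_le _ _).trans <|
        mul_le_mul ((hYb w).trans hb') ((hYb w).trans hb') (esum_nonneg _) (abs_nonneg _)
  have hZi : ∀ i j, Integrable (fun w => NormedSpace.exp (Y w - C) i j) P := fun i j =>
    integrable_comp hm (F := fun M => NormedSpace.exp (M - C) i j)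
      ((hexp.comp (continuous_id.sub continuous_const)).matrix_elem i j)
      fun w => (abs_le_norm _ i j).trans <| (norm_exp_le _).trans (Real.exp_le_exp.2 (hD2 w))
  have hy : ∀ p : ℕ, Integrable (fun w => esum (Y w) ^ p) P := fun p =>
    integrable_comp hm (F := fun M => esum M ^ p)
      ((continuous_finsetSum _ fun i _ => continuous_finsetSum _ fun j _ =>
        (continuous_id.matrix_elem i j).abs).pow p)
      (C := β ^ p) fun w => by
        rw [abs_of_nonneg (pow_nonneg (esum_nonneg _) p)]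
        exact pow_le_pow_left₀ (esum_nonneg _) ((hYb w).trans hb') p
  set Z : Matrix κ κ ℝ := Matrix.of fun i j => ∫ w, NormedSpace.exp (Y w - C) i j ∂P with hZ
  set z : ℝ := esum C with hzd
  set S : ℝ := ∫ w, esum (Y w) ^ 3 ∂P with hS
  set lam : ℝ := 1 + c + 2⁻¹ * z ^ 2 + k * (4 * S + 4 * β * z ^ 2) with hlam
  have hZle : ∀ v : κ → ℝ, v ⬝ᵥ (Z *ᵥ v) ≤ lam * (v ⬝ᵥ v) := by
    intro v
    have hv : 0 ≤ v ⬝ᵥ v := Finset.sum_nonneg fun i _ => mul_self_nonneg _
    set q : ℝ := v ⬝ᵥ v with hq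
    have hpt : ∀ w, v ⬝ᵥ (NormedSpace.exp (Y w - C) *ᵥ v) ≤
        (q - v ⬝ᵥ (C *ᵥ v) + 2⁻¹ * (v ⬝ᵥ ((C * C) *ᵥ v)) + k * (4 * β * z ^ 2) * q)
        + (v ⬝ᵥ (Y w *ᵥ v) + 2⁻¹ * (v ⬝ᵥ ((Y w * Y w) *ᵥ v))
          + (-(2⁻¹ : ℝ) * (v ⬝ᵥ (Y w *ᵥ (C *ᵥ v))) + -(2⁻¹ : ℝ) * ((v ᵥ* C) ⬝ᵥ (Y w *ᵥ v))
            + k * 4 * q * esum (Y w) ^ 3)) := by
      intro w
      refine (quad_exp_le _ v).trans ?_
      have e1 : v ⬝ᵥ ((Y w - C) *ᵥ v) = v ⬝ᵥ (Y w *ᵥ v) - v ⬝ᵥ (C *ᵥ v) := by
        rw [Matrix.sub_mulVec, dotProduct_sub]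
      have e2 : v ⬝ᵥ (((Y w - C) * (Y w - C)) *ᵥ v) = v ⬝ᵥ ((Y w * Y w) *ᵥ v)
          - v ⬝ᵥ (Y w *ᵥ (C *ᵥ v)) - (v ᵥ* C) ⬝ᵥ (Y w *ᵥ v) + v ⬝ᵥ ((C * C) *ᵥ v) := by
        simp only [sub_mul, mul_sub, Matrix.sub_mulVec, dotProduct_sub, ← dotProduct_mulVec,
          Matrix.mulVec_mulVec]
        ring
      have e3 : Fintype.card κ * (‖Y w - C‖ ^ 3 * Real.exp ‖Y w - C‖)
          ≤ k * (4 * esum (Y w) ^ 3 + 4 * β * z ^ 2) := by
        have hy0 := esum_nonneg (Y w)
        have hz0 : 0 ≤ z := esum_nonneg C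
        have h3 : ‖Y w - C‖ ^ 3 ≤ 4 * esum (Y w) ^ 3 + 4 * β * z ^ 2 := by
          refine (pow_le_pow_left₀ (norm_nonneg _) (hDn w) 3).trans ?_
          nlinarith [mul_nonneg (add_nonneg hy0 hz0) (sq_nonneg (esum (Y w) - z)),
            mul_le_mul_of_nonneg_left (hCb.trans hb') (sq_nonneg z)]
        rw [hk, mul_assoc (Fintype.card κ : ℝ), mul_comm (Real.exp (2 * β))]
        gcongr
        exact hD2 w
      rw [e1, e2]
      have := mul_le_mul_of_nonneg_right e3 hv
      linarith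
    have i1 := integral_bilin Y hEY v v
    have i2 := integral_bilin (fun w => Y w * Y w) hYY v v
    have i3 := integral_bilin Y hEY v (C *ᵥ v)
    have i4 := integral_bilin Y hEY (v ᵥ* C) v
    have hmean : (Matrix.of fun i j => ∫ w, Y w i j ∂P) = (0 : Matrix κ κ ℝ) := by
      ext i j; simp [h0]
    simp only [hmean, Matrix.zero_mulVec, dotProduct_zero] at i1 i3 i4
    have j1 := i1.1.fun_add (i2.1.const_mul 2⁻¹)
    have j2 := (i3.1.const_mul (-(2⁻¹ : ℝ))).fun_add (i4.1.const_mul (-(2⁻¹ : ℝ)))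
    have j3 := (hy 3).const_mul (k * 4 * q)
    have iz := integral_bilin (fun w => NormedSpace.exp (Y w - C)) hZi v v
    rw [hZ, ← iz.2]
    refine (integral_mono iz.1 ((integrable_const _).fun_add (j1.fun_add (j2.fun_add j3))) hpt).trans
      ?_
    rw [integral_add (integrable_const _) (j1.fun_add (j2.fun_add j3)),
      integral_add j1 (j2.fun_add j3), integral_add j2 j3,
      integral_add i1.1 (i2.1.const_mul _), integral_add (i3.1.const_mul _) (i4.1.const_mul _),
      integral_const_mul, integral_const_mul, integral_const_mul, integral_const_mul,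
      i1.2, i2.2, i3.2, i4.2]
    have hh := hquad v
    rw [Matrix.sub_mulVec, dotProduct_sub, Matrix.smul_mulVec, dotProduct_smul, smul_eq_mul] at hh
    have hCC := ((le_abs_self _).trans (abs_quad_le (C * C) v)).trans
      (mul_le_mul_of_nonneg_right (esum_mul_le C C) hv)
    simp only [integral_const, probReal_univ, one_smul, ← hq, ← hzd, ← hS] at hh hCC ⊢
    rw [hlam]
    nlinarith
  have hTr : ∀ w, (NormedSpace.exp (A + Y w - C)).trace
      ≤ (NormedSpace.exp A * NormedSpace.exp (Y w - C)).trace := fun w => by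
    rw [add_sub_assoc]
    exact golden_thompson A _ hA ((hY w).sub hC)
  have hlhs : Integrable (fun w => (NormedSpace.exp (A + Y w - C)).trace) P :=
    integrable_comp hm (F := fun M => (NormedSpace.exp (A + M - C)).trace)
      (hexp.comp ((continuous_const.add continuous_id).sub continuous_const)).matrix_trace
      (C := Fintype.card κ * Real.exp (‖A‖ + 2 * β)) fun w => by
        refine (Finset.abs_sum_le_sum_abs _ _).trans ?_
        refine (Finset.sum_le_card_nsmul _ _ (Real.exp (‖A‖ + 2 * β)) fun i _ => ?_).trans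
          (by simp)
        refine (abs_le_norm _ i i).trans ((norm_exp_le _).trans (Real.exp_le_exp.2 ?_))
        rw [add_sub_assoc]
        exact (norm_add_le _ _).trans (by linarith [hD2 w])
  have hrhs : ∀ i : κ, Integrable
      (fun w => ∑ l, NormedSpace.exp A i l * NormedSpace.exp (Y w - C) l i) P := fun i =>
    integrable_finsetSum _ fun l _ => (hZi l i).const_mul _
  refine (integral_mono hlhs (g := fun w =>
    ∑ i, ∑ l, NormedSpace.exp A i l * NormedSpace.exp (Y w - C) l i)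
      (integrable_finsetSum _ fun i _ => hrhs i) (fun w => (hTr w).trans_eq (by
        simp [Matrix.trace, Matrix.mul_apply]))).trans ?_
  have : ∫ w, ∑ i, ∑ l, NormedSpace.exp A i l * NormedSpace.exp (Y w - C) l i ∂P
      = (NormedSpace.exp A * Z).trace := by
    rw [integral_finsetSum _ fun i _ => hrhs i]
    simp only [Matrix.trace, Matrix.diag, Matrix.mul_apply, hZ, Matrix.of_apply]
    refine Finset.sum_congr rfl fun i _ => ?_
    rw [integral_finsetSum _ fun l _ => (hZi l i).const_mul _]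
    exact Finset.sum_congr rfl fun l _ => integral_const_mul _ _
  rw [this]
  refine (trace_exp_mul_le A Z hA lam hZle).trans ?_
  rw [mul_comm]
  have htr : 0 ≤ (NormedSpace.exp A).trace := by
    have := trace_exp_mul_le A (-1) hA 0 (fun v => by
      simpa [Matrix.neg_mulVec, dotProduct] using Finset.sum_nonneg fun i _ => mul_self_nonneg (v i))
    simpa using this
  refine mul_le_mul_of_nonneg_left ?_ htr
  have hS0 : 0 ≤ S := integral_nonneg fun w => pow_nonneg (esum_nonneg _) 3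
  have hW0 : 0 ≤ z * ∫ w, esum (Y w) ∂P :=
    mul_nonneg (esum_nonneg _) (integral_nonneg fun w => esum_nonneg _)
  have hk0 : 0 ≤ k := by positivity
  have hb0 : 0 ≤ β := abs_nonneg b
  rw [hlam]
  nlinarith [mul_nonneg hk0 hS0, mul_nonneg (mul_nonneg hk0 hb0) hS0,
    mul_nonneg hk0 (sq_nonneg z), mul_nonneg hk0 hW0, mul_nonneg (mul_nonneg hk0 hb0) hW0,
    sq_nonneg z]

/-! ### Kronecker sums -/

variable {n q : ℕ}

theorem kron_isSymm (M : Matrix (Fin n) (Fin n) ℝ) (hM : M.IsSymm) : (kron q M).IsSymm := by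
  refine Matrix.IsSymm.ext fun a b => ?_
  unfold kron
  simp only [hM.apply, eq_comm]

theorem tens_dot (f g : Fin q → Fin n → ℝ) :
    ∑ a : Fin q → Fin n, (∏ l, f l (a l)) * ∏ l, g l (a l) = ∏ l, f l ⬝ᵥ g l := by
  simp only [dotProduct, Fintype.prod_sum, Finset.prod_mul_distrib]

theorem kron_mulVec_tens (M : Matrix (Fin n) (Fin n) ℝ) (v : Fin n → ℝ) (a : Fin q → Fin n) :
    (kron q M *ᵥ tens q v) a = ∑ i, ∏ l, (if l = i then M *ᵥ v else v) (a l) := by
  unfold kron tens
  simp only [Matrix.mulVec, dotProduct, Finset.sum_mul]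
  rw [Finset.sum_comm]
  refine Finset.sum_congr rfl fun i _ => ?_
  have hf : ∀ l, (if l = i then fun x => ∑ y, M x y * v y else v) (a l) =
      ∑ y, (if l = i then M (a l) y else if a l = y then 1 else 0) * v y := by
    intro l
    split_ifs <;> simp
  refine Eq.trans ?_ (Finset.prod_congr rfl fun l _ => (hf l).symm)
  rw [Fintype.prod_sum]
  refine Finset.sum_congr rfl fun b _ => ?_
  rw [Finset.prod_mul_distrib, ← Finset.mul_prod_erase Finset.univ (fun l => if l = i then
    M (a l) (b l) else if a l = b l then 1 else 0) (Finset.mem_univ i), if_pos rfl]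
  congr 2
  exact Finset.prod_congr rfl fun l hl => (if_neg (Finset.ne_of_mem_erase hl)).symm

theorem kronQuad : KronQuad := by
  intro n q M v hM hv
  have hψ : ∀ a, tens q v a = ∏ l, v (a l) := fun a => rfl
  refine ⟨kron_isSymm M hM, ?_, ?_, ?_⟩
  · simp only [dotProduct, hψ]
    rw [tens_dot (fun _ => v) (fun _ => v)]
    simp [hv]
  · simp only [dotProduct, hψ, kron_mulVec_tens, Finset.mul_sum]
    rw [Finset.sum_comm]
    have : ∀ i : Fin q,
        ∑ a : Fin q → Fin n, (∏ l, v (a l)) * ∏ l, (if l = i then M *ᵥ v else v) (a l)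
          = v ⬝ᵥ (M *ᵥ v) := by
      intro i
      rw [tens_dot (fun _ => v) (fun l => if l = i then M *ᵥ v else v)]
      rw [← Finset.mul_prod_erase Finset.univ _ (Finset.mem_univ i), if_pos rfl,
        Finset.prod_eq_one fun l hl => by rw [if_neg (Finset.ne_of_mem_erase hl), hv], mul_one]
    rw [Finset.sum_congr rfl fun i _ => this i]
    simp [dotProduct, Finset.mul_sum]
  · set a₁ := (M *ᵥ v) ⬝ᵥ (M *ᵥ v) with ha₁
    set a₂ := v ⬝ᵥ (M *ᵥ v) with ha₂
    have ha₁0 : 0 ≤ a₁ := Finset.sum_nonneg fun i _ => mul_self_nonneg _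
    rw [← Matrix.mulVec_mulVec, dotProduct_mulVec, ← Matrix.mulVec_transpose,
      (kron_isSymm M hM).eq]
    simp only [dotProduct, kron_mulVec_tens, Finset.sum_mul, Finset.mul_sum]
    rw [Finset.sum_comm]
    calc _ ≤ ∑ i : Fin q, (a₁ + q * a₂ ^ 2) := ?_
      _ = _ := by simp; ring
    refine Finset.sum_le_sum fun i _ => ?_
    rw [Finset.sum_comm]
    have hij : ∀ j : Fin q, ∑ a : Fin q → Fin n, (∏ l, (if l = i then M *ᵥ v else v) (a l)) *
        ∏ l, (if l = j then M *ᵥ v else v) (a l) = if j = i then a₁ else a₂ ^ 2 := by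
      intro j
      rw [tens_dot (fun l => if l = i then M *ᵥ v else v) (fun l => if l = j then M *ᵥ v else v)]
      split_ifs with h
      · subst h
        rw [← Finset.mul_prod_erase Finset.univ _ (Finset.mem_univ j), if_pos rfl,
          Finset.prod_eq_one fun l hl => by rw [if_neg (Finset.ne_of_mem_erase hl), hv], mul_one]
      · rw [← Finset.mul_prod_erase Finset.univ _ (Finset.mem_univ i),
          ← Finset.mul_prod_erase (Finset.univ.erase i) _
            (Finset.mem_erase.2 ⟨h, Finset.mem_univ j⟩),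
          Finset.prod_eq_one fun l hl => by
            rw [if_neg (Finset.ne_of_mem_erase (Finset.mem_of_mem_erase hl)),
              if_neg (Finset.ne_of_mem_erase hl), hv]]
        rw [if_pos rfl, if_pos rfl, if_neg (Ne.symm h), if_neg h, dotProduct_comm (M *ᵥ v) v,
          mul_one, pow_two]
    rw [Finset.sum_congr rfl fun j _ =>
      (Finset.sum_congr rfl fun a _ => mul_comm _ _).trans (hij j)]
    calc _ ≤ ∑ j : Fin q, ((if j = i then a₁ else 0) + a₂ ^ 2) := by
          gcongr with j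
          split_ifs <;> nlinarith [sq_nonneg a₂]
      _ = _ := by simp [Finset.sum_add_distrib]

end Vale.Agent.P245.Poly.Mat
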