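import Vale.Agent.P245.Poly.SecantAvg

/-!
# P245, polylog module C: the secant martingale
-/

namespace Vale.Agent.P245.Poly

open MeasureTheory ProbabilityTheory Filter Topology
open scoped RealInnerProductSpace
open M2 (Good)

variable {n : ℕ} {μ : Measure (Rn n)} [IsProbabilityMeasure μ]

/-- A tilted expectation of an averaged smoothing. -/
noncomputable def sec (μ : Measure (Rn n)) (s a u : ℝ) (H : Rn n → ℝ) (th xi : Rn n) : ℝ :=
  ex μ u th fun x => avg s a H (th + a • x) xi

/-- Its derivative in the tilt. -/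
noncomputable def dsecF (μ : Measure (Rn n)) (s a u : ℝ) (H : Rn n → ℝ) (k : Fin n)
    (th xi : Rn n) : ℝ :=
  sec μ s a u (D1 k H) th xi + cv μ u th (fun x => avg s a H (th + a • x) xi) fun x => x k

section Regular

variable {s a u K R : ℝ} {H : Rn n → ℝ}

omit [IsProbabilityMeasure μ] in
lemma good_avg (hb : BddSupp μ) (hc : Continuous H) (hK : ∀ y, |H y| ≤ K) (th xi : Rn n) :
    Good μ fun x => avg s a H (th + a • x) xi :=
  Good.of_continuous hb ((continuous_avg hc hK).comp (f := fun x => (th + a • x, xi))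
    (by fun_prop))

lemma secant_eq (hb : BddSupp μ) (t t' u : ℝ) (th xi : Rn n) (j l : Fin n) :
    secant μ t t' u th xi j l = sec μ ((t' - t) / 2) (t' - u) u (hess μ t' j l) th xi := by
  obtain ⟨M, hM⟩ := (cb_hess hb t' j l 0).bound
  have hc := (cb_hess hb t' j l 0).cont
  unfold secant sec avg
  simp only [intervalIntegral.integral_of_le zero_le_one, ← M2.ex_const_mul]
  refine (ex_integral_swap hb (volume.restrict (Set.Ioc (0 : ℝ) 1)) u th (M := M) ?_ ?_).symm
  · exact ((continuous_avg_integrand hc hM).comp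
      (f := fun q : Rn n × ℝ => ((th + (t' - u) • q.1, xi), q.2))
      (by fun_prop)).aestronglyMeasurable
  · refine (ae_restrict_mem measurableSet_Ioc).mono fun r hr x => ?_
    exact abs_phi_mul_le (by rwa [Set.uIoc_of_le zero_le_one]) (abs_smo_le hM _ _)

lemma continuous_avg_param (hc : Continuous H) (hK : ∀ y, |H y| ≤ K) :
    Continuous (Function.uncurry fun (p : Rn n × Rn n) (x : Rn n) =>
      avg s a H (p.1 + a • x) p.2) :=
  (continuous_avg hc hK).comp (f := fun q : (Rn n × Rn n) × Rn n => (q.1.1 + a • q.2, q.1.2))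
    (by fun_prop)

lemma continuous_sec (hb : BddSupp μ) (hc : Continuous H) (hK : ∀ y, |H y| ≤ K) :
    Continuous fun p : Rn n × Rn n => sec μ s a u H p.1 p.2 :=
  continuous_ex_param hb u continuous_fst
    (F := fun (p : Rn n × Rn n) x => avg s a H (p.1 + a • x) p.2)
    (continuous_avg_param hc hK) fun _ => ae_of_all _ fun _ => abs_avg_le hK _ _

lemma abs_sec_le (hb : BddSupp μ) (hc : Continuous H) (hK : ∀ y, |H y| ≤ K) (th xi : Rn n) :
    |sec μ s a u H th xi| ≤ K :=
  abs_ex_le hb (good_avg hb hc hK th xi) (ae_of_all _ fun _ => abs_avg_le hK _ _) u th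

omit [IsProbabilityMeasure μ] in
lemma ae_coord_le (hR : ∀ᵐ x ∂μ, ‖x‖ ≤ R) (k : Fin n) : ∀ᵐ x ∂μ, |x k| ≤ R :=
  hR.mono fun x hx => (PiLp.norm_apply_le x k).trans hx

lemma continuous_dsecF (hb : BddSupp μ) (hR : ∀ᵐ x ∂μ, ‖x‖ ≤ R) (h : B2 H K) (k : Fin n) :
    Continuous fun p : Rn n × Rn n => dsecF μ s a u H k p.1 p.2 := by
  refine (continuous_sec hb (h.cont1 k) (h.bd1 k)).add ?_
  unfold cv
  refine Continuous.sub ?_ ((continuous_sec hb h.cont h.bd).mul ?_)
  · exact continuous_ex_param hb u continuous_fst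
      (F := fun (p : Rn n × Rn n) x => avg s a H (p.1 + a • x) p.2 * x k)
      ((continuous_avg_param h.cont h.bd).mul ((PiLp.continuous_apply 2 _ k).comp continuous_snd))
      (M := K * R) fun _ => (ae_coord_le hR k).mono fun x hx => by
        rw [abs_mul]; exact mul_le_mul (abs_avg_le h.bd _ _) hx (abs_nonneg _) h.nonneg
  · exact continuous_ex_param hb u continuous_fst (F := fun (_ : Rn n × Rn n) (x : Rn n) => x k)
      ((PiLp.continuous_apply 2 _ k).comp continuous_snd) fun _ => ae_coord_le hR k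

lemma abs_dsecF_le (hb : BddSupp μ) (hR : ∀ᵐ x ∂μ, ‖x‖ ≤ R) (h : B2 H K) (k : Fin n)
    (th xi : Rn n) : |dsecF μ s a u H k th xi| ≤ K + 2 * (K * R) :=
  (abs_add_le _ _).trans (add_le_add (abs_sec_le hb (h.cont1 k) (h.bd1 k) th xi)
    (abs_cv_le hb (good_avg hb h.cont h.bd th xi) (Good.coord hb k) h.nonneg
      (ae_of_all _ fun _ => abs_avg_le h.bd _ _) (ae_coord_le hR k) u th))

lemma sec_taylor (hb : BddSupp μ) (hR0 : 0 ≤ R) (hR : ∀ᵐ x ∂μ, ‖x‖ ≤ R) (h : B2 H K)
    (th η xi : Rn n) :
    |sec μ s a u H (th + η) xi - sec μ s a u H th xi - ∑ k, η k * dsecF μ s a u H k th xi|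
      ≤ K * (8 * R ^ 2 + 2 * R * n + 1) * ‖η‖ ^ 2 := by
  have hK0 := h.nonneg
  set f : Rn n → ℝ := fun x => avg s a H (th + a • x) xi with hfdef
  set g : Fin n → Rn n → ℝ := fun k x => avg s a (D1 k H) (th + a • x) xi with hgdef
  set f' : Rn n → ℝ := fun x => avg s a H (th + η + a • x) xi with hf'def
  set gs : Rn n → ℝ := fun x => ∑ k, η k * g k x with hgsdef
  have gf : Good μ f := good_avg hb h.cont h.bd th xi
  have gg : ∀ k, Good μ (g k) := fun k => good_avg hb (h.cont1 k) (h.bd1 k) th xi
  have gf' : Good μ f' := good_avg hb h.cont h.bd (th + η) xi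
  have ggs : Good μ gs := good_sum _ fun k => good_smul (gg k) _
  set e : Rn n → ℝ := fun x => f' x - f x - gs x with hedef
  have ge : Good μ e := good_sub (good_sub gf' gf) ggs
  have he : ∀ x, |e x| ≤ K * ‖η‖ ^ 2 := fun x => by
    simp only [hedef, hf'def, hfdef, hgsdef, hgdef, add_right_comm th η]
    exact avg_taylor h _ η xi
  have hgs : ∀ x, |gs x| ≤ n * K * ‖η‖ := fun x =>
    abs_sum_coord_le η fun k => abs_avg_le (h.bd1 k) _ _
  have t1 := ex_taylor hb hR0 hR gf hK0 (ae_of_all _ fun x => abs_avg_le h.bd _ _) u th η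
  have t2 := ex_lipschitz hb hR ggs (M := n * K * ‖η‖) (by positivity) (ae_of_all _ hgs) u th η
  have t3 := abs_ex_le hb ge (ae_of_all _ he) u (th + η)
  have e1 : sec μ s a u H (th + η) xi
      = ex μ u (th + η) f + ex μ u (th + η) gs + ex μ u (th + η) e := by
    show ex μ u (th + η) f' = _
    rw [← M2.ex_add hb gf ggs, ← M2.ex_add hb (good_add gf ggs) ge]
    exact congrArg (ex μ u (th + η)) (funext fun x => by simp only [hedef]; ring)
  have e2 : ∑ k, η k * dsecF μ s a u H k th xi
      = ex μ u th gs + cv μ u th f fun x => ⟪η, x⟫ := by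
    simp only [dsecF, sec, mul_add, Finset.sum_add_distrib, inner_eq_sum, hgsdef]
    rw [cv_sum_right hb Finset.univ (fun k => η k) (f := fun k (x : Rn n) => x k)
        (fun k => Good.coord hb k) gf, M2.ex_sum hb _ fun k => good_smul (gg k) _]
    simp only [M2.ex_const_mul]
    rfl
  rw [e1, e2, show sec μ s a u H th xi = ex μ u th f from rfl]
  rw [abs_le] at t1 t2 t3 ⊢
  constructor <;> nlinarith [sq_nonneg ‖η‖]

lemma sec_lipschitz (hb : BddSupp μ) (hR0 : 0 ≤ R) (hR : ∀ᵐ x ∂μ, ‖x‖ ≤ R) (h : B2 H K)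
    (th xi : Rn n) (k : Fin n) :
    HasDerivAt (fun r : ℝ => sec μ s a u H (th + r • unit k) xi) (dsecF μ s a u H k th xi) 0 := by
  set C := K * (8 * R ^ 2 + 2 * R * n + 1)
  rw [hasDerivAt_iff_isLittleO]
  refine Asymptotics.IsBigO.trans_isLittleO (g := fun r : ℝ => r ^ 2) ?_
    (by simpa using Asymptotics.isLittleO_pow_id (𝕜 := ℝ) one_lt_two)
  refine Asymptotics.IsBigO.of_bound C (Eventually.of_forall fun r => ?_)
  have ht := sec_taylor (s := s) (a := a) (u := u) hb hR0 hR h th (r • unit k) xi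
  have hs : ∑ i, (r • unit k) i * dsecF μ s a u H i th xi = r * dsecF μ s a u H k th xi := by
    rw [Finset.sum_eq_single k]
    · simp [unit]
    · intro i _ hik; simp [unit, hik]
    · simp
  rw [hs] at ht
  simp only [zero_smul, add_zero, sub_zero, smul_eq_mul, Real.norm_eq_abs, abs_pow, sq_abs]
  refine ht.trans (le_of_eq ?_)
  simp [unit, norm_smul, C]

end Regular

/-! ### The martingale property -/

lemma sec_step (hb : BddSupp μ) {s a u h : ℝ} (hh : 0 ≤ h) (hs : 0 ≤ s) (ha : h + s ≤ a)
    {H : Rn n → ℝ} {K : ℝ} (hc : Continuous H) (hK : ∀ y, |H y| ≤ K) (th xi : Rn n) :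
    step μ u h th (fun q => sec μ s (a - h) (u + h) H q xi) = sec μ s a u H th xi := by
  unfold step sec
  rw [← ex_compose hb u h hh th (G := fun q x => avg s (a - h) H (q + (a - h) • x) xi)
    ((continuous_avg hc hK).comp (f := fun p : Rn n × Rn n => (p.1 + (a - h) • p.2, xi))
      (by fun_prop)) fun _ _ => abs_avg_le hK _ _]
  refine congrArg (ex μ u th) (funext fun x => ?_)
  have e : ∀ z : Rn n, th + h • x + Real.sqrt h • z + (a - h) • x
      = th + a • x + Real.sqrt h • z := fun z => by rw [sub_smul]; abel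
  simp only [e]
  unfold avg
  rw [intervalIntegral.integral_of_le zero_le_one]
  simp only [intervalIntegral.integral_of_le zero_le_one]
  rw [integral_integral_swap]
  · refine setIntegral_congr_fun measurableSet_Ioc fun r hr => ?_
    have hr2 : s * r ^ 2 ≤ s := mul_le_of_le_one_right hs (pow_le_one₀ hr.1.le hr.2)
    have e2 : ∀ z : Rn n, th + a • x + Real.sqrt h • z + (Real.sqrt s * r) • xi
        = th + a • x + (Real.sqrt s * r) • xi + Real.sqrt h • z := fun z => by abel
    simp only [integral_const_mul, e2]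
    rw [integral_smo_shift hc hK (by linarith), Real.sq_sqrt hh]
    congr 2
    ring
  · refine Integrable.of_bound ?_ K ?_
    · exact ((continuous_avg_integrand hc hK).comp
        (f := fun q : Rn n × ℝ => ((th + a • x + Real.sqrt h • q.1, xi), q.2))
        (by fun_prop)).aestronglyMeasurable
    · refine (Measure.quasiMeasurePreserving_snd.ae (ae_restrict_mem measurableSet_Ioc)).mono
        fun q hq => ?_
      exact abs_phi_mul_le (by rw [Set.uIoc_of_le zero_le_one]; exact hq) (abs_smo_le hK _ _)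

theorem secantMart : SecantMart := by
  intro n μ hμ hslc hb t t' u h hu hh hut htt th xi j l
  obtain ⟨M, hM⟩ := (cb_hess hb t' j l 0).bound
  simp only [secant_eq hb]
  rw [show t' - (u + h) = t' - u - h by ring]
  exact sec_step hb hh (by linarith) (by linarith) (cb_hess hb t' j l 0).cont hM th xi

omit [IsProbabilityMeasure μ] in
lemma dsec_eq_of {t t' u : ℝ} {th xi : Rn n} {j l k : Fin n} {D : ℝ}
    (h : HasDerivAt (fun r : ℝ => secant μ t t' u (th + r • unit k) xi j l) D 0) :
    dsec μ t t' u th xi j l k = D := h.deriv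

lemma gam_moments : (∀ k : Fin n, Integrable (fun z : Rn n => z k) (gam n) ∧
    ∫ z : Rn n, z k ∂gam n = 0) ∧ Integrable (fun z : Rn n => ‖z‖ ^ 2) (gam n) := by
  have h2 : MemLp (fun z : Rn n => z) 2 (gam n) := IsGaussian.memLp_two_id
  refine ⟨fun k => ⟨?_, ?_⟩, h2.integrable_norm_pow (by norm_num)⟩
  · exact (EuclideanSpace.proj (𝕜 := ℝ) k).integrable_comp
      (h2.integrable (by norm_num))
  · exact integral_strongDual_stdGaussian (EuclideanSpace.proj (𝕜 := ℝ) k)

/-- A step of length `h` moves a function with quadratic Taylor bound by `O(h)`. -/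
lemma abs_step_sub_le (hb : BddSupp μ) {R C D K t h : ℝ} (hR : ∀ᵐ x ∂μ, ‖x‖ ≤ R) (hC : 0 ≤ C)
    (hD : 0 ≤ D) (hh : 0 ≤ h) (hht : h ≤ t) (w : ℝ) (th : Rn n) {F : Rn n → ℝ}
    {Dk : Fin n → ℝ} (hFc : Continuous F) (hFb : ∀ q, |F q| ≤ K) (hDb : ∀ k, |Dk k| ≤ D)
    (hT : ∀ η : Rn n, |F (th + η) - F th - ∑ k, η k * Dk k| ≤ C * ‖η‖ ^ 2) :
    |step μ w h th F - F th|
      ≤ (n * D * R + C * (2 * t * R ^ 2 + 2 * ∫ z : Rn n, ‖z‖ ^ 2 ∂gam n)) * h := by
  obtain ⟨hz, hz2⟩ := gam_moments (n := n)
  set Z := ∫ z : Rn n, ‖z‖ ^ 2 ∂gam n with hZ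
  set ψ : Rn n → ℝ := fun x => ∫ z, F (th + h • x + Real.sqrt h • z) ∂gam n with hψ
  have hψc : Continuous ψ := by
    refine continuous_of_dominated (bound := fun _ => K) (fun x => ?_) (fun x => ?_)
      (integrable_const _) (ae_of_all _ fun z => ?_)
    · exact (hFc.comp (by fun_prop)).aestronglyMeasurable
    · exact ae_of_all _ fun z => by simpa using hFb _
    · exact hFc.comp (by fun_prop)
  have gψ : Good μ ψ := Good.of_continuous hb hψc
  show |ex μ w th ψ - F th| ≤ _
  rw [← ex_const hb (F th) w th, ← ex_sub hb gψ (Good.const _)]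
  refine abs_ex_le hb (good_sub gψ (Good.const _)) ?_ w th
  filter_upwards [hR] with x hx
  have iF : Integrable (fun z => F (th + h • x + Real.sqrt h • z)) (gam n) :=
    integrable_gam_bdd (hFc.comp (by fun_prop)) fun z => hFb _
  have iL : ∀ k, Integrable (fun z : Rn n => (h * x k + Real.sqrt h * z k) * Dk k) (gam n) :=
    fun k => ((integrable_const (h * x k)).add ((hz k).1.const_mul _)).mul_const _
  have iS : Integrable (fun z : Rn n => ∑ k, (h * x k + Real.sqrt h * z k) * Dk k) (gam n) :=
    integrable_finsetSum _ fun k _ => iL k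
  have e0 : ∫ z : Rn n, ∑ k, (h * x k + Real.sqrt h * z k) * Dk k ∂gam n
      = ∑ k, (h • x) k * Dk k := by
    rw [integral_finsetSum _ fun k _ => iL k]
    refine Finset.sum_congr rfl fun k _ => ?_
    rw [integral_mul_const, integral_add (integrable_const _) ((hz k).1.const_mul _),
      integral_const, integral_const_mul, (hz k).2]
    simp
  have e1 : ψ x - F th - ∑ k, (h • x) k * Dk k = ∫ z, (F (th + h • x + Real.sqrt h • z)
      - F th - ∑ k, (h * x k + Real.sqrt h * z k) * Dk k) ∂gam n := by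
    have a := integral_sub (iF.sub (integrable_const (F th))) iS
    simp only [Pi.sub_apply] at a
    rw [a, integral_sub iF (integrable_const (F th)), e0]
    simp [hψ]
  have hd : ∀ z : Rn n, |F (th + h • x + Real.sqrt h • z) - F th
      - ∑ k, (h * x k + Real.sqrt h * z k) * Dk k|
        ≤ C * (2 * h ^ 2 * R ^ 2 + 2 * h * ‖z‖ ^ 2) := by
    intro z
    have h0 := hT (h • x + Real.sqrt h • z)
    simp only [← add_assoc, PiLp.add_apply, PiLp.smul_apply, smul_eq_mul] at h0
    refine h0.trans (mul_le_mul_of_nonneg_left ?_ hC)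
    have n1 := norm_add_le (h • x) (Real.sqrt h • z)
    rw [norm_smul, norm_smul, Real.norm_eq_abs, Real.norm_eq_abs, abs_of_nonneg hh,
      abs_of_nonneg (Real.sqrt_nonneg h)] at n1
    have n2 := pow_le_pow_left₀ (norm_nonneg _) n1 2
    have n3 : (h * ‖x‖) ^ 2 ≤ (h * R) ^ 2 :=
      pow_le_pow_left₀ (by positivity) (mul_le_mul_of_nonneg_left hx hh) 2
    have n5 : (Real.sqrt h * ‖z‖) ^ 2 = h * ‖z‖ ^ 2 := by
      rw [mul_pow, Real.sq_sqrt hh]
    linarith [sq_nonneg (h * ‖x‖ - Real.sqrt h * ‖z‖)]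
  have e2 : |ψ x - F th - ∑ k, (h • x) k * Dk k| ≤ C * (2 * h ^ 2 * R ^ 2 + 2 * h * Z) := by
    rw [e1]
    refine abs_integral_le_integral_abs.trans ?_
    refine (integral_mono_of_nonneg (g := fun z : Rn n =>
      C * (2 * h ^ 2 * R ^ 2 + 2 * h * ‖z‖ ^ 2)) (ae_of_all _ fun _ => abs_nonneg _)
      (((integrable_const (2 * h ^ 2 * R ^ 2)).add (hz2.const_mul (2 * h))).const_mul C) (ae_of_all _ hd)).trans (le_of_eq ?_)
    rw [integral_const_mul, integral_add (integrable_const _) (hz2.const_mul _),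
      integral_const, integral_const_mul, ← hZ]
    simp
  have e3 : |∑ k, (h • x) k * Dk k| ≤ n * D * (h * R) := by
    refine (abs_sum_coord_le (h • x) hDb).trans ?_
    rw [norm_smul, Real.norm_eq_abs, abs_of_nonneg hh]
    exact mul_le_mul_of_nonneg_left (mul_le_mul_of_nonneg_left hx hh) (by positivity)
  have e4 : 2 * h ^ 2 * R ^ 2 ≤ h * (2 * t * R ^ 2) := by
    nlinarith [mul_le_mul_of_nonneg_left hht (mul_nonneg hh (sq_nonneg R))]
  have e5 := mul_le_mul_of_nonneg_left e4 hC
  have e6 := abs_add_le (ψ x - F th - ∑ k, (h • x) k * Dk k) (∑ k, (h • x) k * Dk k)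
  rw [sub_add_cancel] at e6
  linarith

attribute [local irreducible] hess smo in
theorem secantReg : SecantReg := by
  intro n μ hμ hslc hb t t' ht htt
  obtain ⟨R₀, hR₀⟩ := id hb
  set R := |R₀|
  have hR : ∀ᵐ x ∂μ, ‖x‖ ≤ R := hR₀.mono fun x hx => hx.trans (le_abs_self _)
  have hR0 : 0 ≤ R := abs_nonneg _
  obtain ⟨K₀, hK₀, hB⟩ := B2.exists_uniform (H := fun q : Fin n × Fin n => hess μ t' q.1 q.2)
    fun q => cb_hess hb t' q.1 q.2 2
  have hB' : ∀ j l, B2 (hess μ t' j l) K₀ := fun j l => hB (j, l)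
  have hder : ∀ u (th xi : Rn n) j l k, dsec μ t t' u th xi j l k
      = dsecF μ ((t' - t) / 2) (t' - u) u (hess μ t' j l) k th xi := fun u th xi j l k => by
    refine dsec_eq_of ?_
    simp only [secant_eq hb]
    exact sec_lipschitz hb hR0 hR (hB' j l) th xi k
  refine ⟨fun u _ j l k => ⟨?_, ?_⟩, fun u th xi j l => ?_, ?_⟩
  · simp only [secant_eq hb]
    exact continuous_sec hb (hB' j l).cont (hB' j l).bd
  · simp only [hder]
    exact continuous_dsecF hb hR (hB' j l) k
  · simp only [secant, hess_comm]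
  set C := K₀ * (8 * R ^ 2 + 2 * R * n + 1) with hC
  have hC0 : 0 ≤ C := by positivity
  set D := K₀ + 2 * (K₀ * R) with hD
  have hD0 : 0 ≤ D := by positivity
  set Z := ∫ z : Rn n, ‖z‖ ^ 2 ∂gam n
  have hZ : 0 ≤ Z := integral_nonneg fun _ => sq_nonneg _
  set L := n * D * R + C * (2 * t * R ^ 2 + 2 * Z) with hL
  have hL0 : 0 ≤ L := by positivity
  refine ⟨K₀ + D + C + L, by positivity, fun u hu th xi j l => ⟨?_, fun k => ?_, fun η => ?_,
    fun v hv => ?_⟩⟩
  · rw [secant_eq hb]
    exact (abs_sec_le hb (hB' j l).cont (hB' j l).bd th xi).trans (by linarith)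
  · rw [hder]
    exact (abs_dsecF_le hb hR (hB' j l) k th xi).trans (by linarith)
  · simp only [hder, secant_eq hb]
    exact (sec_taylor hb hR0 hR (hB' j l) th η xi).trans
      (mul_le_mul_of_nonneg_right (by linarith) (sq_nonneg _))
  have key : ∀ w v, 0 ≤ w → w ≤ v → v ≤ t →
      |secant μ t t' v th xi j l - secant μ t t' w th xi j l| ≤ L * (v - w) := by
    intro w v hw hwv hvt
    set h := v - w with hh
    have hh0 : 0 ≤ h := by simp only [hh]; linarith
    have hht : h ≤ t := by simp only [hh]; linarith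
    set F : Rn n → ℝ := fun q => secant μ t t' v q xi j l with hF
    have hFeq : F = fun q => sec μ ((t' - t) / 2) (t' - v) v (hess μ t' j l) q xi :=
      funext fun q => secant_eq hb t t' v q xi j l
    have hFc : Continuous F := by
      rw [hFeq]
      exact (continuous_sec (a := t' - v) (u := v) (s := (t' - t) / 2) hb (hB' j l).cont
        (hB' j l).bd).comp (f := fun q : Rn n => (q, xi)) (continuous_id.prodMk continuous_const)
    have hFb : ∀ q, |F q| ≤ K₀ := fun q => by
      rw [hFeq]; exact abs_sec_le hb (hB' j l).cont (hB' j l).bd q xi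
    set Dk : Fin n → ℝ := fun k => dsec μ t t' v th xi j l k with hDk
    have hDb : ∀ k, |Dk k| ≤ D := fun k => by
      simp only [hDk, hder]; exact abs_dsecF_le hb hR (hB' j l) k th xi
    have hT : ∀ η : Rn n, |F (th + η) - F th - ∑ k, η k * Dk k| ≤ C * ‖η‖ ^ 2 := fun η => by
      simp only [hFeq, hDk, hder]; exact sec_taylor hb hR0 hR (hB' j l) th η xi
    have hm : secant μ t t' w th xi j l = step μ w h th F := by
      have h0 := secantMart n μ hμ hslc hb t t' w h hw hh0 (by simp only [hh]; linarith) htt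
        th xi j l
      rw [← h0, hF, show w + h = v by simp only [hh]; ring]
    rw [abs_sub_comm]
    change |secant μ t t' w th xi j l - F th| ≤ L * h
    rw [hm]
    exact abs_step_sub_le hb hR hC0 hD0 hh0 hht w th hFc hFb hDb hT
  rcases le_total u v with huv | huv
  · refine (key u v hu.1 huv hv.2).trans ?_
    rw [abs_of_nonneg (sub_nonneg.2 huv)]
    exact mul_le_mul_of_nonneg_right (by linarith) (sub_nonneg.2 huv)
  · rw [abs_sub_comm]
    refine (key v u hv.1 huv hu.2).trans ?_
    rw [abs_of_nonpos (sub_nonpos.2 huv), neg_sub]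
    exact mul_le_mul_of_nonneg_right (by linarith) (sub_nonneg.2 huv)

/-! ### The value at a shift -/

lemma bg_eq_integral (hb : BddSupp μ) (t : ℝ) (q d : Rn n) :
    Bg μ t q d = ∫ r in (0 : ℝ)..1, (1 - r) * ∑ j, ∑ l, d j * d l * hess μ t j l (q + r • d) := by
  set p : Rn n → ℝ := fun x => ⟪d, x⟫
  have hp : Good μ p := good_inner hb d
  have hQ : ∀ y, ∑ j, ∑ l, d j * d l * hess μ t j l y = cv μ t y p p := by
    intro y
    have hsum : Good μ fun x => ∑ l, d l * x l :=
      good_sum _ fun l => good_smul (Good.coord hb l) _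
    simp only [p, inner_eq_sum]
    rw [cv_sum_left hb _ (fun j => d j) (f := fun j (x : Rn n) => x j)
      (fun j => Good.coord hb j) hsum]
    refine Finset.sum_congr rfl fun j _ => ?_
    rw [cv_sum_right hb _ (fun l => d l) (f := fun l (x : Rn n) => x l)
      (fun l => Good.coord hb l) (Good.coord hb j), Finset.mul_sum]
    exact Finset.sum_congr rfl fun l _ => by simp only [hess]; ring
  have h1 : ∀ r : ℝ, HasDerivAt (fun r : ℝ => Real.log (zt μ t (q + r • d)))
      (ex μ t (q + r • d) p) r := by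
    intro r
    have h := M2.hasDerivAt_num hb (Good.const (μ := μ) 1) t (q + r • d) 0 d
    simp only [mul_zero, add_zero, zero_div, zero_mul, sub_zero, one_mul] at h
    have h' : HasDerivAt (fun s : ℝ => num μ t (q + r • d + s • d) fun _ => (1 : ℝ))
        (num μ t (q + r • d) p) (r - r) := by rw [sub_self]; exact h
    have h2 : HasDerivAt (fun s : ℝ => num μ t (q + s • d) fun _ => (1 : ℝ))
        (num μ t (q + r • d) p) r := by
      refine (h'.comp_sub_const r r).congr_of_eventuallyEq (Eventually.of_forall fun s => ?_)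
      show num μ t (q + s • d) (fun _ => (1 : ℝ)) = num μ t (q + r • d + (s - r) • d) fun _ => 1
      rw [add_assoc, ← add_smul, add_sub_cancel]
    exact h2.log (M2.zt_pos hb t (q + r • d)).ne'
  have h2 : ∀ r : ℝ, HasDerivAt (fun r : ℝ => (1 - r) * ex μ t (q + r • d) p
      + Real.log (zt μ t (q + r • d))) ((1 - r) * cv μ t (q + r • d) p p) r := by
    intro r
    have h := (((hasDerivAt_id' r).const_sub 1).mul (hasDerivAt_line hb hp t q d r)).add (h1 r)
    refine h.congr_deriv ?_
    simp only [p]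
    ring
  have hc : Continuous fun r : ℝ => (1 - r) * cv μ t (q + r • d) p p := by
    simp only [← hQ]
    refine Continuous.mul (by fun_prop) (continuous_finsetSum _ fun j _ =>
      continuous_finsetSum _ fun l _ => continuous_const.mul ?_)
    exact (cb_hess hb t j l 0).cont.comp (by fun_prop)
  simp only [hQ]
  rw [intervalIntegral.integral_eq_sub_of_hasDerivAt (fun r _ => h2 r) (hc.intervalIntegrable _ _)]
  simp only [Bg, p, one_smul, zero_smul, add_zero, sub_self, zero_mul, zero_add, sub_zero, one_mul]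
  ring

/-- Averaging over the direction removes the shrinking of the smoothing. -/
lemma integral_avg_shift {s a : ℝ} (hs : 0 < s) (hsa : s ≤ a) {H : Rn n → ℝ} {K : ℝ}
    (hc : Continuous H) (hK : ∀ y, |H y| ≤ K) (y d : Rn n) :
    ∫ xi, avg s a H y (xi + (Real.sqrt s)⁻¹ • d) ∂gam n
      = ∫ z, (∫ r in (0 : ℝ)..1, (1 - r) * H (y + Real.sqrt a • z + r • d)) ∂gam n := by
  have hsq : Real.sqrt s ≠ 0 := (Real.sqrt_pos.2 hs).ne'
  have e : ∀ (r : ℝ) (xi : Rn n), y + (Real.sqrt s * r) • (xi + (Real.sqrt s)⁻¹ • d)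
      = y + r • d + (Real.sqrt s * r) • xi := fun r xi => by
    rw [smul_add, smul_smul, show Real.sqrt s * r * (Real.sqrt s)⁻¹ = r by field_simp]
    abel
  unfold avg
  simp only [intervalIntegral.integral_of_le zero_le_one, e]
  have i1 : Integrable (fun q : Rn n × ℝ => (1 - q.2) *
      smo (a - s * q.2 ^ 2) H (y + q.2 • d + (Real.sqrt s * q.2) • q.1))
      ((gam n).prod (volume.restrict (Set.Ioc 0 1))) := by
    refine Integrable.of_bound ?_ K ?_
    · exact ((continuous_avg_integrand hc hK).comp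
        (f := fun q : Rn n × ℝ => ((y + q.2 • d, q.1), q.2))
        (by fun_prop)).aestronglyMeasurable
    · refine (Measure.quasiMeasurePreserving_snd.ae (ae_restrict_mem measurableSet_Ioc)).mono
        fun q hq => ?_
      exact abs_phi_mul_le (by rw [Set.uIoc_of_le zero_le_one]; exact hq) (abs_smo_le hK _ _)
  have i2 : Integrable (fun q : Rn n × ℝ => (1 - q.2) * H (y + Real.sqrt a • q.1 + q.2 • d))
      ((gam n).prod (volume.restrict (Set.Ioc 0 1))) := by
    refine Integrable.of_bound ?_ K ?_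
    · exact (Continuous.mul (by fun_prop)
        (hc.comp (f := fun q : Rn n × ℝ => y + Real.sqrt a • q.1 + q.2 • d)
          (by fun_prop))).aestronglyMeasurable
    · refine (Measure.quasiMeasurePreserving_snd.ae (ae_restrict_mem measurableSet_Ioc)).mono
        fun q hq => ?_
      exact abs_phi_mul_le (by rw [Set.uIoc_of_le zero_le_one]; exact hq) (hK _)
  rw [integral_integral_swap i1]
  conv_rhs => rw [integral_integral_swap i2]
  refine setIntegral_congr_fun measurableSet_Ioc fun r hr => ?_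
  have hr2 : s * r ^ 2 ≤ s := mul_le_of_le_one_right hs.le (pow_le_one₀ hr.1.le hr.2)
  simp only [integral_const_mul]
  rw [integral_smo_shift hc hK (by linarith), mul_pow, Real.sq_sqrt hs.le, sub_add_cancel]
  simp only [smo, add_right_comm y]

attribute [local irreducible] hess smo

lemma secant_shift_integral (hb : BddSupp μ) {t t' u : ℝ} (hut : u ≤ t) (htt : t < t')
    (th d : Rn n) (j l : Fin n) :
    Integrable (fun xi => secant μ t t' u th (xi + (Real.sqrt ((t' - t) / 2))⁻¹ • d) j l) (gam n)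
      ∧ ∫ xi, secant μ t t' u th (xi + (Real.sqrt ((t' - t) / 2))⁻¹ • d) j l ∂gam n
        = ex μ u th fun x => ∫ z, (∫ r in (0 : ℝ)..1, (1 - r) *
            hess μ t' j l (th + (t' - u) • x + Real.sqrt (t' - u) • z + r • d)) ∂gam n := by
  set s := (t' - t) / 2 with hs
  have hs0 : 0 < s := by simp only [hs]; linarith
  have hsa : s ≤ t' - u := by simp only [hs]; linarith
  obtain ⟨K, hK⟩ := (cb_hess hb t' j l 0).bound
  have hc := (cb_hess hb t' j l 0).cont
  simp only [secant_eq hb, ← hs]
  refine ⟨integrable_gam_bdd ((continuous_sec hb hc hK).comp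
    (f := fun xi => (th, xi + (Real.sqrt s)⁻¹ • d)) (by fun_prop))
    fun xi => abs_sec_le hb hc hK th _, ?_⟩
  unfold sec
  have hA : Continuous fun q : Rn n × Rn n => avg s (t' - u) (hess μ t' j l)
      (th + (t' - u) • q.1) (q.2 + (Real.sqrt s)⁻¹ • d) :=
    (continuous_avg hc hK).comp
      (f := fun q : Rn n × Rn n => (th + (t' - u) • q.1, q.2 + (Real.sqrt s)⁻¹ • d)) (by fun_prop)
  rw [← ex_integral_swap hb (gam n) u th (F := fun xi x => avg s (t' - u) (hess μ t' j l)
    (th + (t' - u) • x) (xi + (Real.sqrt s)⁻¹ • d)) hA.aestronglyMeasurable (M := K)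
    (ae_of_all _ fun _ _ => abs_avg_le hK _ _)]
  exact congrArg (ex μ u th) (funext fun x => integral_avg_shift hs0 hsa hc hK _ d)

lemma bg_smooth_eq (hb : BddSupp μ) (t a : ℝ) (q d : Rn n) :
    ∫ z, Bg μ t (q + Real.sqrt a • z) d ∂gam n = ∑ j, ∑ l, d j * d l *
      ∫ z, (∫ r in (0 : ℝ)..1, (1 - r) * hess μ t j l (q + Real.sqrt a • z + r • d)) ∂gam n := by
  choose K hK using fun j l => (cb_hess hb t j l 0).bound
  have hI : ∀ j l, Integrable (fun z => d j * d l * ∫ r in (0 : ℝ)..1,
      (1 - r) * hess μ t j l (q + Real.sqrt a • z + r • d)) (gam n) := fun j l => by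
    refine (integrable_gam_bdd
      (intervalIntegral.continuous_parametric_intervalIntegral_of_continuous'
        (f := fun (z : Rn n) (r : ℝ) => (1 - r) * hess μ t j l (q + Real.sqrt a • z + r • d))
        (Continuous.mul (by fun_prop) ((cb_hess hb t j l 0).cont.comp (by fun_prop))) 0 1)
      (M := K j l) fun z => ?_).const_mul _
    simpa using intervalIntegral.norm_integral_le_of_norm_le_const (C := K j l)
      (f := fun r => (1 - r) * hess μ t j l (q + Real.sqrt a • z + r • d))
      (a := (0 : ℝ)) (b := 1) fun r hr => abs_phi_mul_le hr (hK j l _)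
  simp only [← integral_const_mul]
  simp only [← integral_finsetSum _ fun l _ => hI _ l]
  rw [← integral_finsetSum _ fun j _ => integrable_finsetSum _ fun l _ => hI j l]
  refine integral_congr_ae (ae_of_all _ fun z => ?_)
  simp only [bg_eq_integral hb, Finset.mul_sum]
  have hii : ∀ j l, IntervalIntegrable (fun r : ℝ => (1 - r) * (d j * d l *
      hess μ t j l (q + Real.sqrt a • z + r • d))) volume 0 1 :=
    fun j l => (Continuous.mul (by fun_prop)
      (continuous_const.mul ((cb_hess hb t j l 0).cont.comp (by fun_prop)))).intervalIntegrable _ _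
  rw [intervalIntegral.integral_finsetSum fun j _ => by
    simpa only [Finset.sum_fn] using IntervalIntegrable.sum _ fun l _ => hii j l]
  refine Finset.sum_congr rfl fun j _ => ?_
  rw [intervalIntegral.integral_finsetSum fun l _ => hii j l]
  refine Finset.sum_congr rfl fun l _ => ?_
  rw [← intervalIntegral.integral_const_mul]
  congr 1
  funext r
  ring

lemma continuous_seg {H : Rn n → ℝ} (hc : Continuous H) (d : Rn n) :
    Continuous fun q : Rn n => ∫ r in (0 : ℝ)..1, (1 - r) * H (q + r • d) :=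
  intervalIntegral.continuous_parametric_intervalIntegral_of_continuous'
    (f := fun (q : Rn n) (r : ℝ) => (1 - r) * H (q + r • d))
    (Continuous.mul (by fun_prop) (hc.comp (f := fun q : Rn n × ℝ => q.1 + q.2 • d)
      (by fun_prop))) 0 1

lemma abs_seg_le {H : Rn n → ℝ} {K : ℝ} (hK : ∀ y, |H y| ≤ K) (q d : Rn n) :
    |∫ r in (0 : ℝ)..1, (1 - r) * H (q + r • d)| ≤ K := by
  have h := intervalIntegral.norm_integral_le_of_norm_le_const
    (f := fun r => (1 - r) * H (q + r • d)) (C := K)
    (a := (0 : ℝ)) (b := 1) fun r hr => abs_phi_mul_le hr (hK _)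
  simpa using h

lemma good_seg (hb : BddSupp μ) (t a : ℝ) (th d : Rn n) (j l : Fin n) (b : ℝ) :
    Good μ fun x => ∫ z, (∫ r in (0 : ℝ)..1, (1 - r) *
      hess μ t j l (th + a • x + Real.sqrt b • z + r • d)) ∂gam n := by
  obtain ⟨K, hK⟩ := (cb_hess hb t j l 0).bound
  have hI := continuous_seg (cb_hess hb t j l 0).cont d
  generalize hess μ t j l = H at hK hI ⊢
  exact Good.of_continuous hb (continuous_of_dominated (bound := fun _ => K)
    (F := fun (x : Rn n) (z : Rn n) =>
      ∫ r in (0 : ℝ)..1, (1 - r) * H (th + a • x + Real.sqrt b • z + r • d))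
    (fun x => (hI.comp (f := fun z : Rn n => th + a • x + Real.sqrt b • z)
      (by fun_prop)).aestronglyMeasurable)
    (fun x => ae_of_all _ fun z => abs_seg_le hK _ d) (integrable_const _)
    (ae_of_all _ fun z => hI.comp (f := fun x : Rn n => th + a • x + Real.sqrt b • z)
      (by fun_prop)))

theorem secantValue : SecantValue := by
  intro n μ hμ hslc hb t t' u hu hut htt th d
  have hi := fun j l => secant_shift_integral hb hut htt th d j l
  have hint : ∀ j l, Integrable (fun xi => d j * d l *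
      secant μ t t' u th (xi + (Real.sqrt ((t' - t) / 2))⁻¹ • d) j l) (gam n) := fun j l =>
    (hi j l).1.const_mul _
  have hg := fun j l => good_smul (good_seg hb t' (t' - u) th d j l (t' - u)) (d j * d l)
  rw [integral_finsetSum _ fun j _ => integrable_finsetSum _ fun l _ => hint j l]
  simp only [integral_finsetSum _ fun l _ => hint _ l, integral_const_mul, fun j l => (hi j l).2]
  unfold step
  simp only [bg_smooth_eq hb]
  rw [M2.ex_sum hb _ fun j => good_sum _ fun l => hg j l]
  refine Finset.sum_congr rfl fun j _ => ?_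
  rw [M2.ex_sum hb _ fun l => hg j l]
  simp only [M2.ex_const_mul]

end Vale.Agent.P245.Poly
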