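import Vale.Agent.P245.Poly.SecantBasic
import Vale.Agent.P245.M2.Mix

/-!
# P245, polylog module C: the averaged smoothing along a segment
-/

namespace Vale.Agent.P245.Poly

open MeasureTheory ProbabilityTheory Filter Topology
open scoped RealInnerProductSpace
open M2 (Good)

variable {n : ℕ}

/-- Average of Gaussian smoothings along the segment with direction `xi`. -/
noncomputable def avg (s a : ℝ) (H : Rn n → ℝ) (y xi : Rn n) : ℝ :=
  ∫ r in (0 : ℝ)..1, (1 - r) * smo (a - s * r ^ 2) H (y + (Real.sqrt s * r) • xi)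

/-- Bounded with first order Taylor bound. -/
structure B2 (H : Rn n → ℝ) (K : ℝ) : Prop where
  cont : Continuous H
  bd : ∀ y, |H y| ≤ K
  lip : ∀ y η, |H (y + η) - H y| ≤ K * ‖η‖
  cont1 : ∀ i, Continuous (D1 i H)
  bd1 : ∀ i y, |D1 i H y| ≤ K
  tay : ∀ y η, |H (y + η) - H y - ∑ i, η i * D1 i H y| ≤ K * ‖η‖ ^ 2

lemma B2.nonneg {H : Rn n → ℝ} {K : ℝ} (h : B2 H K) : 0 ≤ K := (abs_nonneg _).trans (h.bd 0)

lemma B2.mono {H : Rn n → ℝ} {K K' : ℝ} (h : B2 H K) (hK : K ≤ K') : B2 H K' where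
  cont := h.cont
  bd y := (h.bd y).trans hK
  lip y η := (h.lip y η).trans (mul_le_mul_of_nonneg_right hK (norm_nonneg _))
  cont1 := h.cont1
  bd1 i y := (h.bd1 i y).trans hK
  tay y η := (h.tay y η).trans (mul_le_mul_of_nonneg_right hK (sq_nonneg _))

lemma abs_sum_coord_le (η : Rn n) {c : Fin n → ℝ} {M : ℝ} (hM : ∀ i, |c i| ≤ M) :
    |∑ i, η i * c i| ≤ n * M * ‖η‖ := by
  refine (Finset.abs_sum_le_sum_abs _ _).trans ?_
  calc ∑ i, |η i * c i| ≤ ∑ _i : Fin n, ‖η‖ * M := Finset.sum_le_sum fun i _ => by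
        rw [abs_mul]
        exact mul_le_mul (PiLp.norm_apply_le η i) (hM i) (abs_nonneg _) (norm_nonneg _)
    _ = n * M * ‖η‖ := by simp; ring

lemma B2.exists_of_cb {H : Rn n → ℝ} (h : Cb 2 H) : ∃ K, B2 H K := by
  obtain ⟨M0, hM0⟩ := h.1
  choose M1 hM1 using fun i => (h.2.2 i).1
  choose M2 hM2 using fun i j => ((h.2.2 i).2.2 j).2
  set M := |M0| + ∑ i, |M1 i| + ∑ i, ∑ j, |M2 i j| with hM
  have p0 := abs_nonneg M0
  have p1 : 0 ≤ ∑ i, |M1 i| := Finset.sum_nonneg fun _ _ => abs_nonneg _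
  have p2 : 0 ≤ ∑ i, ∑ j, |M2 i j| :=
    Finset.sum_nonneg fun _ _ => Finset.sum_nonneg fun _ _ => abs_nonneg _
  have hMn : 0 ≤ M := by simp only [hM]; linarith
  have e1 : ∀ i y, |D1 i H y| ≤ M := fun i y => by
    have := Finset.single_le_sum (f := fun i => |M1 i|) (fun _ _ => abs_nonneg _)
      (Finset.mem_univ i)
    have := (hM1 i y).trans (le_abs_self _)
    simp only [hM]; linarith
  have e2 : ∀ i j y, |D1 j (D1 i H) y| ≤ M := fun i j y => by
    have := Finset.single_le_sum (f := fun j => |M2 i j|) (fun _ _ => abs_nonneg _)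
      (Finset.mem_univ j)
    have := Finset.single_le_sum (f := fun i => ∑ j, |M2 i j|)
      (fun _ _ => Finset.sum_nonneg fun _ _ => abs_nonneg _) (Finset.mem_univ i)
    have := (hM2 i j y).trans (le_abs_self _)
    simp only [hM]; linarith
  refine ⟨(1 + n + n * n) * M, h.2.1.continuous, fun y => ?_, fun y η => ?_,
    fun i => (h.2.2 i).2.1.continuous, fun i y => (e1 i y).trans ?_, fun y η => ?_⟩
  · have := (hM0 y).trans (le_abs_self _)
    nlinarith [mul_nonneg (Nat.cast_nonneg (α := ℝ) n) hMn,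
      mul_nonneg (mul_nonneg (Nat.cast_nonneg (α := ℝ) n) (Nat.cast_nonneg n)) hMn]
  · have hd := (convex_Icc (0 : ℝ) 1).norm_image_sub_le_of_norm_hasDerivWithin_le
      (f := fun r : ℝ => H (y + r • η)) (f' := fun r => ∑ i, η i * D1 i H (y + r • η))
      (C := n * M * ‖η‖) (fun s _ => (hasDerivAt_lineD1 h.2.1 y η s).hasDerivWithinAt)
      (fun s _ => by rw [Real.norm_eq_abs]; exact abs_sum_coord_le η fun i => e1 i _)
      (Set.left_mem_Icc.2 zero_le_one) (Set.right_mem_Icc.2 zero_le_one)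
    simp only [one_smul, zero_smul, add_zero, sub_zero, norm_one, mul_one, Real.norm_eq_abs] at hd
    refine hd.trans (mul_le_mul_of_nonneg_right ?_ (norm_nonneg _))
    nlinarith [mul_nonneg (mul_nonneg (Nat.cast_nonneg (α := ℝ) n) (Nat.cast_nonneg n)) hMn]
  · nlinarith [mul_nonneg (Nat.cast_nonneg (α := ℝ) n) hMn,
      mul_nonneg (mul_nonneg (Nat.cast_nonneg (α := ℝ) n) (Nat.cast_nonneg n)) hMn]
  · have ht := taylor_two (φ := fun r : ℝ => H (y + r • η))
      (φ₁ := fun r => ∑ i, η i * D1 i H (y + r • η))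
      (φ₂ := fun r => ∑ i, η i * ∑ j, η j * D1 j (D1 i H) (y + r • η))
      (B := n * (n * M * ‖η‖) * ‖η‖) (fun s => hasDerivAt_lineD1 h.2.1 y η s)
      (fun s => HasDerivAt.fun_sum fun i _ =>
        (hasDerivAt_lineD1 (h.2.2 i).2.1 y η s).const_mul (η i))
      (fun s => abs_sum_coord_le η fun i => abs_sum_coord_le η fun j => e2 i j _)
    simp only [one_smul, zero_smul, add_zero] at ht
    refine ht.trans (le_of_eq_of_le (b := n * n * M * ‖η‖ ^ 2) (by ring)
      (mul_le_mul_of_nonneg_right ?_ (sq_nonneg _)))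
    nlinarith [mul_nonneg (Nat.cast_nonneg (α := ℝ) n) hMn]

lemma B2.exists_uniform {ι : Type*} [Fintype ι] {H : ι → Rn n → ℝ} (h : ∀ i, Cb 2 (H i)) :
    ∃ K, 0 ≤ K ∧ ∀ i, B2 (H i) K := by
  choose K hK using fun i => B2.exists_of_cb (h i)
  exact ⟨∑ i, K i, Finset.sum_nonneg fun i _ => (hK i).nonneg, fun i =>
    (hK i).mono (Finset.single_le_sum (f := K) (fun j _ => (hK j).nonneg) (Finset.mem_univ i))⟩

/-! ### Continuity and bounds of `avg` -/

variable {s a : ℝ} {H : Rn n → ℝ} {K : ℝ}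

lemma continuous_avg_integrand (hc : Continuous H) (hK : ∀ y, |H y| ≤ K) :
    Continuous fun p : (Rn n × Rn n) × ℝ =>
      (1 - p.2) * smo (a - s * p.2 ^ 2) H (p.1.1 + (Real.sqrt s * p.2) • p.1.2) := by
  refine Continuous.mul (by fun_prop) ?_
  exact (continuous_smo hc hK).comp (f := fun p : (Rn n × Rn n) × ℝ =>
    (a - s * p.2 ^ 2, p.1.1 + (Real.sqrt s * p.2) • p.1.2)) (by fun_prop)

lemma continuous_avg_r (hc : Continuous H) (hK : ∀ y, |H y| ≤ K) (y xi : Rn n) :
    Continuous fun r => (1 - r) * smo (a - s * r ^ 2) H (y + (Real.sqrt s * r) • xi) :=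
  (continuous_avg_integrand hc hK).comp (f := fun r : ℝ => ((y, xi), r)) (by fun_prop)

lemma continuous_avg (hc : Continuous H) (hK : ∀ y, |H y| ≤ K) :
    Continuous fun p : Rn n × Rn n => avg s a H p.1 p.2 := by
  unfold avg
  exact intervalIntegral.continuous_parametric_intervalIntegral_of_continuous'
    (f := fun (p : Rn n × Rn n) (r : ℝ) =>
      (1 - r) * smo (a - s * r ^ 2) H (p.1 + (Real.sqrt s * r) • p.2))
    (continuous_avg_integrand hc hK) 0 1

lemma abs_phi_mul_le {r x M : ℝ} (hr : r ∈ Set.uIoc (0 : ℝ) 1) (hx : |x| ≤ M) :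
    |(1 - r) * x| ≤ M := by
  rw [Set.uIoc_of_le zero_le_one] at hr
  rw [abs_mul, abs_of_nonneg (by linarith [hr.2])]
  exact (mul_le_of_le_one_left (abs_nonneg _) (by linarith [hr.1])).trans hx

lemma abs_avg_le (hK : ∀ y, |H y| ≤ K) (y xi : Rn n) : |avg s a H y xi| ≤ K := by
  have h := intervalIntegral.norm_integral_le_of_norm_le_const
    (f := fun r => (1 - r) * smo (a - s * r ^ 2) H (y + (Real.sqrt s * r) • xi)) (C := K)
    (a := (0 : ℝ)) (b := 1) fun r hr => abs_phi_mul_le hr (abs_smo_le hK _ _)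
  simpa [avg] using h

lemma smo_sum {ι : Type*} [Fintype ι] (c : ι → ℝ) {F : ι → Rn n → ℝ}
    (hF : ∀ i, Continuous (F i) ∧ ∃ M, ∀ y, |F i y| ≤ M) (σ : ℝ) (y : Rn n) :
    smo σ (fun y => ∑ i, c i * F i y) y = ∑ i, c i * smo σ (F i) y := by
  unfold smo
  rw [integral_finsetSum]
  · simp only [integral_const_mul]
  · intro i _
    obtain ⟨hc, M, hM⟩ := hF i
    exact (integrable_gam_bdd (hc.comp (by fun_prop)) fun z => hM _).const_mul _

lemma avg_sum {ι : Type*} [Fintype ι] (c : ι → ℝ) {F : ι → Rn n → ℝ}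
    (hF : ∀ i, Continuous (F i) ∧ ∃ M, ∀ y, |F i y| ≤ M) (y xi : Rn n) :
    avg s a (fun y => ∑ i, c i * F i y) y xi = ∑ i, c i * avg s a (F i) y xi := by
  unfold avg
  simp only [smo_sum c hF, Finset.mul_sum]
  rw [intervalIntegral.integral_finsetSum fun i _ => ?_]
  · refine Finset.sum_congr rfl fun i _ => ?_
    rw [← intervalIntegral.integral_const_mul]
    congr 1
    funext r
    ring
  · obtain ⟨hc, M, hM⟩ := hF i
    have := (continuous_avg_r (s := s) (a := a) hc hM y xi).const_mul (c i)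
    exact (this.congr fun r => by ring).intervalIntegrable _ _

lemma smo_taylor (h : B2 H K) (σ : ℝ) (y η : Rn n) :
    |smo σ H (y + η) - smo σ H y - ∑ i, η i * smo σ (D1 i H) y| ≤ K * ‖η‖ ^ 2 := by
  have i1 : Integrable (fun z => H (y + η + Real.sqrt σ • z)) (gam n) :=
    integrable_gam_bdd (h.cont.comp (by fun_prop)) fun z => h.bd _
  have i0 : Integrable (fun z => H (y + Real.sqrt σ • z)) (gam n) :=
    integrable_gam_bdd (h.cont.comp (by fun_prop)) fun z => h.bd _
  have iD : ∀ i, Integrable (fun z => η i * D1 i H (y + Real.sqrt σ • z)) (gam n) := fun i =>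
    (integrable_gam_bdd ((h.cont1 i).comp (by fun_prop)) fun z => h.bd1 i _).const_mul _
  have e : smo σ H (y + η) - smo σ H y - ∑ i, η i * smo σ (D1 i H) y
      = ∫ z, (H (y + η + Real.sqrt σ • z) - H (y + Real.sqrt σ • z)
          - ∑ i, η i * D1 i H (y + Real.sqrt σ • z)) ∂gam n := by
    rw [integral_sub, integral_sub i1 i0, integral_finsetSum _ fun i _ => iD i]
    · simp only [integral_const_mul]; rfl
    · exact i1.sub i0
    · exact integrable_finsetSum _ fun i _ => iD i
  rw [e]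
  have hb := norm_integral_le_of_norm_le_const (μ := gam n)
    (f := fun z => H (y + η + Real.sqrt σ • z) - H (y + Real.sqrt σ • z)
      - ∑ i, η i * D1 i H (y + Real.sqrt σ • z)) (C := K * ‖η‖ ^ 2)
    (ae_of_all _ fun z => by
      rw [Real.norm_eq_abs, add_right_comm]; exact h.tay _ η)
  simpa using hb

lemma avg_taylor (h : B2 H K) (y η xi : Rn n) :
    |avg s a H (y + η) xi - avg s a H y xi - ∑ i, η i * avg s a (D1 i H) y xi|
      ≤ K * ‖η‖ ^ 2 := by
  set f : Rn n → ℝ → ℝ := fun y r =>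
    (1 - r) * smo (a - s * r ^ 2) H (y + (Real.sqrt s * r) • xi) with hf
  set g : Fin n → ℝ → ℝ := fun i r =>
    (1 - r) * smo (a - s * r ^ 2) (D1 i H) (y + (Real.sqrt s * r) • xi) with hg
  have c1 := fun z => (continuous_avg_r (s := s) (a := a) h.cont h.bd z xi).intervalIntegrable
    (μ := volume) 0 1
  have c2 : ∀ i, IntervalIntegrable (fun r => η i * g i r) volume 0 1 := fun i =>
    ((continuous_avg_r (h.cont1 i) (h.bd1 i) y xi).const_mul _).intervalIntegrable _ _
  have e : avg s a H (y + η) xi - avg s a H y xi - ∑ i, η i * avg s a (D1 i H) y xi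
      = ∫ r in (0 : ℝ)..1, (f (y + η) r - f y r - ∑ i, η i * g i r) := by
    rw [intervalIntegral.integral_sub ((c1 _).sub (c1 _)),
      intervalIntegral.integral_sub (c1 _) (c1 _),
      intervalIntegral.integral_finsetSum fun i _ => c2 i]
    · simp only [intervalIntegral.integral_const_mul]; rfl
    · simpa only [Finset.sum_fn] using IntervalIntegrable.sum _ fun i _ => c2 i
  rw [e]
  have hb := intervalIntegral.norm_integral_le_of_norm_le_const
    (f := fun r => f (y + η) r - f y r - ∑ i, η i * g i r) (C := K * ‖η‖ ^ 2)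
    (a := (0 : ℝ)) (b := 1) fun r hr => by
      rw [Real.norm_eq_abs]
      have h1 := abs_phi_mul_le hr
        (smo_taylor h (a - s * r ^ 2) (y + (Real.sqrt s * r) • xi) η)
      refine le_of_eq_of_le (congrArg abs ?_) h1
      simp only [hf, hg, mul_sub, Finset.mul_sum, add_right_comm y]
      congr 1
      exact Finset.sum_congr rfl fun i _ => by ring
  simpa using hb

lemma avg_lip (h : B2 H K) (y η xi : Rn n) :
    |avg s a H (y + η) xi - avg s a H y xi| ≤ K * ‖η‖ := by
  have c1 := fun z => (continuous_avg_r (s := s) (a := a) h.cont h.bd z xi).intervalIntegrable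
    (μ := volume) 0 1
  unfold avg
  rw [← intervalIntegral.integral_sub (c1 _) (c1 _)]
  have hb := intervalIntegral.norm_integral_le_of_norm_le_const
    (f := fun r => (1 - r) * smo (a - s * r ^ 2) H (y + η + (Real.sqrt s * r) • xi)
      - (1 - r) * smo (a - s * r ^ 2) H (y + (Real.sqrt s * r) • xi)) (C := K * ‖η‖)
    (a := (0 : ℝ)) (b := 1) fun r hr => by
      rw [Real.norm_eq_abs, ← mul_sub]
      refine abs_phi_mul_le hr ?_
      have j1 : ∀ w : Rn n, Integrable (fun z => H (w + Real.sqrt (a - s * r ^ 2) • z)) (gam n) :=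
        fun w => integrable_gam_bdd (h.cont.comp (by fun_prop)) fun z => h.bd _
      unfold smo
      rw [← integral_sub (j1 _) (j1 _)]
      have h2 := norm_integral_le_of_norm_le_const (μ := gam n)
        (f := fun z => H (y + η + (Real.sqrt s * r) • xi + Real.sqrt (a - s * r ^ 2) • z)
          - H (y + (Real.sqrt s * r) • xi + Real.sqrt (a - s * r ^ 2) • z)) (C := K * ‖η‖)
        (ae_of_all _ fun z => by
          rw [Real.norm_eq_abs, show y + η + (Real.sqrt s * r) • xi
            + Real.sqrt (a - s * r ^ 2) • z = (y + (Real.sqrt s * r) • xi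
            + Real.sqrt (a - s * r ^ 2) • z) + η by abel]
          exact h.lip _ η)
      simpa using h2
  simpa using hb

/-! ### Parametric tilted expectations -/

variable {μ : Measure (Rn n)} [IsProbabilityMeasure μ]

lemma continuous_ex_param {P : Type*} [TopologicalSpace P] [FirstCountableTopology P]
    (hb : BddSupp μ) (u : ℝ) {T : P → Rn n} (hT : Continuous T) {F : P → Rn n → ℝ}
    (hF : Continuous (Function.uncurry F)) {M : ℝ} (hM : ∀ p, ∀ᵐ x ∂μ, |F p x| ≤ M) :
    Continuous fun p => ex μ u (T p) (F p) := by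
  obtain ⟨R, hR⟩ := hb
  have key : ∀ {G : P → Rn n → ℝ}, Continuous (Function.uncurry G) → ∀ {M : ℝ},
      (∀ p, ∀ᵐ x ∂μ, |G p x| ≤ M) → Continuous fun p => num μ u (T p) (G p) := by
    intro G hG M hM
    rw [continuous_iff_continuousAt]
    intro p0
    refine continuousAt_of_dominated
      (bound := fun _ => |M| * Real.exp ((‖T p0‖ + 1) * |R| + |u| / 2 * R ^ 2)) ?_ ?_
      (integrable_const _) (ae_of_all _ fun x => ?_)
    · exact Eventually.of_forall fun p =>
        ((hG.comp (continuous_const.prodMk continuous_id)).mul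
          (by unfold texp; fun_prop)).aestronglyMeasurable
    · have hev : ∀ᶠ p in 𝓝 p0, ‖T p‖ ≤ ‖T p0‖ + 1 :=
        (hT.norm.continuousAt.eventually (eventually_le_nhds (by linarith)))
      refine hev.mono fun p hp => ((hM p).and hR).mono fun x hx => ?_
      rw [norm_mul, Real.norm_eq_abs, Real.norm_eq_abs, Real.abs_exp]
      refine mul_le_mul (hx.1.trans (le_abs_self _)) (Real.exp_le_exp.2 ?_) (Real.exp_pos _).le
        (abs_nonneg _)
      unfold texp
      have h1 : ‖x‖ ≤ |R| := hx.2.trans (le_abs_self _)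
      have h2 : ⟪T p, x⟫ ≤ (‖T p0‖ + 1) * |R| :=
        (real_inner_le_norm _ _).trans (mul_le_mul hp h1 (norm_nonneg _) (by positivity))
      have h3 : ‖x‖ ^ 2 ≤ R ^ 2 := by
        rw [← sq_abs R]; exact pow_le_pow_left₀ (norm_nonneg _) h1 2
      nlinarith [mul_le_mul_of_nonneg_left h3 (abs_nonneg u), neg_le_abs u, sq_nonneg ‖x‖]
    · refine ContinuousAt.mul ?_ ?_
      · exact (hG.comp (continuous_id.prodMk continuous_const)).continuousAt
      · exact (Real.continuous_exp.comp (f := fun p => texp u (T p) x)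
          (by unfold texp; fun_prop)).continuousAt
  exact (key hF hM).div (key (G := fun _ _ => (1 : ℝ)) continuous_const
    (M := 1) fun _ => ae_of_all _ fun _ => by simp) fun p => (M2.zt_pos ⟨R, hR⟩ u (T p)).ne'

/-- Fubini for tilted expectations. -/
lemma ex_integral_swap (hb : BddSupp μ) {Ω : Type*} [MeasurableSpace Ω] (P : Measure Ω)
    [IsFiniteMeasure P] (u : ℝ) (th : Rn n) {F : Ω → Rn n → ℝ}
    (hF : AEStronglyMeasurable (fun q : Rn n × Ω => F q.2 q.1) (μ.prod P)) {M : ℝ}
    (hM : ∀ᵐ w ∂P, ∀ x, |F w x| ≤ M) :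
    ex μ u th (fun x => ∫ w, F w x ∂P) = ∫ w, ex μ u th (F w) ∂P := by
  have hint : Integrable (fun q : Rn n × Ω => F q.2 q.1 * Real.exp (texp u th q.1))
      (μ.prod P) := by
    refine Integrable.bdd_mul (c := M) ?_ hF
      ((Measure.quasiMeasurePreserving_snd (μ := μ) (ν := P)).ae hM |>.mono fun q hq => ?_)
    · have h1 := M2.integrable_num hb (Good.const (μ := μ) 1) u th
      simp only [one_mul] at h1
      exact h1.comp_fst P
    · simpa using hq q.1
  simp only [ex, num, ← integral_mul_const]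
  rw [integral_integral_swap hint, integral_div]

lemma integral_mul_wgt (hb : BddSupp μ) (u h : ℝ) (hh : 0 ≤ h) (th : Rn n)
    {G : Rn n → Rn n → ℝ} (hG : Continuous (Function.uncurry G)) {M : ℝ}
    (hM' : ∀ q x, |G q x| ≤ M) :
    num μ u th (fun x => ∫ z, G (th + h • x + Real.sqrt h • z) x ∂gam n)
      = ∫ z, num μ (u + h) (th + Real.sqrt h • z) (G (th + Real.sqrt h • z)) ∂gam n := by
  obtain ⟨R, hR⟩ := hb
  have hb : BddSupp μ := ⟨R, hR⟩
  have e1 : ∀ x, ∫ z, G (th + h • x + Real.sqrt h • z) x ∂gam n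
      = ∫ z, M2.wgt h x z * G (th + Real.sqrt h • z) x ∂gam n := fun x => by
    have := M2.integral_shift_wgt hh (fun y => G (th + y) x) x
    simpa only [add_assoc] using this
  have e2 : ∀ x z, M2.wgt h x z * G (th + Real.sqrt h • z) x * Real.exp (texp u th x)
      = G (th + Real.sqrt h • z) x * Real.exp (texp (u + h) (th + Real.sqrt h • z) x) := by
    intro x z
    unfold M2.wgt
    rw [mul_comm (Real.exp _) (G _ _), mul_assoc, ← Real.exp_add]
    congr 2
    unfold texp
    rw [inner_add_left]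
    ring
  have hint : Integrable (fun q : Rn n × Rn n =>
      M2.wgt h q.1 q.2 * G (th + Real.sqrt h • q.2) q.1 * Real.exp (texp u th q.1))
      (μ.prod (gam n)) := by
    refine Integrable.mono'
      ((M2.integrable_wgt (μ := μ) hh).const_mul (|M| * Real.exp (|R| * ‖th‖ + |u| / 2 * R ^ 2)))
      ?_ ?_
    · have c1 : Continuous fun q : Rn n × Rn n => G (th + Real.sqrt h • q.2) q.1 :=
        hG.comp (f := fun q : Rn n × Rn n => (th + Real.sqrt h • q.2, q.1)) (by fun_prop)
      exact (((M2.measurable_wgt h).mul c1.measurable).mul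
        (by unfold texp; fun_prop)).aestronglyMeasurable
    · refine (Measure.quasiMeasurePreserving_fst (μ := μ) (ν := gam n)).ae hR |>.mono fun q hq => ?_
      have hw : 0 < M2.wgt h q.1 q.2 := Real.exp_pos _
      rw [norm_mul, norm_mul, Real.norm_eq_abs, Real.norm_eq_abs, Real.norm_eq_abs,
        abs_of_pos hw, Real.abs_exp]
      have h1 : ‖q.1‖ ≤ |R| := hq.trans (le_abs_self _)
      have h2 : ‖q.1‖ ^ 2 ≤ R ^ 2 := by
        rw [← sq_abs R]; exact pow_le_pow_left₀ (norm_nonneg _) h1 2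
      have h3 : texp u th q.1 ≤ |R| * ‖th‖ + |u| / 2 * R ^ 2 := by
        unfold texp
        have := (real_inner_le_norm th q.1).trans (mul_le_mul_of_nonneg_left h1 (norm_nonneg th))
        nlinarith [mul_le_mul_of_nonneg_left h2 (abs_nonneg u), neg_le_abs u, sq_nonneg ‖q.1‖]
      rw [show |M| * Real.exp (|R| * ‖th‖ + |u| / 2 * R ^ 2) * M2.wgt h q.1 q.2
        = M2.wgt h q.1 q.2 * |M| * Real.exp (|R| * ‖th‖ + |u| / 2 * R ^ 2) by ring]
      exact mul_le_mul (mul_le_mul_of_nonneg_left ((hM' _ _).trans (le_abs_self _)) hw.le)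
        (Real.exp_le_exp.2 h3) (Real.exp_pos _).le (by positivity)
  simp only [num, e1, ← integral_mul_const]
  rw [integral_integral_swap hint]
  simp only [e2]

/-- Tilt composition: given the new tilt, the law of the point is the tilt at the later time. -/
lemma ex_compose (hb : BddSupp μ) (u h : ℝ) (hh : 0 ≤ h) (th : Rn n)
    {G : Rn n → Rn n → ℝ} (hG : Continuous (Function.uncurry G)) {M : ℝ}
    (hM : ∀ q x, |G q x| ≤ M) :
    ex μ u th (fun x => ∫ z, G (th + h • x + Real.sqrt h • z) x ∂gam n)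
      = ex μ u th (fun x => ∫ z, ex μ (u + h) (th + h • x + Real.sqrt h • z)
          (G (th + h • x + Real.sqrt h • z)) ∂gam n) := by
  have hg : ∀ q, ∀ᵐ x ∂μ, |G q x| ≤ M := fun q => ae_of_all _ (hM q)
  have hgood : ∀ q, Good μ (G q) := fun q =>
    Good.of_continuous hb (hG.comp (continuous_const.prodMk continuous_id))
  have hE : Continuous fun q => ex μ (u + h) q (G q) :=
    continuous_ex_param hb (u + h) continuous_id hG hg
  have hEb : ∀ q, |ex μ (u + h) q (G q)| ≤ M := fun q => abs_ex_le hb (hgood q) (hg q) _ q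
  unfold ex
  congr 1
  rw [integral_mul_wgt hb u h hh th hG hM]
  rw [integral_mul_wgt hb u h hh th (G := fun q _ => num μ (u + h) q (G q) / zt μ (u + h) q)
    (hE.comp continuous_fst) fun q _ => hEb q]
  refine integral_congr_ae (ae_of_all _ fun z => ?_)
  set q := th + Real.sqrt h • z
  show num μ (u + h) q (G q) = num μ (u + h) q fun _ => num μ (u + h) q (G q) / zt μ (u + h) q
  have e : num μ (u + h) q (fun _ => num μ (u + h) q (G q) / zt μ (u + h) q)
      = num μ (u + h) q (G q) / zt μ (u + h) q * zt μ (u + h) q := by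
    simp only [zt, num, one_mul, integral_const_mul]
  rw [e, div_mul_cancel₀ _ (M2.zt_pos hb (u + h) q).ne']

end Vale.Agent.P245.Poly
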