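import Vale.Agent.P245.Poly.Defs
import Vale.Agent.P245.M2.Calc
import Vale.Agent.P245.Gauss
import Vale.Agent.P245.SLC.Basic
import Vale.Agent.P245.SLC.Lsi

/-!
# P245, polylog module C: calculus of tilted expectations and Gaussian smoothing
-/

namespace Vale.Agent.P245.Poly

open MeasureTheory ProbabilityTheory Filter Topology
open scoped RealInnerProductSpace
open M2 (Good)

variable {n : ℕ} {μ : Measure (Rn n)} [IsProbabilityMeasure μ]

/-! ### Tilted expectations -/

omit [IsProbabilityMeasure μ] in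
lemma ex_congr_ae {f g : Rn n → ℝ} (h : f =ᵐ[μ] g) (t : ℝ) (th : Rn n) :
    ex μ t th f = ex μ t th g := by
  unfold ex num
  congr 1
  exact integral_congr_ae (h.mono fun x hx => by simp only [hx])

lemma ex_const (hb : BddSupp μ) (c : ℝ) (t : ℝ) (th : Rn n) :
    ex μ t th (fun _ => c) = c := by
  have h := M2.ex_const_mul (μ := μ) c (fun _ => (1 : ℝ)) t th
  simp only [mul_one] at h
  rw [h, ex, zt, div_self (show num μ t th (fun _ => (1 : ℝ)) ≠ 0 from (M2.zt_pos hb t th).ne'),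
    mul_one]

lemma ex_mono (hb : BddSupp μ) {f g : Rn n → ℝ} (hf : Good μ f) (hg : Good μ g)
    (h : ∀ᵐ x ∂μ, f x ≤ g x) (t : ℝ) (th : Rn n) : ex μ t th f ≤ ex μ t th g := by
  unfold ex
  refine div_le_div_of_nonneg_right ?_ (M2.zt_pos hb t th).le
  exact integral_mono_ae (M2.integrable_num hb hf t th) (M2.integrable_num hb hg t th)
    (h.mono fun x hx => mul_le_mul_of_nonneg_right hx (Real.exp_pos _).le)

lemma ex_nonneg (hb : BddSupp μ) {f : Rn n → ℝ} (h : ∀ᵐ x ∂μ, 0 ≤ f x) (t : ℝ) (th : Rn n) :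
    0 ≤ ex μ t th f :=
  div_nonneg (integral_nonneg_of_ae (h.mono fun _ hx => mul_nonneg hx (Real.exp_pos _).le))
    (M2.zt_pos hb t th).le

lemma abs_ex_le (hb : BddSupp μ) {f : Rn n → ℝ} (hf : Good μ f) {M : ℝ}
    (hM : ∀ᵐ x ∂μ, |f x| ≤ M) (t : ℝ) (th : Rn n) : |ex μ t th f| ≤ M := by
  rw [abs_le]
  constructor
  · rw [← ex_const hb (-M) t th]
    exact ex_mono hb (Good.const _) hf (hM.mono fun x hx => (abs_le.1 hx).1) t th
  · rw [← ex_const hb M t th]
    exact ex_mono hb hf (Good.const _) (hM.mono fun x hx => (abs_le.1 hx).2) t th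

omit [IsProbabilityMeasure μ] in
lemma good_add {f g : Rn n → ℝ} (hf : Good μ f) (hg : Good μ g) :
    Good μ fun x => f x + g x := by
  obtain ⟨M, hM⟩ := hf.2
  obtain ⟨N, hN⟩ := hg.2
  exact ⟨hf.1.add hg.1, M + N, (hM.and hN).mono fun x hx =>
    (norm_add_le _ _).trans (add_le_add hx.1 hx.2)⟩

omit [IsProbabilityMeasure μ] in
lemma good_smul {f : Rn n → ℝ} (hf : Good μ f) (c : ℝ) : Good μ fun x => c * f x :=
  (Good.const c).mul hf

omit [IsProbabilityMeasure μ] in
lemma good_sub {f g : Rn n → ℝ} (hf : Good μ f) (hg : Good μ g) :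
    Good μ fun x => f x - g x := by
  obtain ⟨M, hM⟩ := hf.2
  obtain ⟨N, hN⟩ := hg.2
  exact ⟨hf.1.sub hg.1, M + N, (hM.and hN).mono fun x hx =>
    (norm_sub_le _ _).trans (add_le_add hx.1 hx.2)⟩

omit [IsProbabilityMeasure μ] in
lemma good_sum {ι : Type*} (s : Finset ι) {f : ι → Rn n → ℝ} (hf : ∀ i, Good μ (f i)) :
    Good μ fun x => ∑ i ∈ s, f i x := by
  classical
  induction s using Finset.induction with
  | empty => simpa using Good.const (μ := μ) 0
  | insert a s ha ih =>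
    simpa only [Finset.sum_insert ha] using good_add (hf a) ih

lemma ex_sub (hb : BddSupp μ) {f g : Rn n → ℝ} (hf : Good μ f) (hg : Good μ g) (t : ℝ)
    (th : Rn n) : ex μ t th (fun x => f x - g x) = ex μ t th f - ex μ t th g := by
  have e : (fun x => f x - g x) = fun x => f x + (-1) * g x := funext fun x => by ring
  rw [e, M2.ex_add hb hf (good_smul hg (-1)), M2.ex_const_mul]
  ring

lemma ex_sq_le (hb : BddSupp μ) {f : Rn n → ℝ} (hf : Good μ f) (t : ℝ) (th : Rn n) :
    ex μ t th f ^ 2 ≤ ex μ t th fun x => f x ^ 2 := by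
  set m := ex μ t th f with hm
  have h := ex_nonneg hb (f := fun x => f x ^ 2 + ((-2 * m) * f x + m ^ 2))
    (ae_of_all μ fun x => by
      have h2 : f x ^ 2 + ((-2 * m) * f x + m ^ 2) = (f x - m) ^ 2 := by ring
      rw [h2]; positivity) t th
  have g2 : Good μ fun x => f x ^ 2 := by simpa only [pow_two] using hf.mul hf
  rw [M2.ex_add hb g2 (good_add (good_smul hf _) (Good.const _)),
    M2.ex_add hb (good_smul hf _) (Good.const _), M2.ex_const_mul, ex_const hb, ← hm] at h
  nlinarith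

lemma cv_self (hb : BddSupp μ) {f : Rn n → ℝ} (hf : Good μ f) (t : ℝ) (th : Rn n) :
    0 ≤ cv μ t th f f := by
  have h := ex_sq_le hb hf t th
  simp only [cv, pow_two] at h ⊢
  linarith

omit [IsProbabilityMeasure μ] in
lemma cv_comm (f g : Rn n → ℝ) (t : ℝ) (th : Rn n) : cv μ t th f g = cv μ t th g f := by
  simp only [cv, mul_comm]

lemma cv_sum_left (hb : BddSupp μ) {ι : Type*} (s : Finset ι) (c : ι → ℝ) {f : ι → Rn n → ℝ}
    (hf : ∀ i, Good μ (f i)) {g : Rn n → ℝ} (hg : Good μ g) (t : ℝ) (th : Rn n) :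
    cv μ t th (fun x => ∑ i ∈ s, c i * f i x) g = ∑ i ∈ s, c i * cv μ t th (f i) g := by
  have e : (fun x => (∑ i ∈ s, c i * f i x) * g x) = fun x => ∑ i ∈ s, c i * (f i x * g x) :=
    funext fun x => by rw [Finset.sum_mul]; exact Finset.sum_congr rfl fun i _ => by ring
  simp only [cv]
  rw [e, M2.ex_sum hb s (fun i => good_smul ((hf i).mul hg) (c i)),
    M2.ex_sum hb s (fun i => good_smul (hf i) (c i)), Finset.sum_mul, ← Finset.sum_sub_distrib]
  refine Finset.sum_congr rfl fun i _ => ?_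
  rw [M2.ex_const_mul, M2.ex_const_mul]
  ring

lemma cv_sum_right (hb : BddSupp μ) {ι : Type*} (s : Finset ι) (c : ι → ℝ) {f : ι → Rn n → ℝ}
    (hf : ∀ i, Good μ (f i)) {g : Rn n → ℝ} (hg : Good μ g) (t : ℝ) (th : Rn n) :
    cv μ t th g (fun x => ∑ i ∈ s, c i * f i x) = ∑ i ∈ s, c i * cv μ t th g (f i) := by
  rw [cv_comm, cv_sum_left hb s c hf hg]
  simp only [cv_comm g]

lemma cv_sq_le (hb : BddSupp μ) {f g : Rn n → ℝ} (hf : Good μ f) (hg : Good μ g) (t : ℝ)
    (th : Rn n) : cv μ t th f g ^ 2 ≤ cv μ t th f f * cv μ t th g g := by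
  have key : ∀ s : ℝ, 0 ≤ cv μ t th g g * (s * s) + (2 * cv μ t th f g) * s + cv μ t th f f := by
    intro s
    have hfg : Good μ fun x => f x + s * g x := good_add hf (good_smul hg s)
    have h := cv_self hb hfg t th
    have e : (fun x => (f x + s * g x) * (f x + s * g x))
        = fun x => f x * f x + ((2 * s) * (f x * g x) + (s * s) * (g x * g x)) :=
      funext fun x => by ring
    simp only [cv] at h ⊢
    rw [e, M2.ex_add hb (hf.mul hf)
        (good_add (good_smul (hf.mul hg) _) (good_smul (hg.mul hg) _)),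
      M2.ex_add hb (good_smul (hf.mul hg) _) (good_smul (hg.mul hg) _), M2.ex_const_mul,
      M2.ex_const_mul, M2.ex_add hb hf (good_smul hg s), M2.ex_const_mul] at h
    linarith
  have h := discrim_le_zero key
  unfold discrim at h
  linarith

lemma abs_cv_le (hb : BddSupp μ) {f g : Rn n → ℝ} (hf : Good μ f) (hg : Good μ g) {M N : ℝ}
    (hM0 : 0 ≤ M) (hM : ∀ᵐ x ∂μ, |f x| ≤ M) (hN : ∀ᵐ x ∂μ, |g x| ≤ N) (t : ℝ) (th : Rn n) :
    |cv μ t th f g| ≤ 2 * (M * N) := by
  have h1 := abs_ex_le hb (hf.mul hg) (M := M * N) ((hM.and hN).mono fun x hx => by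
    rw [abs_mul]; exact mul_le_mul hx.1 hx.2 (abs_nonneg _) hM0) t th
  have h2 := abs_ex_le hb hf hM t th
  have h3 := abs_ex_le hb hg hN t th
  unfold cv
  refine (abs_sub _ _).trans ?_
  rw [abs_mul, two_mul]
  exact add_le_add h1 (mul_le_mul h2 h3 (abs_nonneg _) hM0)

/-- Taylor bound from two bounded derivatives. -/
lemma taylor_two {φ φ₁ φ₂ : ℝ → ℝ} {B : ℝ} (h1 : ∀ s, HasDerivAt φ (φ₁ s) s)
    (h2 : ∀ s, HasDerivAt φ₁ (φ₂ s) s) (hB : ∀ s, |φ₂ s| ≤ B) :
    |φ 1 - φ 0 - φ₁ 0| ≤ B := by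
  have hB0 : 0 ≤ B := (abs_nonneg _).trans (hB 0)
  have hd : ∀ r ∈ Set.Icc (0 : ℝ) 1, |φ₁ r - φ₁ 0| ≤ B := by
    intro r hr
    have h := (convex_Icc (0 : ℝ) 1).norm_image_sub_le_of_norm_hasDerivWithin_le
      (f := φ₁) (f' := φ₂) (C := B) (fun s _ => (h2 s).hasDerivWithinAt)
      (fun s _ => by rw [Real.norm_eq_abs]; exact hB s) (Set.left_mem_Icc.2 zero_le_one) hr
    rw [Real.norm_eq_abs, sub_zero, Real.norm_eq_abs, abs_of_nonneg hr.1] at h
    exact h.trans (mul_le_of_le_one_right hB0 hr.2)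
  have h := (convex_Icc (0 : ℝ) 1).norm_image_sub_le_of_norm_hasDerivWithin_le
    (f := fun s => φ s - s * φ₁ 0) (f' := fun s => φ₁ s - 1 * φ₁ 0) (C := B)
    (fun s _ => ((h1 s).sub ((hasDerivAt_id' s).mul_const _)).hasDerivWithinAt)
    (fun s hs => by rw [Real.norm_eq_abs, one_mul]; exact hd s hs)
    (Set.left_mem_Icc.2 zero_le_one) (Set.right_mem_Icc.2 zero_le_one)
  simpa [sub_right_comm] using h

omit [IsProbabilityMeasure μ] in
lemma ae_inner_le {R : ℝ} (hR : ∀ᵐ x ∂μ, ‖x‖ ≤ R) (η : Rn n) :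
    ∀ᵐ x ∂μ, |⟪η, x⟫| ≤ R * ‖η‖ :=
  hR.mono fun x hx => (abs_real_inner_le_norm η x).trans (by
    rw [mul_comm R]; exact mul_le_mul_of_nonneg_left hx (norm_nonneg _))

omit [IsProbabilityMeasure μ] in
lemma good_inner (hb : BddSupp μ) (η : Rn n) : Good μ fun x => ⟪η, x⟫ :=
  Good.of_continuous hb (continuous_const.inner continuous_id)

lemma inner_eq_sum (η x : Rn n) : ⟪η, x⟫ = ∑ k, η k * x k := by
  simp [PiLp.inner_apply, mul_comm]

lemma hasDerivAt_line (hb : BddSupp μ) {f : Rn n → ℝ} (hf : Good μ f) (t : ℝ) (th η : Rn n)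
    (s : ℝ) : HasDerivAt (fun r : ℝ => ex μ t (th + r • η) f)
      (cv μ t (th + s • η) f fun x => ⟪η, x⟫) s := by
  have h := M2.hasDerivAt_ex hb hf t (th + s • η) 0 η
  simp only [mul_zero, add_zero, zero_div, zero_mul, sub_zero] at h
  have h' : HasDerivAt (fun r : ℝ => ex μ t (th + s • η + r • η) f)
      (cv μ t (th + s • η) f fun x => ⟪η, x⟫) (s - s) := by rwa [sub_self]
  have h2 := h'.comp_sub_const s s
  refine h2.congr_of_eventuallyEq (Eventually.of_forall fun r => ?_)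
  show ex μ t (th + r • η) f = ex μ t (th + s • η + (r - s) • η) f
  rw [add_assoc, ← add_smul, add_sub_cancel]

/-- Second order Taylor bound for tilted expectations, uniform in time and tilt. -/
lemma ex_taylor (hb : BddSupp μ) {R : ℝ} (hR0 : 0 ≤ R) (hR : ∀ᵐ x ∂μ, ‖x‖ ≤ R)
    {f : Rn n → ℝ} (hf : Good μ f) {M : ℝ} (hM0 : 0 ≤ M) (hM : ∀ᵐ x ∂μ, |f x| ≤ M)
    (t : ℝ) (th η : Rn n) :
    |ex μ t (th + η) f - ex μ t th f - cv μ t th f (fun x => ⟪η, x⟫)|
      ≤ 8 * M * R ^ 2 * ‖η‖ ^ 2 := by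
  set p : Rn n → ℝ := fun x => ⟪η, x⟫
  have hp : Good μ p := good_inner hb η
  have hfp : Good μ fun x => f x * p x := hf.mul hp
  have hN : ∀ᵐ x ∂μ, |p x| ≤ R * ‖η‖ := ae_inner_le hR η
  have hN0 : 0 ≤ R * ‖η‖ := mul_nonneg hR0 (norm_nonneg _)
  set N := R * ‖η‖
  have hfpM : ∀ᵐ x ∂μ, |f x * p x| ≤ M * N := (hM.and hN).mono fun x hx => by
    rw [abs_mul]; exact mul_le_mul hx.1 hx.2 (abs_nonneg _) hM0
  have h := taylor_two (φ := fun r : ℝ => ex μ t (th + r • η) f)
    (φ₁ := fun r => cv μ t (th + r • η) f p)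
    (φ₂ := fun r => cv μ t (th + r • η) (fun x => f x * p x) p
      - (cv μ t (th + r • η) f p * ex μ t (th + r • η) p
        + ex μ t (th + r • η) f * cv μ t (th + r • η) p p))
    (B := 8 * M * N ^ 2) (fun s => hasDerivAt_line hb hf t th η s)
    (fun s => (hasDerivAt_line hb hfp t th η s).sub
      ((hasDerivAt_line hb hf t th η s).mul (hasDerivAt_line hb hp t th η s))) (fun s => by
      set q := th + s • η
      have a1 := abs_cv_le hb hfp hp (mul_nonneg hM0 hN0) hfpM hN t q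
      have a2 := abs_cv_le hb hf hp hM0 hM hN t q
      have a3 := abs_ex_le hb hp hN t q
      have a4 := abs_ex_le hb hf hM t q
      have a5 := abs_cv_le hb hp hp hN0 hN hN t q
      refine (abs_sub _ _).trans (le_trans (add_le_add a1 ((abs_add_le _ _).trans (add_le_add
        (le_of_eq (abs_mul _ _)) (le_of_eq (abs_mul _ _))))) ?_)
      have b1 := mul_le_mul a2 a3 (abs_nonneg _) (by positivity)
      have b2 := mul_le_mul a4 a5 (abs_nonneg _) hM0
      nlinarith [mul_nonneg hM0 (sq_nonneg N)])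
  simp only [one_smul, zero_smul, add_zero] at h
  refine h.trans (le_of_eq ?_)
  simp only [N, mul_pow]
  ring

lemma ex_lipschitz (hb : BddSupp μ) {R : ℝ} (hR : ∀ᵐ x ∂μ, ‖x‖ ≤ R)
    {f : Rn n → ℝ} (hf : Good μ f) {M : ℝ} (hM0 : 0 ≤ M) (hM : ∀ᵐ x ∂μ, |f x| ≤ M)
    (t : ℝ) (th η : Rn n) :
    |ex μ t (th + η) f - ex μ t th f| ≤ 2 * (M * (R * ‖η‖)) := by
  have h := (convex_Icc (0 : ℝ) 1).norm_image_sub_le_of_norm_hasDerivWithin_le
    (f := fun r : ℝ => ex μ t (th + r • η) f) (f' := fun r => cv μ t (th + r • η) f fun x => ⟪η, x⟫)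
    (C := 2 * (M * (R * ‖η‖))) (fun s _ => (hasDerivAt_line hb hf t th η s).hasDerivWithinAt)
    (fun s _ => by
      rw [Real.norm_eq_abs]
      exact abs_cv_le hb hf (good_inner hb η) hM0 hM (ae_inner_le hR η) t _)
    (Set.left_mem_Icc.2 zero_le_one) (Set.right_mem_Icc.2 zero_le_one)
  simpa using h

lemma vr_tilt_eq (hb : BddSupp μ) (hs : IsSLC 0 μ) {f : Rn n → ℝ} (hf : Good μ f) (t : ℝ)
    (th : Rn n) : vr (tilt μ t th) f = cv μ t th f f := by
  obtain ⟨-, -, -, hi⟩ := tiltSLC n 0 t th μ inferInstance hb hs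
  set m := ex μ t th f with hm
  unfold vr
  rw [hi f, hi]
  have e : (fun x => (f x - m) ^ 2) = fun x => f x * f x + ((-2 * m) * f x + m ^ 2) :=
    funext fun x => by ring
  rw [← hm, e, M2.ex_add hb (hf.mul hf) (good_add (good_smul hf _) (Good.const _)),
    M2.ex_add hb (good_smul hf _) (Good.const _), M2.ex_const_mul, ex_const hb]
  simp only [cv, ← hm]
  ring

/-! ### The class `Cb` -/

lemma Cb.cont : ∀ {k : ℕ} {f : Rn n → ℝ}, Cb k f → Continuous f
  | 0, _, h => h.1
  | _ + 1, _, h => h.2.1.continuous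

lemma Cb.bound : ∀ {k : ℕ} {f : Rn n → ℝ}, Cb k f → ∃ M, ∀ x, |f x| ≤ M
  | 0, _, h => h.2
  | _ + 1, _, h => h.1

lemma Cb.lower : ∀ {k : ℕ} {f : Rn n → ℝ}, Cb (k + 1) f → Cb k f
  | 0, _, h => ⟨h.2.1.continuous, h.1⟩
  | _ + 1, _, h => ⟨h.1, h.2.1, fun i => Cb.lower (h.2.2 i)⟩

lemma Cb.const (c : ℝ) : ∀ k, Cb k (fun _ : Rn n => c)
  | 0 => ⟨continuous_const, |c|, fun _ => le_rfl⟩
  | k + 1 => ⟨⟨|c|, fun _ => le_rfl⟩, contDiff_const, fun i => by
      have : D1 i (fun _ : Rn n => c) = fun _ => (0 : ℝ) := funext fun th => deriv_const 0 c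
      rw [this]; exact Cb.const 0 k⟩

lemma hasDerivAt_lineD1 {f : Rn n → ℝ} (hf : ContDiff ℝ 1 f) (th η : Rn n) (s : ℝ) :
    HasDerivAt (fun r : ℝ => f (th + r • η)) (∑ i, η i * D1 i f (th + s • η)) s := by
  have hd : ∀ (y v : Rn n) (r : ℝ),
      HasDerivAt (fun r : ℝ => f (y + r • v)) (fderiv ℝ f (y + r • v) v) r := fun y v r => by
    have hl : HasDerivAt (fun r : ℝ => y + r • v) v r := by
      simpa using ((hasDerivAt_id' r).smul_const v).const_add y
    exact ((hf.differentiable one_ne_zero _).hasFDerivAt).comp_hasDerivAt r hl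
  have hu : ∀ (y : Rn n) (i : Fin n), D1 i f y = fderiv ℝ f y (unit i) := fun y i => by
    simpa [D1] using (hd y (unit i) 0).deriv
  have hv : η = ∑ i, η i • unit i := by
    conv_lhs => rw [← (EuclideanSpace.basisFun (Fin n) ℝ).sum_repr η]
    simp [unit]
  refine (hd th η s).congr_deriv ?_
  conv_lhs => rw [hv]
  simp only [map_sum, map_smul, smul_eq_mul, hu]
  rw [← hv]

lemma Cb.add : ∀ {k : ℕ} {f g : Rn n → ℝ}, Cb k f → Cb k g → Cb k fun x => f x + g x
  | 0, f, g, hf, hg => by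
      obtain ⟨M, hM⟩ := hf.2
      obtain ⟨N, hN⟩ := hg.2
      exact ⟨hf.1.add hg.1, M + N, fun x => (abs_add_le _ _).trans (add_le_add (hM x) (hN x))⟩
  | k + 1, f, g, hf, hg => by
      obtain ⟨M, hM⟩ := hf.1
      obtain ⟨N, hN⟩ := hg.1
      refine ⟨⟨M + N, fun x => (abs_add_le _ _).trans (add_le_add (hM x) (hN x))⟩,
        hf.2.1.add hg.2.1, fun i => ?_⟩
      have e : D1 i (fun x => f x + g x) = fun th => D1 i f th + D1 i g th := funext fun th =>
        deriv_fun_add (hasDerivAt_lineD1 hf.2.1 th (unit i) 0).differentiableAt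
          (hasDerivAt_lineD1 hg.2.1 th (unit i) 0).differentiableAt
      rw [e]
      exact Cb.add (hf.2.2 i) (hg.2.2 i)

lemma Cb.mul : ∀ {k : ℕ} {f g : Rn n → ℝ}, Cb k f → Cb k g → Cb k fun x => f x * g x
  | 0, f, g, hf, hg => by
      obtain ⟨M, hM⟩ := hf.2
      obtain ⟨N, hN⟩ := hg.2
      exact ⟨hf.1.mul hg.1, M * N, fun x => by
        rw [abs_mul]; exact mul_le_mul (hM x) (hN x) (abs_nonneg _) ((abs_nonneg _).trans (hM x))⟩
  | k + 1, f, g, hf, hg => by
      obtain ⟨M, hM⟩ := hf.1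
      obtain ⟨N, hN⟩ := hg.1
      refine ⟨⟨M * N, fun x => by
        rw [abs_mul]; exact mul_le_mul (hM x) (hN x) (abs_nonneg _) ((abs_nonneg _).trans (hM x))⟩,
        hf.2.1.mul hg.2.1, fun i => ?_⟩
      have e : D1 i (fun x => f x * g x) = fun th => D1 i f th * g th + f th * D1 i g th :=
        funext fun th => by
          refine (deriv_fun_mul (hasDerivAt_lineD1 hf.2.1 th (unit i) 0).differentiableAt
            (hasDerivAt_lineD1 hg.2.1 th (unit i) 0).differentiableAt).trans ?_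
          simp [D1]
      rw [e]
      exact Cb.add (Cb.mul (hf.2.2 i) (Cb.lower hg)) (Cb.mul (Cb.lower hf) (hg.2.2 i))

lemma Cb.sum {ι : Type*} (s : Finset ι) {k : ℕ} {f : ι → Rn n → ℝ} (hf : ∀ i, Cb k (f i)) :
    Cb k fun x => ∑ i ∈ s, f i x := by
  classical
  induction s using Finset.induction with
  | empty => simpa using Cb.const (n := n) 0 k
  | insert a s ha ih => simpa only [Finset.sum_insert ha] using Cb.add (hf a) ih

lemma Cb.ex (hb : BddSupp μ) (t : ℝ) :
    ∀ (k : ℕ) {h : Rn n → ℝ}, Good μ h → Cb k fun q => Vale.Agent.P245.ex μ t q h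
  | 0, h, hh => by
      obtain ⟨M, hM⟩ := hh.2
      exact ⟨((M2.contDiff_ex hb hh).continuous).comp (continuous_const.prodMk continuous_id),
        M, fun q => abs_ex_le hb hh (hM.mono fun x hx => by simpa using hx) t q⟩
  | k + 1, h, hh => by
      obtain ⟨M, hM⟩ := hh.2
      refine ⟨⟨M, fun q => abs_ex_le hb hh (hM.mono fun x hx => by simpa using hx) t q⟩,
        ((M2.contDiff_ex hb hh).comp (contDiff_const.prodMk contDiff_id)).of_le (by norm_num),
        fun i => ?_⟩
      have hc := Good.coord hb (μ := μ) i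
      have e : D1 i (fun q => Vale.Agent.P245.ex μ t q h)
          = fun q => Vale.Agent.P245.ex μ t q (fun x => h x * x i)
            + (-1) * (Vale.Agent.P245.ex μ t q h * Vale.Agent.P245.ex μ t q fun x => x i) :=
        funext fun q => by rw [M2.D1_ex hb hh]; simp only [cv]; ring
      rw [e]
      exact Cb.add (Cb.ex hb t k (hh.mul hc))
        (Cb.mul (Cb.const _ k) (Cb.mul (Cb.ex hb t k hh) (Cb.ex hb t k hc)))

lemma cb_hess (hb : BddSupp μ) (t : ℝ) (j l : Fin n) (k : ℕ) : Cb k (hess μ t j l) := by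
  have e : hess μ t j l = fun q => Vale.Agent.P245.ex μ t q (fun x => x j * x l)
      + (-1) * (Vale.Agent.P245.ex μ t q (fun x => x j) * Vale.Agent.P245.ex μ t q fun x => x l) :=
    funext fun q => by simp only [hess, cv]; ring
  rw [e]
  exact Cb.add (Cb.ex hb t k ((Good.coord hb j).mul (Good.coord hb l)))
    (Cb.mul (Cb.const _ k) (Cb.mul (Cb.ex hb t k (Good.coord hb j))
      (Cb.ex hb t k (Good.coord hb l))))

omit [IsProbabilityMeasure μ] in
lemma hess_comm (t : ℝ) (j l : Fin n) : hess μ t j l = hess μ t l j :=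
  funext fun q => cv_comm _ _ t q

/-- The third tensor is totally symmetric. -/
lemma D1_hess_comm (hb : BddSupp μ) (t : ℝ) (j l k : Fin n) :
    D1 k (hess μ t j l) = D1 j (hess μ t k l) := by
  funext q
  have hd : ∀ a b c : Fin n, D1 c (hess μ t a b) q
      = cv μ t q (fun x => x a * x b) (fun x => x c)
        - (cv μ t q (fun x => x a) (fun x => x c) * Vale.Agent.P245.ex μ t q (fun x => x b)
          + Vale.Agent.P245.ex μ t q (fun x => x a) * cv μ t q (fun x => x b) fun x => x c) := by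
    intro a b c
    have ha := Good.coord hb (μ := μ) a
    have hb' := Good.coord hb (μ := μ) b
    have h := (M2.hasDerivAt_ex_coord hb (ha.mul hb') t q c).sub
      ((M2.hasDerivAt_ex_coord hb ha t q c).mul (M2.hasDerivAt_ex_coord hb hb' t q c))
    simp only [zero_smul, add_zero] at h
    exact h.deriv
  rw [hd, hd]
  simp only [cv]
  rw [show (fun x : Rn n => x j * x l * x k) = fun x => x k * x l * x j from funext fun x => by ring,
    show (fun x : Rn n => x j * x k) = fun x => x k * x j from funext fun x => mul_comm _ _,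
    show (fun x : Rn n => x l * x k) = fun x => x k * x l from funext fun x => mul_comm _ _,
    show (fun x : Rn n => x l * x j) = fun x => x j * x l from funext fun x => mul_comm _ _]
  ring

/-! ### Gaussian smoothing -/

omit [IsProbabilityMeasure μ] in
lemma integrable_gam_bdd {f : Rn n → ℝ} (hf : Continuous f) {M : ℝ} (hM : ∀ x, |f x| ≤ M) :
    Integrable f (gam n) :=
  Integrable.of_bound hf.aestronglyMeasurable M (ae_of_all _ fun x => by simpa using hM x)

omit [IsProbabilityMeasure μ] in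
lemma abs_smo_le {f : Rn n → ℝ} {M : ℝ} (hM : ∀ x, |f x| ≤ M) (σ : ℝ) (y : Rn n) :
    |smo σ f y| ≤ M := by
  unfold smo
  have h := norm_integral_le_of_norm_le_const (μ := stdGaussian (Rn n))
    (f := fun z => f (y + Real.sqrt σ • z)) (C := M)
    (ae_of_all _ fun z => by simpa using hM _)
  simpa using h

omit [IsProbabilityMeasure μ] in
lemma continuous_smo {f : Rn n → ℝ} (hf : Continuous f) {M : ℝ} (hM : ∀ x, |f x| ≤ M) :
    Continuous fun p : ℝ × Rn n => smo p.1 f p.2 := by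
  unfold smo
  refine continuous_of_dominated (bound := fun _ => M) (fun p => ?_) (fun p => ?_)
    (integrable_const _) (ae_of_all _ fun z => ?_)
  · exact (hf.comp (by fun_prop)).aestronglyMeasurable
  · exact ae_of_all _ fun z => by simpa using hM _
  · exact hf.comp (by fun_prop)

omit [IsProbabilityMeasure μ] in
lemma gauss_merge (a b : ℝ) :
    ((gam n).prod (gam n)).map (fun p => a • p.1 + b • p.2)
      = (gam n).map fun z => Real.sqrt (a ^ 2 + b ^ 2) • z := by
  have h1 : ((gam n).prod (gam n)).map (fun p => a • p.1 + b • p.2)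
      = ((gam n).map (a • ·)) ∗ ((gam n).map (b • ·)) := by
    rw [Measure.conv, Measure.map_prod_map _ _ (by fun_prop) (by fun_prop),
      Measure.map_map (by fun_prop) (by fun_prop)]
    rfl
  have hprob : ∀ c : ℝ, IsProbabilityMeasure ((gam n).map (c • ·)) := fun c =>
    Measure.isProbabilityMeasure_map (by fun_prop)
  have := hprob a
  have := hprob b
  have := hprob (Real.sqrt (a ^ 2 + b ^ 2))
  rw [h1]
  apply Measure.ext_of_charFun
  funext u
  rw [charFun_conv, charFun_map_smul, charFun_map_smul, charFun_map_smul, charFun_stdGaussian,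
    charFun_stdGaussian, charFun_stdGaussian, ← Complex.exp_add]
  congr 1
  simp only [norm_smul, Real.norm_eq_abs, ← Complex.ofReal_pow, ← Complex.ofReal_neg, mul_pow,
    sq_abs, Real.sq_sqrt (add_nonneg (sq_nonneg a) (sq_nonneg b))]
  push_cast
  ring

omit [IsProbabilityMeasure μ] in
lemma integral_smo_shift {f : Rn n → ℝ} (hf : Continuous f) {M : ℝ} (hM : ∀ x, |f x| ≤ M)
    {σ : ℝ} (hσ : 0 ≤ σ) (c : ℝ) (y : Rn n) :
    ∫ ξ, smo σ f (y + c • ξ) ∂gam n = smo (σ + c ^ 2) f y := by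
  have hint : Integrable (fun p : Rn n × Rn n => f (y + (c • p.1 + Real.sqrt σ • p.2)))
      ((gam n).prod (gam n)) :=
    Integrable.of_bound (hf.comp (by fun_prop)).aestronglyMeasurable M
      (ae_of_all _ fun p => by simpa using hM _)
  have h := integral_map (μ := (gam n).prod (gam n))
    (φ := fun p : Rn n × Rn n => c • p.1 + Real.sqrt σ • p.2) (by fun_prop)
    (f := fun w => f (y + w)) (hf.comp (by fun_prop)).aestronglyMeasurable
  rw [gauss_merge] at h
  have h' := integral_map (μ := gam n)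
    (φ := fun z : Rn n => Real.sqrt (c ^ 2 + Real.sqrt σ ^ 2) • z) (by fun_prop)
    (f := fun w => f (y + w)) (hf.comp (by fun_prop)).aestronglyMeasurable
  rw [h', integral_prod _ hint] at h
  unfold smo
  rw [show σ + c ^ 2 = c ^ 2 + Real.sqrt σ ^ 2 by rw [Real.sq_sqrt hσ]; ring]
  simp only [add_assoc]
  exact h.symm

end Vale.Agent.P245.Poly
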