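import Vale.Agent.P245.Poly.Secant

/-!
# P245, polylog module C: derivative bounds for the secant martingale
-/

namespace Vale.Agent.P245.Poly

open MeasureTheory ProbabilityTheory Filter Topology
open scoped RealInnerProductSpace
open M2 (Good)

variable {n : ℕ} {μ : Measure (Rn n)}

/-- A row of the Hessian, contracted with a vector. -/
noncomputable def hv (μ : Measure (Rn n)) (t : ℝ) (v : Rn n) (j : Fin n) (y : Rn n) : ℝ :=
  ∑ l, v l * hess μ t j l y

lemma D1_sum {ι : Type*} [Fintype ι] (c : ι → ℝ) {F : ι → Rn n → ℝ}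
    (hF : ∀ i, ContDiff ℝ 1 (F i)) (k : Fin n) :
    D1 k (fun y => ∑ i, c i * F i y) = fun y => ∑ i, c i * D1 k (F i) y :=
  funext fun y => (HasDerivAt.fun_sum fun i _ =>
    (((hasDerivAt_lineD1 (hF i) y (unit k) 0).differentiableAt.hasDerivAt).const_mul (c i))).deriv

/-- Averaging against `1 - r` does not increase the sum of squares. -/
lemma sum_sq_avg_le {ι : Type*} [Fintype ι] {f : ι → ℝ → ℝ} (hf : ∀ i, Continuous (f i)) {B : ℝ}
    (hB : ∀ r ∈ Set.Icc (0 : ℝ) 1, ∑ i, f i r ^ 2 ≤ B) :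
    ∑ i, (∫ r in (0 : ℝ)..1, (1 - r) * f i r) ^ 2 ≤ B := by
  set P : ι → ℝ := fun i => ∫ r in (0 : ℝ)..1, (1 - r) * f i r with hP
  have hii : ∀ i, IntervalIntegrable (fun r : ℝ => P i * ((1 - r) * f i r)) volume 0 1 := fun i =>
    (continuous_const.mul ((continuous_const.sub continuous_id).mul (hf i))).intervalIntegrable _ _
  have e : ∑ i, P i ^ 2 = ∫ r in (0 : ℝ)..1, ∑ i, P i * ((1 - r) * f i r) := by
    rw [intervalIntegral.integral_finsetSum fun i _ => hii i]
    simp only [intervalIntegral.integral_const_mul, pow_two]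
    rfl
  have h1 : ∀ r ∈ Set.Icc (0 : ℝ) 1,
      ∑ i, P i * ((1 - r) * f i r) ≤ (∑ i, P i ^ 2) / 2 + B / 2 := by
    intro r hr
    have h2 : ∀ i, P i * ((1 - r) * f i r) ≤ P i ^ 2 / 2 + f i r ^ 2 / 2 := fun i => by
      have h3 : ((1 - r) * f i r) ^ 2 ≤ f i r ^ 2 := by
        rw [mul_pow]
        exact mul_le_of_le_one_left (sq_nonneg _) (by nlinarith [hr.1, hr.2])
      nlinarith [sq_nonneg (P i - (1 - r) * f i r)]
    refine (Finset.sum_le_sum fun i _ => h2 i).trans ?_
    rw [Finset.sum_add_distrib, ← Finset.sum_div, ← Finset.sum_div]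
    linarith [hB r hr]
  have h4 : ∑ i, P i ^ 2 ≤ (∑ i, P i ^ 2) / 2 + B / 2 := by
    conv_lhs => rw [e]
    refine (intervalIntegral.integral_mono_on zero_le_one ?_ intervalIntegrable_const h1).trans
      (le_of_eq (by simp))
    simpa only [Finset.sum_fn] using IntervalIntegrable.sum _ fun i _ => hii i
  simp only [hP] at h4
  linarith

variable [IsProbabilityMeasure μ]

lemma dsec_eq (hb : BddSupp μ) (t t' u : ℝ) (th xi : Rn n) (j l k : Fin n) :
    dsec μ t t' u th xi j l k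
      = dsecF μ ((t' - t) / 2) (t' - u) u (hess μ t' j l) k th xi := by
  obtain ⟨R₀, hR₀⟩ := id hb
  obtain ⟨K, hK⟩ := B2.exists_of_cb (cb_hess hb t' j l 2)
  refine dsec_eq_of ?_
  simp only [secant_eq hb]
  exact sec_lipschitz hb (abs_nonneg R₀) (hR₀.mono fun x hx => hx.trans (le_abs_self _)) hK th xi k

lemma dsecF_sum (hb : BddSupp μ) {ι : Type*} [Fintype ι] (c : ι → ℝ) {F : ι → Rn n → ℝ}
    (hF : ∀ i, Cb 1 (F i)) (s a u : ℝ) (k : Fin n) (th xi : Rn n) :
    dsecF μ s a u (fun y => ∑ i, c i * F i y) k th xi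
      = ∑ i, c i * dsecF μ s a u (F i) k th xi := by
  have hc : ∀ i, Continuous (F i) ∧ ∃ M, ∀ y, |F i y| ≤ M := fun i => ⟨(hF i).cont, (hF i).1⟩
  have hd : ∀ i, Continuous (D1 k (F i)) ∧ ∃ M, ∀ y, |D1 k (F i) y| ≤ M :=
    fun i => (hF i).2.2 k
  have ga : ∀ i, Good μ fun x => avg s a (F i) (th + a • x) xi := fun i => by
    obtain ⟨M, hM⟩ := (hF i).1
    exact good_avg hb (hF i).cont hM th xi
  have gd : ∀ i, Good μ fun x => avg s a (D1 k (F i)) (th + a • x) xi := fun i => by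
    obtain ⟨M, hM⟩ := (hd i).2
    exact good_avg hb (hd i).1 hM th xi
  unfold dsecF sec
  simp only [D1_sum c fun i => (hF i).2.1, avg_sum c hc, avg_sum c hd]
  rw [cv_sum_left hb _ c ga (Good.coord hb k), M2.ex_sum hb _ fun i => good_smul (gd i) _]
  simp only [M2.ex_const_mul, mul_add, Finset.sum_add_distrib]

lemma sum_cv_coord_sq_le (hb : BddSupp μ) {lam t : ℝ} {th : Rn n} (hlam : 0 ≤ lam)
    (h : ∀ w : Rn n, cv μ t th (fun x => ⟪x, w⟫) (fun x => ⟪x, w⟫) ≤ lam * ‖w‖ ^ 2)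
    {f : Rn n → ℝ} (hf : Good μ f) :
    ∑ k, cv μ t th f (fun x => x k) ^ 2 ≤ lam * cv μ t th f f := by
  set c : Fin n → ℝ := fun k => cv μ t th f fun x => x k with hc
  set w : Rn n := WithLp.toLp 2 c with hw
  have e : cv μ t th f (fun x => ⟪x, w⟫) = ∑ k, c k ^ 2 := by
    rw [show (fun x : Rn n => ⟪x, w⟫) = fun x => ∑ k, c k * x k from funext fun x => by
      rw [real_inner_comm, inner_eq_sum], cv_sum_right hb _ c (fun k => Good.coord hb k) hf]
    simp only [hc, pow_two]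
  have nw : ‖w‖ ^ 2 = ∑ k, c k ^ 2 := by simp [hw, EuclideanSpace.norm_sq_eq]
  have h1 := cv_sq_le hb hf (Good.of_continuous hb (f := fun x : Rn n => ⟪x, w⟫) (by fun_prop)) t th
  have h2 := h w
  rw [e] at h1
  rw [nw] at h2
  have h0 := cv_self hb hf t th
  have h3 := mul_le_mul_of_nonneg_left h2 h0
  rcases (Finset.sum_nonneg fun k _ => sq_nonneg (c k) : 0 ≤ ∑ k, c k ^ 2).eq_or_lt with hS | hS
  · rw [← hS]; exact mul_nonneg hlam h0
  · exact le_of_mul_le_mul_right (by linarith) hS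

lemma cb_hv (hb : BddSupp μ) (t : ℝ) (v : Rn n) (j : Fin n) (k : ℕ) : Cb k (hv μ t v j) :=
  Cb.sum _ fun l => Cb.mul (Cb.const (v l) k) (cb_hess hb t j l k)

lemma D1_hv_comm (hb : BddSupp μ) (t : ℝ) (v : Rn n) (j k : Fin n) :
    D1 k (hv μ t v j) = D1 j (hv μ t v k) := by
  unfold hv
  rw [D1_sum _ fun l => (cb_hess hb t j l 1).2.1, D1_sum _ fun l => (cb_hess hb t k l 1).2.1]
  simp only [fun l => D1_hess_comm hb t j l k]

lemma sum_hv_sq_le (hb : BddSupp μ) (hs : IsSLC 0 μ) {t : ℝ} (ht : 0 < t) {v : Rn n}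
    (hv1 : ‖v‖ = 1) (y : Rn n) : ∑ j, hv μ t v j y ^ 2 ≤ (1 / t) ^ 2 := by
  obtain ⟨hpr, hbd, hslc, -⟩ := tiltSLC n 0 t y μ inferInstance hb hs
  rw [zero_add] at hslc
  have hl : ∀ w : Rn n, cv μ t y (fun x => ⟪x, w⟫) (fun x => ⟪x, w⟫) ≤ 1 / t * ‖w‖ ^ 2 :=
    fun w => by
      rw [← vr_tilt_eq hb hs (Good.of_continuous hb (f := fun x : Rn n => ⟪x, w⟫) (by fun_prop))]
      exact linVarSLC n t _ hpr ht hslc hbd w
  have e : ∀ j, hv μ t v j y = cv μ t y (fun x => ⟪x, v⟫) fun x => x j := fun j => by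
    rw [cv_comm, show (fun x : Rn n => ⟪x, v⟫) = fun x => ∑ l, v l * x l from funext fun x => by
      rw [real_inner_comm, inner_eq_sum],
      cv_sum_right hb _ (fun l => v l) (fun l => Good.coord hb l) (Good.coord hb j)]
    rfl
  simp only [e]
  refine (sum_cv_coord_sq_le hb (by positivity) hl
    (Good.of_continuous hb (by fun_prop))).trans ?_
  have := mul_le_mul_of_nonneg_left (hl v) (one_div_pos.2 ht).le
  rw [hv1] at this
  linarith

omit [IsProbabilityMeasure μ] in
/-- The averaged smoothing is a test function, with an explicit gradient. -/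
lemma test_avg {s a K : ℝ} {H : Rn n → ℝ} (h : B2 H K) (h1 : ∀ k, B2 (D1 k H) K)
    (th xi : Rn n) :
    Test (fun x => avg s a H (th + a • x) xi) ∧ ∀ x,
      ‖fderiv ℝ (fun x => avg s a H (th + a • x) xi) x‖ ^ 2
        = a ^ 2 * ∑ k, avg s a (D1 k H) (th + a • x) xi ^ 2 := by
  set w : Rn n → Rn n := fun x => WithLp.toLp 2 fun k => a * avg s a (D1 k H) (th + a • x) xi
    with hw
  have hwc : Continuous w :=
    (PiLp.continuous_toLp 2 _).comp (continuous_pi fun k => continuous_const.mul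
      ((continuous_avg (h.cont1 k) (h.bd1 k)).comp (f := fun x : Rn n => (th + a • x, xi))
        (by fun_prop)))
  have hd : ∀ x, HasFDerivAt (fun x => avg s a H (th + a • x) xi) (innerSL ℝ (w x)) x := by
    intro x
    rw [hasFDerivAt_iff_isLittleO_nhds_zero]
    refine (Asymptotics.IsBigO.of_bound (K * a ^ 2) (Eventually.of_forall fun η => ?_))
      |>.trans_isLittleO (Asymptotics.isLittleO_norm_pow_id one_lt_two)
    have ht := avg_taylor (s := s) (a := a) h (th + a • x) (a • η) xi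
    have e : innerSL ℝ (w x) η = ∑ i, (a • η) i * avg s a (D1 i H) (th + a • x) xi := by
      rw [innerSL_apply_apply, inner_eq_sum]
      refine Finset.sum_congr rfl fun i _ => ?_
      simp only [hw, PiLp.smul_apply, smul_eq_mul]
      ring
    rw [Real.norm_eq_abs, norm_pow, norm_norm, e, smul_add, ← add_assoc]
    refine ht.trans (le_of_eq ?_)
    rw [norm_smul, mul_pow, Real.norm_eq_abs, sq_abs]
    ring
  have hn : ∀ x, ‖innerSL ℝ (w x)‖ ^ 2 = a ^ 2 * ∑ k, avg s a (D1 k H) (th + a • x) xi ^ 2 :=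
    fun x => by
      rw [innerSL_apply_norm, Finset.mul_sum, EuclideanSpace.norm_sq_eq]
      simp [hw, mul_pow]
  refine ⟨⟨contDiff_one_iff_hasFDerivAt.2 ⟨fun x => innerSL ℝ (w x),
    (innerSL ℝ).continuous.comp hwc, hd⟩, ?_⟩, fun x => by rw [(hd x).fderiv, hn x]⟩
  have hK := h.nonneg
  have hcoord : ∀ {z : Rn n} {M : ℝ}, (∀ k, |z k| ≤ M) → ‖z‖ ≤ n * M := fun {z M} hz => by
    have h2 : ∑ k, |z k| ≤ n * M := (Finset.sum_le_sum fun k _ => hz k).trans (le_of_eq (by simp))
    refine le_trans ?_ h2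
    rw [← abs_of_nonneg (norm_nonneg z),
      ← abs_of_nonneg (Finset.sum_nonneg fun k _ => abs_nonneg (z k) : 0 ≤ ∑ k, |z k|),
      ← sq_le_sq, EuclideanSpace.norm_sq_eq]
    simpa [sq_abs] using
      Finset.sum_sq_le_sq_sum_of_nonneg (s := Finset.univ) fun k _ => abs_nonneg (z k)
  refine ⟨K + n * (|a| * K) + n * (|a| * (K * |a|)), fun x => ⟨?_, ?_, fun y => ?_⟩⟩
  · exact (abs_avg_le h.bd _ _).trans (by nlinarith [mul_nonneg (mul_nonneg
      (Nat.cast_nonneg (α := ℝ) n) (abs_nonneg a)) hK, mul_nonneg (mul_nonneg (mul_nonneg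
      (Nat.cast_nonneg (α := ℝ) n) (abs_nonneg a)) hK) (abs_nonneg a)])
  · rw [(hd x).fderiv, innerSL_apply_norm]
    refine (hcoord (M := |a| * K) fun k => ?_).trans (by nlinarith [mul_nonneg (mul_nonneg
      (mul_nonneg (Nat.cast_nonneg (α := ℝ) n) (abs_nonneg a)) hK) (abs_nonneg a)])
    simp only [hw, abs_mul]
    exact mul_le_mul_of_nonneg_left (abs_avg_le (h.bd1 k) _ _) (abs_nonneg _)
  · rw [(hd x).fderiv, (hd y).fderiv, ← map_sub, innerSL_apply_norm]
    refine (hcoord (M := |a| * (K * |a|) * ‖x - y‖) fun k => ?_).trans ?_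
    · simp only [hw, PiLp.sub_apply, ← mul_sub, abs_mul]
      rw [mul_assoc, mul_assoc K]
      refine mul_le_mul_of_nonneg_left ?_ (abs_nonneg _)
      have hl := avg_lip (s := s) (a := a) (h1 k) (th + a • y) (a • (x - y)) xi
      rw [show th + a • y + a • (x - y) = th + a • x by rw [smul_sub]; abel, norm_smul,
        Real.norm_eq_abs] at hl
      exact hl
    · rw [← mul_assoc]
      exact mul_le_mul_of_nonneg_right (by nlinarith [mul_nonneg (mul_nonneg
        (Nat.cast_nonneg (α := ℝ) n) (abs_nonneg a)) hK]) (norm_nonneg _)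

/-- Bound on the derivative by the averaged third derivative. -/
lemma col_le (hP : ImprovedPoincare) (hb : BddSupp μ) (hs : IsSLC 0 μ) {s a u t' lam : ℝ}
    (hu : 0 < u) (ha : a ^ 2 ≤ t' ^ 2) (hlam : 0 ≤ lam) {th : Rn n}
    (hl : ∀ w : Rn n, vr (tilt μ u th) (fun x => ⟪x, w⟫) ≤ lam * ‖w‖ ^ 2)
    {H : Rn n → ℝ} (hH : Cb 3 H) (xi : Rn n) :
    ∑ k, dsecF μ s a u H k th xi ^ 2 ≤ 2 * (1 + lam * Real.sqrt (lam / u) * t' ^ 2) *
      ex μ u th fun x => ∑ k, avg s a (D1 k H) (th + a • x) xi ^ 2 := by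
  obtain ⟨K0, hK0⟩ := B2.exists_of_cb (Cb.lower hH)
  obtain ⟨K1, hK1n, hK1⟩ := B2.exists_uniform (H := fun k => D1 k H) hH.2.2
  have h : B2 H (K0 + K1) := hK0.mono (by linarith)
  have h1 : ∀ k, B2 (D1 k H) (K0 + K1) := fun k => (hK1 k).mono (by linarith [hK0.nonneg])
  have hF : Good μ fun x => avg s a H (th + a • x) xi := good_avg hb h.cont h.bd th xi
  have hPk : ∀ k, Good μ fun x => avg s a (D1 k H) (th + a • x) xi := fun k =>
    good_avg hb (h.cont1 k) (h.bd1 k) th xi
  set F : Rn n → ℝ := fun x => avg s a H (th + a • x) xi with hFdef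
  set P : Fin n → Rn n → ℝ := fun k x => avg s a (D1 k H) (th + a • x) xi with hPdef
  set Q := ex μ u th fun x => ∑ k, P k x ^ 2 with hQ
  have gP2 : ∀ k, Good μ fun x => P k x ^ 2 := fun k => by
    simpa only [pow_two] using (hPk k).mul (hPk k)
  have q1 : ∑ k, ex μ u th (P k) ^ 2 ≤ Q := by
    rw [hQ, M2.ex_sum hb _ gP2]
    exact Finset.sum_le_sum fun k _ => ex_sq_le hb (hPk k) u th
  have hlc : ∀ w : Rn n, cv μ u th (fun x => ⟪x, w⟫) (fun x => ⟪x, w⟫) ≤ lam * ‖w‖ ^ 2 := fun w => by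
    rw [← vr_tilt_eq hb hs (Good.of_continuous hb (f := fun x : Rn n => ⟪x, w⟫) (by fun_prop))]
    exact hl w
  have q2 := sum_cv_coord_sq_le hb hlam hlc hF
  obtain ⟨hpr, hbd, hslc, hint⟩ := tiltSLC n 0 u th μ inferInstance hb hs
  rw [zero_add] at hslc
  obtain ⟨htest, hgrad⟩ := test_avg (s := s) (a := a) h h1 th xi
  have q3 : cv μ u th F F ≤ Real.sqrt (lam / u) * (a ^ 2 * Q) := by
    rw [← vr_tilt_eq hb hs hF]
    refine (hP n u lam _ hpr hu hlam hslc hbd hl F htest).trans (le_of_eq ?_)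
    unfold energy
    simp only [hFdef, hgrad]
    rw [hint, M2.ex_const_mul]
  have hQ0 : 0 ≤ Q := ex_nonneg hb (ae_of_all _ fun x => Finset.sum_nonneg fun k _ => sq_nonneg _) _ _
  have q4 : lam * cv μ u th F F ≤ lam * Real.sqrt (lam / u) * t' ^ 2 * Q := by
    refine (mul_le_mul_of_nonneg_left q3 hlam).trans ?_
    rw [← mul_assoc, ← mul_assoc]
    exact mul_le_mul_of_nonneg_right (mul_le_mul_of_nonneg_left ha (by positivity)) hQ0
  calc ∑ k, dsecF μ s a u H k th xi ^ 2
      ≤ ∑ k, (2 * ex μ u th (P k) ^ 2 + 2 * cv μ u th F (fun x => x k) ^ 2) :=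
        Finset.sum_le_sum fun k _ => by
          show (ex μ u th (P k) + cv μ u th F fun x => x k) ^ 2 ≤ _
          nlinarith [sq_nonneg (ex μ u th (P k) - cv μ u th F fun x => x k)]
    _ ≤ _ := by
        rw [Finset.sum_add_distrib, ← Finset.mul_sum, ← Finset.mul_sum]
        nlinarith [q1, q2, q4]

/-- Shrinking smoothing keeps the averaged third derivative bounded. -/
lemma grad_avg_le (hG : SmoothGrad) (hb : BddSupp μ) (hs : IsSLC 0 μ) {s a t : ℝ} (hs0 : 0 < s)
    (hsa : 2 * s ≤ a) (ht : 0 < t) {v : Rn n} (hv1 : ‖v‖ = 1) (y xi : Rn n) :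
    ∑ j, ∑ k, avg s a (D1 k (hv μ t v j)) y xi ^ 2 ≤ (1 / t) ^ 2 / s := by
  have hc : ∀ j k, ∃ M, Continuous (D1 k (hv μ t v j)) ∧ ∀ z, |D1 k (hv μ t v j) z| ≤ M :=
    fun j k => let ⟨hc, M, hM⟩ := (cb_hv hb t v j 1).2.2 k; ⟨M, hc, hM⟩
  choose M hc hM using hc
  rw [← Fintype.sum_prod_type' (f := fun j k => avg s a (D1 k (hv μ t v j)) y xi ^ 2)]
  unfold avg
  refine sum_sq_avg_le (f := fun (q : Fin n × Fin n) r =>
      smo (a - s * r ^ 2) (D1 q.2 (hv μ t v q.1)) (y + (Real.sqrt s * r) • xi))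
    (fun q => (continuous_smo (hc q.1 q.2) (hM q.1 q.2)).comp
      (f := fun r : ℝ => (a - s * r ^ 2, y + (Real.sqrt s * r) • xi)) (by fun_prop))
    fun r hr => ?_
  have hr2 : s * r ^ 2 ≤ s := mul_le_of_le_one_right hs0.le (pow_le_one₀ hr.1 hr.2)
  rw [Fintype.sum_prod_type]
  refine (hG n (hv μ t v) (1 / t) (fun j k => cb_hv hb t v j k) (by positivity)
    (sum_hv_sq_le hb hs ht hv1) _ _ (by linarith)).trans ?_
  exact div_le_div_of_nonneg_left (sq_nonneg _) hs0 (by linarith)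

omit [IsProbabilityMeasure μ] in
lemma good_gam_integral (hb : BddSupp μ) {Q : Rn n → Rn n → ℝ}
    (hQc : Continuous (Function.uncurry Q)) {M : ℝ} (hQb : ∀ xi x, |Q xi x| ≤ M) :
    Good μ fun x => ∫ xi, Q xi x ∂gam n :=
  Good.of_continuous hb (continuous_of_dominated (bound := fun _ => M)
    (F := fun (x : Rn n) (xi : Rn n) => Q xi x)
    (fun x => (hQc.comp (f := fun xi : Rn n => (xi, x)) (by fun_prop)).aestronglyMeasurable)
    (fun x => ae_of_all _ fun xi => hQb xi x)
    (integrable_const _)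
    (ae_of_all _ fun xi => hQc.comp (f := fun x : Rn n => (xi, x)) (by fun_prop)))

attribute [local irreducible] hess hv smo avg dsec dsecF in
theorem secantBounds (hG : SmoothGrad) (hW : SmoothW) (hP : ImprovedPoincare) : SecantBounds := by
  obtain ⟨C0, hC0, hW⟩ := hW
  refine ⟨4 + 2 * C0, by linarith, fun n μ hμ hslc hb t t' u lam th hu hut htt ht1 hlam hl v hv1 =>
    ?_⟩
  set s := (t' - t) / 2 with hs
  set a := t' - u with ha
  have hs0 : 0 < s := by simp only [hs]; linarith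
  have hsa : 2 * s ≤ a := by simp only [hs, ha]; linarith
  have ht' : 0 < t' := by linarith
  have ha2 : a ^ 2 ≤ t' ^ 2 := pow_le_pow_left₀ (by linarith) (by simp only [ha]; linarith) 2
  set L := 1 + lam * Real.sqrt (lam / u) * t' ^ 2 with hL
  have hL0 : 0 ≤ L := by positivity
  have hrow : ∀ xi j k, ∑ l, v l * dsec μ t t' u th xi j l k
      = dsecF μ s a u (hv μ t' v j) k th xi := fun xi j k => by
    simp only [dsec_eq hb, ← hs, ← ha]
    unfold hv
    exact (dsecF_sum hb (fun l => v l) (fun l => cb_hess hb t' j l 1) s a u k th xi).symm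
  have gP : ∀ j k xi, Good μ fun x => avg s a (D1 k (hv μ t' v j)) (th + a • x) xi ^ 2 :=
    fun j k xi => by
      obtain ⟨hc, M, hM⟩ := (cb_hv hb t' v j 1).2.2 k
      simpa only [pow_two] using (good_avg hb hc hM th xi).mul (good_avg hb hc hM th xi)
  refine ⟨fun xi => ?_, fun R hR => ?_⟩
  · simp only [hrow]
    refine (Finset.sum_le_sum fun j _ => col_le hP hb hslc hu ha2 hlam hl
      (cb_hv hb t' v j 3) xi).trans ?_
    rw [← Finset.mul_sum, ← M2.ex_sum hb _ fun j => good_sum _ fun k => gP j k xi]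
    have gg : Good μ fun x => ∑ j, ∑ k, avg s a (D1 k (hv μ t' v j)) (th + a • x) xi ^ 2 :=
      good_sum _ fun j => good_sum _ fun k => gP j k xi
    have he := ex_mono hb gg (Good.const ((1 / t') ^ 2 / s))
      (ae_of_all _ fun x => grad_avg_le hG hb hslc hs0 hsa ht' hv1 _ xi) u th
    rw [ex_const hb] at he
    refine (mul_le_mul_of_nonneg_left he (by positivity)).trans ?_
    rw [show 2 * L * ((1 / t') ^ 2 / s) = 4 * L / (t' ^ 2 * (t' - t)) by
      rw [hs]; field_simp; ring]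
    exact div_le_div_of_nonneg_right (mul_le_mul_of_nonneg_right (by linarith) hL0)
      (mul_nonneg (sq_nonneg _) (by linarith))
  · set c := R / Real.sqrt s with hc
    set H : Rn n → ℝ := fun y => ∑ j, v j * hv μ t' v j y with hH
    have hHcb : ∀ k, Cb k H := fun k =>
      Cb.sum _ fun j => Cb.mul (Cb.const (v j) k) (cb_hv hb t' v j k)
    have hD : ∀ k, D1 k H = fun y => ∑ j, v j * D1 j (hv μ t' v k) y := fun k => by
      rw [hH, D1_sum _ fun j => (cb_hv hb t' v j 1).2.1]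
      simp only [fun j => D1_hv_comm hb t' v j k]
    have hsum : ∀ xi k, ∑ j, ∑ l, v j * v l * dsec μ t t' u th xi j l k
        = dsecF μ s a u H k th xi := fun xi k => by
      simp only [mul_assoc, ← Finset.mul_sum, hrow]
      exact (dsecF_sum hb (fun j => v j) (fun j => cb_hv hb t' v j 1) s a u k th xi).symm
    simp only [hsum]
    obtain ⟨K, hK⟩ := B2.exists_of_cb (hHcb 2)
    obtain ⟨R₀, hR₀⟩ := id hb
    set Q : Rn n → Rn n → ℝ := fun xi x => ∑ k, avg s a (D1 k H) (th + a • x) (xi + c • v) ^ 2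
      with hQ
    have hQc : Continuous (Function.uncurry Q) := by
      simp only [hQ]
      exact continuous_finsetSum _ fun k _ => ((continuous_avg (hK.cont1 k) (hK.bd1 k)).comp
        (f := fun p : Rn n × Rn n => (th + a • p.2, p.1 + c • v)) (by fun_prop)).pow 2
    have hQb : ∀ xi x, |Q xi x| ≤ n * K ^ 2 := fun xi x => by
      rw [abs_of_nonneg (Finset.sum_nonneg fun k _ => sq_nonneg _)]
      refine (Finset.sum_le_sum fun k _ =>
        sq_le_sq.2 ((abs_avg_le (hK.bd1 k) _ _).trans (le_abs_self K))).trans ?_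
      simp
    have hgQ : ∀ xi, Good μ (Q xi) := fun xi =>
      Good.of_continuous hb (hQc.comp (continuous_const.prodMk continuous_id))
    have hcol : ∀ xi, ∑ k, dsecF μ s a u H k th (xi + c • v) ^ 2 ≤ 2 * L * ex μ u th (Q xi) :=
      fun xi => col_le hP hb hslc hu ha2 hlam hl (hHcb 3) _
    have iQ : Integrable (fun xi => ex μ u th (Q xi)) (gam n) :=
      integrable_gam_bdd (continuous_ex_param hb u continuous_const hQc
        fun xi => ae_of_all _ (hQb xi)) fun xi => abs_ex_le hb (hgQ xi) (ae_of_all _ (hQb xi)) u th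
    refine (integral_mono_of_nonneg
      (ae_of_all _ fun xi => Finset.sum_nonneg fun k _ => sq_nonneg _) (iQ.const_mul (2 * L))
      (ae_of_all _ hcol)).trans ?_
    rw [integral_const_mul, ← ex_integral_swap hb (gam n) u th
      (hQc.comp continuous_swap).aestronglyMeasurable (ae_of_all _ hQb)]
    have hx : ∀ x, ∫ xi, Q xi x ∂gam n ≤ C0 / (t' ^ 2 * R ^ 2) := by
      intro x
      have h := hW n (hv μ t' v) (1 / t') (fun j k => cb_hv hb t' v j k) (by positivity)
        (sum_hv_sq_le hb hslc ht' hv1) s a (th + a • x) (R • v) hs0 hsa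
      have e : ∀ xi k, (∫ r in (0 : ℝ)..1, (1 - r) * ∑ i, (R • v) i *
          smo (a - s * r ^ 2) (D1 i (hv μ t' v k))
            (th + a • x + (Real.sqrt s * r) • xi + r • (R • v)))
          = R * avg s a (D1 k H) (th + a • x) (xi + c • v) := fun xi k => by
        unfold avg
        rw [← intervalIntegral.integral_const_mul, hD k]
        congr 1
        funext r
        rw [smo_sum _ fun i => (cb_hv hb t' v k 1).2.2 i, smul_add, smul_smul, ← add_assoc,
          smul_smul, show Real.sqrt s * r * c = r * R by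
            rw [hc]; field_simp [(Real.sqrt_pos.2 hs0).ne'], Finset.mul_sum, Finset.mul_sum,
          Finset.mul_sum]
        exact Finset.sum_congr rfl fun i _ => by simp only [PiLp.smul_apply, smul_eq_mul]; ring
      simp only [e, mul_pow, ← Finset.mul_sum, integral_const_mul] at h
      rw [le_div_iff₀ (by positivity)]
      refine le_trans (le_of_eq ?_) ((mul_le_mul_of_nonneg_right h (sq_nonneg t')).trans
        (le_of_eq (by field_simp)))
      simp only [hQ]
      ring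
    have hgI : Good μ fun x => ∫ xi, Q xi x ∂gam n := good_gam_integral hb hQc hQb
    have he := ex_mono hb hgI (Good.const (C0 / (t' ^ 2 * R ^ 2))) (ae_of_all _ hx) u th
    rw [ex_const hb] at he
    refine (mul_le_mul_of_nonneg_left he (by positivity)).trans ?_
    rw [show 2 * L * (C0 / (t' ^ 2 * R ^ 2)) = 2 * C0 * L / (t' ^ 2 * R ^ 2) by ring]
    exact div_le_div_of_nonneg_right (mul_le_mul_of_nonneg_right (by linarith) hL0) (by positivity)

end Vale.Agent.P245.Poly
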