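import Vale.Agent.P245.Poly.Defs
import Vale.Agent.P245.M2.Mix
import Vale.Agent.P245.Smooth

/-!
# P245 Poly, module B: Gaussian smoothing along a random segment

`smoothGrad` is Gaussian integration by parts and Bessel's inequality. For `smoothW`, half of the
smoothing is moved into the function, and the derivative in `r` of the remaining Gaussian argument
is, up to a factor at most `2`, an independent Gaussian vector, by rotation invariance.
-/

namespace Vale.Agent.P245.Poly

open MeasureTheory ProbabilityTheory Filter Topology Set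
open scoped RealInnerProductSpace

namespace Smo

variable {n : ℕ}

lemma d1_eq {g : Rn n → ℝ} (hg : Differentiable ℝ g) (k : Fin n) (y : Rn n) :
    D1 k g y = fderiv ℝ g y (unit k) := by
  have h : HasDerivAt (fun s : ℝ => g (y + s • unit k)) (fderiv ℝ g y (unit k)) 0 := by
    have h0 : HasDerivAt (fun s : ℝ => y + s • unit k) (unit k) 0 := by
      simpa using ((hasDerivAt_id' (0 : ℝ)).smul_const (unit k)).const_add y
    have hf : HasFDerivAt g (fderiv ℝ g y) (y + (0 : ℝ) • unit k) := by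
      simpa using (hg y).hasFDerivAt
    exact hf.comp_hasDerivAt 0 h0
  exact h.deriv

lemma sum_unit (v : Rn n) : ∑ k, v k • unit k = v := by
  have h := (EuclideanSpace.basisFun (Fin n) ℝ).sum_repr v
  simpa [unit] using h

lemma clm_eq_sum (L : Rn n →L[ℝ] ℝ) (v : Rn n) : L v = ∑ k, v k * L (unit k) := by
  conv_lhs => rw [← sum_unit v]
  simp

lemma c1b_of {g : Rn n → ℝ} (h : ∀ k, Cb k g) :
    ∃ M B, C1B M g ∧ ∀ x, |g x| ≤ B := by
  obtain ⟨⟨B, hB⟩, hd, hD⟩ := h 1
  choose M hM using fun i => (hD i).2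
  refine ⟨∑ i, M i, B, ⟨hd, fun x => ?_⟩, hB⟩
  have hM0 : ∀ i, 0 ≤ M i := fun i => (abs_nonneg _).trans (hM i x)
  refine ContinuousLinearMap.opNorm_le_bound _ (Finset.sum_nonneg fun i _ => hM0 i) fun v => ?_
  rw [clm_eq_sum (fderiv ℝ g x) v, Real.norm_eq_abs, Finset.sum_mul]
  refine (Finset.abs_sum_le_sum_abs _ _).trans (Finset.sum_le_sum fun i _ => ?_)
  rw [abs_mul, mul_comm (M i), ← d1_eq (hd.differentiable one_ne_zero)]
  exact mul_le_mul (PiLp.norm_apply_le v i) (hM i x) (abs_nonneg _) (norm_nonneg _)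

/-! ### Gaussian facts -/

lemma integrable_norm_sq_gam : Integrable (fun z : Rn n => ‖z‖ ^ 2) (gam n) := by
  simpa using (IsGaussian.memLp_two_id (μ := gam n)).integrable_norm_pow (p := 2) two_ne_zero

lemma inner_sq (a : Rn n) :
    Integrable (fun z => ⟪a, z⟫ ^ 2) (gam n) ∧ ∫ z, ⟪a, z⟫ ^ 2 ∂gam n = ‖a‖ ^ 2 := by
  refine ⟨(integrable_norm_sq_gam.const_mul (‖a‖ ^ 2)).mono'
    (by fun_prop : Continuous fun z => ⟪a, z⟫ ^ 2).aestronglyMeasurable
    (ae_of_all _ fun z => ?_), ?_⟩
  · rw [Real.norm_eq_abs, abs_pow, ← mul_pow]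
    exact pow_le_pow_left₀ (abs_nonneg _) (abs_real_inner_le_norm a z) 2
  · have h := variance_dual_stdGaussian (innerSL ℝ a)
    have h0 : (gam n)[fun z => innerSL ℝ a z] = 0 := integral_strongDual_stdGaussian _
    rw [variance_of_integral_eq_zero (by fun_prop) h0, innerSL_apply_norm] at h
    simpa using h

lemma clm_sq (L : Rn n →L[ℝ] ℝ) :
    ∫ v, L v ^ 2 ∂gam n = ∑ k, L (unit k) ^ 2 := by
  set a : Rn n := WithLp.toLp 2 fun k => L (unit k)
  have ha : ∀ v, L v = ⟪a, v⟫ := fun v => by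
    rw [clm_eq_sum L v, PiLp.inner_apply]
    simp [a]
  simp only [ha]
  rw [(inner_sq a).2, EuclideanSpace.real_norm_sq_eq]
  exact Finset.sum_congr rfl fun k _ => by simp [unit, a, EuclideanSpace.inner_single_right]

lemma bessel {G : Rn n → ℝ} (hG : Continuous G) {B : ℝ} (hB : ∀ z, |G z| ≤ B) :
    ∑ k, (∫ z, ⟪unit k, z⟫ * G z ∂gam n) ^ 2 ≤ ∫ z, G z ^ 2 ∂gam n := by
  set a : Rn n := WithLp.toLp 2 fun k => ∫ z, ⟪unit k, z⟫ * G z ∂gam n
  have hai : ∀ e : Rn n, Integrable (fun z => ⟪e, z⟫ * G z) (gam n) := fun e =>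
    (((innerSL ℝ e).integrable_comp IsGaussian.integrable_id).mul_bdd hG.aestronglyMeasurable
      (c := B) (ae_of_all _ fun z => by simpa using hB z))
  have hA : ∫ z, ⟪a, z⟫ * G z ∂gam n = ‖a‖ ^ 2 := by
    have e : ∀ z, ⟪a, z⟫ * G z = ∑ k, a k * (⟪unit k, z⟫ * G z) := fun z => by
      rw [PiLp.inner_apply, Finset.sum_mul]
      exact Finset.sum_congr rfl fun k _ => by
        simp [unit, EuclideanSpace.inner_single_left]; ring
    simp only [e]
    rw [integral_finsetSum _ fun k _ => (hai _).const_mul _, EuclideanSpace.real_norm_sq_eq]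
    refine Finset.sum_congr rfl fun k _ => ?_
    rw [integral_const_mul, sq]
  have hG2 : Integrable (fun z => G z ^ 2) (gam n) :=
    Integrable.of_bound (hG.pow 2).aestronglyMeasurable (B ^ 2) (ae_of_all _ fun z => by
      rw [Real.norm_eq_abs, abs_pow]; exact pow_le_pow_left₀ (abs_nonneg _) (hB z) 2)
  have h0 : 0 ≤ ∫ z, (⟪a, z⟫ ^ 2 - 2 * (⟪a, z⟫ * G z) + G z ^ 2) ∂gam n :=
    integral_nonneg fun z => by show (0 : ℝ) ≤ _; nlinarith [sq_nonneg (⟪a, z⟫ - G z)]
  have i2 := (hai a).const_mul 2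
  rw [integral_add (by exact (inner_sq a).1.sub i2) hG2, integral_sub (inner_sq a).1 i2,
    integral_const_mul, hA, (inner_sq a).2] at h0
  have : ‖a‖ ^ 2 = ∑ k, (∫ z, ⟪unit k, z⟫ * G z ∂gam n) ^ 2 := by
    rw [EuclideanSpace.real_norm_sq_eq]
  linarith

lemma rot {a b : ℝ} (ha : 0 ≤ a) (hab : a ^ 2 + b ^ 2 = 1) :
    MeasurePreserving (fun p : Rn n × Rn n => (a • p.1 + b • p.2, (-b) • p.1 + a • p.2))
      ((gam n).prod (gam n)) ((gam n).prod (gam n)) := by
  have hb : -1 ≤ b ∧ b ≤ 1 := abs_le.1 (abs_le_one_iff_mul_self_le_one.2 (by nlinarith))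
  refine ⟨by fun_prop, ?_⟩
  have h := IsGaussian.map_rotation_eq_self (μ := gam n) (by simp) (Real.arcsin b)
  have hc : Real.cos (Real.arcsin b) = a := by
    rw [Real.cos_arcsin, show 1 - b ^ 2 = a ^ 2 by linarith, Real.sqrt_sq ha]
  conv_rhs => rw [← h]
  congr 1
  funext p
  rw [ContinuousLinearMap.rotation_apply, hc, Real.sin_arcsin hb.1 hb.2]

/-- Two smoothings make one. -/
lemma smo_add {F : Rn n → ℝ} (hF : Continuous F) {σ₁ σ₂ : ℝ} (h₁ : 0 ≤ σ₁) (h₂ : 0 < σ₂)
    (y : Rn n) :
    ∫ z, F (y + Real.sqrt (σ₁ + σ₂) • z) ∂gam n = ∫ p : Rn n × Rn n,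
      F (y + Real.sqrt σ₁ • p.1 + Real.sqrt σ₂ • p.2) ∂(gam n).prod (gam n) := by
  set q := Real.sqrt (σ₁ + σ₂)
  have hq : 0 < q := Real.sqrt_pos.2 (by linarith)
  have hq2 : q ^ 2 = σ₁ + σ₂ := Real.sq_sqrt (by linarith)
  have hr := rot (n := n) (a := Real.sqrt σ₁ / q) (b := Real.sqrt σ₂ / q) (by positivity) (by
    rw [div_pow, div_pow, Real.sq_sqrt h₁, Real.sq_sqrt h₂.le, hq2, ← add_div,
      div_self (by linarith)])
  have h := integral_map hr.measurable.aemeasurable
    (μ := (gam n).prod (gam n)) (f := fun p : Rn n × Rn n => F (y + q • p.1))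
    (by fun_prop : Continuous _).aestronglyMeasurable
  rw [hr.map_eq] at h
  simp only [smul_add, smul_smul, mul_div_cancel₀ _ hq.ne'] at h
  rw [integral_fun_fst (fun z => F (y + q • z))] at h
  simpa [add_assoc] using h

/-! ### The gradient of a smoothed family -/

lemma smo_grad {g : Fin n → Rn n → ℝ} (hg : ∀ j, ∃ M B, C1B M (g j) ∧ ∀ x, |g j x| ≤ B) {K : ℝ}
    (hK : ∀ y, ∑ j, g j y ^ 2 ≤ K ^ 2) {σ : ℝ} (hσ : 0 < σ) (y : Rn n) :
    ∑ j, ∑ k, (∫ z, fderiv ℝ (g j) (y + Real.sqrt σ • z) (unit k) ∂gam n) ^ 2 ≤ K ^ 2 / σ := by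
  choose M B hM hB using hg
  have hs := Real.sqrt_pos.2 hσ
  set G : Fin n → Rn n → ℝ := fun j z => g j (y + Real.sqrt σ • z) with hGdef
  have hcd : ∀ j, ContDiff ℝ 1 (G j) := fun j =>
    (hM j).1.comp (contDiff_const.add (contDiff_id.const_smul _))
  have hfd : ∀ j z v,
      fderiv ℝ (G j) z v = Real.sqrt σ * fderiv ℝ (g j) (y + Real.sqrt σ • z) v := by
    intro j z v
    have h' := ((((hM j).1.differentiable one_ne_zero) _).hasFDerivAt).comp z
      (((hasFDerivAt_id z).const_smul (Real.sqrt σ)).const_add y)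
    refine (DFunLike.congr_fun h'.fderiv v).trans ?_
    simp
  have key : ∀ j k, (∫ z, fderiv ℝ (g j) (y + Real.sqrt σ • z) (unit k) ∂gam n) ^ 2
      = (∫ z, ⟪unit k, z⟫ * G j z ∂gam n) ^ 2 / σ := by
    intro j k
    rw [M2.stein (hcd j) (fun z => hB j _) (unit k) (M := Real.sqrt σ * M j) fun z => by
      rw [hfd, abs_mul, abs_of_pos hs]
      refine mul_le_mul_of_nonneg_left ?_ hs.le
      refine ((fderiv ℝ (g j) _).le_opNorm _).trans ?_
      simpa [unit] using (hM j).2 _]
    simp only [hfd]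
    rw [integral_const_mul, mul_pow, Real.sq_sqrt hσ.le]
    field_simp
  simp only [key, ← Finset.sum_div]
  refine (div_le_div_iff_of_pos_right hσ).2 ((Finset.sum_le_sum fun j _ =>
    bessel (hcd j).continuous fun z => hB j _).trans ?_)
  have hi : ∀ j, Integrable (fun z => G j z ^ 2) (gam n) := fun j =>
    Integrable.of_bound ((hcd j).continuous.pow 2).aestronglyMeasurable (B j ^ 2)
      (ae_of_all _ fun z => by
        rw [Real.norm_eq_abs, abs_pow]; exact pow_le_pow_left₀ (abs_nonneg _) (hB j _) 2)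
  rw [← integral_finsetSum _ fun j _ => hi j]
  refine (integral_mono (integrable_finsetSum _ fun j _ => hi j) (integrable_const (K ^ 2))
    fun z => hK _).trans ?_
  simp

/-! ### The segment -/

variable {τ s : ℝ} {y d : Rn n}

/-- Variance left after moving half of the smoothing into the function. -/
noncomputable def res (τ s r : ℝ) : ℝ := τ - s / 2 - s * r ^ 2

/-- A point of the segment. -/
noncomputable def pt (τ s : ℝ) (y d : Rn n) (r : ℝ) (p : Rn n × Rn n) : Rn n :=
  y + (Real.sqrt s * r) • p.1 + r • d + Real.sqrt (res τ s r) • p.2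

/-- Velocity of the Gaussian part of a point of the segment. -/
noncomputable def vel (τ s r : ℝ) (p : Rn n × Rn n) : Rn n :=
  Real.sqrt s • p.1 - (s * r / Real.sqrt (res τ s r)) • p.2

lemma res_bd (hs : 0 < s) (hτ : 2 * s ≤ τ) {r : ℝ} (hr : r ∈ Icc (0 : ℝ) 1) :
    s / 2 ≤ res τ s r ∧ τ ≤ 4 * res τ s r := by
  have : r ^ 2 ≤ 1 := pow_le_one₀ hr.1 hr.2
  unfold res
  constructor <;> nlinarith

lemma continuous_pt (r : ℝ) : Continuous (pt τ s y d r) := by
  unfold pt; fun_prop

lemma continuous_pt' (p : Rn n × Rn n) : Continuous fun r => pt τ s y d r p := by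
  unfold pt res; fun_prop

lemma continuous_vel' (hs : 0 < s) (hτ : 2 * s ≤ τ) (p : Rn n × Rn n) :
    ContinuousOn (fun r => vel τ s r p) (Icc (0 : ℝ) 1) := by
  have h : ContinuousOn (fun r => s * r / Real.sqrt (res τ s r)) (Icc (0 : ℝ) 1) :=
    ContinuousOn.div (by fun_prop) (by unfold res; fun_prop) fun r hr =>
      (Real.sqrt_pos.2 (by linarith [(res_bd hs hτ hr).1])).ne'
  unfold vel
  exact continuousOn_const.sub (h.smul continuousOn_const)

lemma hasDerivAt_pt {r : ℝ} (hr : 0 < res τ s r) (p : Rn n × Rn n) :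
    HasDerivAt (fun r => pt τ s y d r p) (vel τ s r p + d) r := by
  have h1 : HasDerivAt (res τ s) (-(2 * s * r)) r := by
    unfold res
    refine (((hasDerivAt_pow 2 r).const_mul s).const_sub (τ - s / 2)).congr_deriv ?_
    simp; ring
  have h2 : HasDerivAt (fun r => Real.sqrt (res τ s r)) (-(s * r / Real.sqrt (res τ s r))) r :=
    (h1.sqrt hr.ne').congr_deriv (by field_simp)
  have h3 := ((((hasDerivAt_id' r).const_mul (Real.sqrt s)).smul_const p.1).const_add y).add
    ((hasDerivAt_id' r).smul_const d) |>.add (h2.smul_const p.2)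
  refine h3.congr_deriv ?_
  simp only [vel, mul_one, one_smul, neg_smul]
  abel

/-- The Gaussian part of the velocity is an independent Gaussian vector, up to a bounded factor. -/
lemma vel_sq {h : Fin n → Rn n → ℝ} {M : Fin n → ℝ} (hh : ∀ j, C1B (M j) (h j)) {L : ℝ}
    (hL : ∀ x, ∑ j, ∑ k, fderiv ℝ (h j) x (unit k) ^ 2 ≤ L) (hL0 : 0 ≤ L) (hs : 0 < s)
    (hτ : 2 * s ≤ τ) {r : ℝ} (hr : r ∈ Icc (0 : ℝ) 1) :
    ∫ p, ∑ j, fderiv ℝ (h j) (pt τ s y d r p) (vel τ s r p) ^ 2 ∂(gam n).prod (gam n)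
      ≤ 4 * s * L := by
  obtain ⟨hσs, hστ⟩ := res_bd hs hτ hr
  set σ := res τ s r with hσdef
  have hσ : 0 < σ := by linarith
  set q := τ - s / 2 with hqdef
  have hq : 0 < q := by linarith
  have hσq : σ = q - s * r ^ 2 := rfl
  set a := Real.sqrt s * r / Real.sqrt q with hadef
  set b := Real.sqrt σ / Real.sqrt q with hbdef
  have hsq : Real.sqrt q ≠ 0 := (Real.sqrt_pos.2 hq).ne'
  have hsσ : Real.sqrt σ ≠ 0 := (Real.sqrt_pos.2 hσ).ne'
  set κ := Real.sqrt s * Real.sqrt q / Real.sqrt σ with hκdef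
  have hab : a ^ 2 + b ^ 2 = 1 := by
    rw [hadef, hbdef, div_pow, div_pow, mul_pow, Real.sq_sqrt hs.le, Real.sq_sqrt hσ.le,
      Real.sq_sqrt hq.le, ← add_div, div_eq_one_iff_eq hq.ne', hσq]
    ring
  have hR := rot (n := n) (show 0 ≤ a by have := hr.1; positivity) hab
  set F : Rn n × Rn n → ℝ :=
    fun p => ∑ j, fderiv ℝ (h j) (y + r • d + Real.sqrt q • p.1) ((-κ) • p.2) ^ 2 with hF
  have hFc : Continuous F := by
    refine continuous_finsetSum _ fun j _ => ?_
    exact ((((hh j).1.continuous_fderiv one_ne_zero).comp (by fun_prop)).clm_apply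
      (by fun_prop)).pow 2
  have e1 : Real.sqrt q * a = Real.sqrt s * r := by rw [hadef]; field_simp
  have e2 : Real.sqrt q * b = Real.sqrt σ := by rw [hbdef]; field_simp
  have e3 : κ * b = Real.sqrt s := by rw [hκdef, hbdef]; field_simp
  have e4 : κ * a = s * r / Real.sqrt σ := by
    rw [hκdef, hadef]
    field_simp
    rw [Real.sq_sqrt hs.le]
    ring
  have e : ∀ p, ∑ j, fderiv ℝ (h j) (pt τ s y d r p) (vel τ s r p) ^ 2
      = F (a • p.1 + b • p.2, (-b) • p.1 + a • p.2) := by
    intro p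
    have hp : pt τ s y d r p = y + r • d + Real.sqrt q • (a • p.1 + b • p.2) := by
      rw [smul_add, smul_smul, smul_smul, e1, e2, pt]
      abel
    have hv : vel τ s r p = (-κ) • ((-b) • p.1 + a • p.2) := by
      rw [smul_add, smul_smul, smul_smul, neg_mul_neg, neg_mul, e3, e4, neg_smul, vel,
        sub_eq_add_neg]
    simp only [hF, hp, hv]
  simp only [e]
  rw [← integral_map hR.measurable.aemeasurable hFc.aestronglyMeasurable, hR.map_eq]
  have hdom : ∀ p : Rn n × Rn n, F p ≤ (∑ j, (M j * |κ|) ^ 2) * ‖p.2‖ ^ 2 := by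
    intro p
    rw [Finset.sum_mul]
    refine Finset.sum_le_sum fun j _ => ?_
    rw [← mul_pow, ← sq_abs]
    refine pow_le_pow_left₀ (abs_nonneg _) (((fderiv ℝ (h j) _).le_opNorm _).trans ?_) 2
    rw [norm_smul, Real.norm_eq_abs, abs_neg, ← mul_assoc]
    gcongr
    exact (hh j).2 _
  have hFi : Integrable F ((gam n).prod (gam n)) :=
    ((integrable_norm_sq_gam.comp_snd (gam n)).const_mul _).mono' hFc.aestronglyMeasurable
      (ae_of_all _ fun p => by
        rw [Real.norm_eq_abs, abs_of_nonneg (Finset.sum_nonneg fun j _ => sq_nonneg _)]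
        exact hdom p)
  rw [integral_prod _ hFi]
  refine (integral_mono hFi.integral_prod_left (integrable_const (κ ^ 2 * L)) fun w => ?_).trans ?_
  · show ∫ v, F (w, v) ∂gam n ≤ κ ^ 2 * L
    simp only [hF, map_smul, smul_eq_mul, mul_pow, neg_sq]
    have hi : ∀ j, Integrable (fun v : Rn n =>
        κ ^ 2 * fderiv ℝ (h j) (y + r • d + Real.sqrt q • w) v ^ 2) (gam n) := by
      intro j
      refine Integrable.const_mul ((integrable_norm_sq_gam.const_mul (M j ^ 2)).mono'
        ((fderiv ℝ (h j) _).continuous.pow 2).aestronglyMeasurable (ae_of_all _ fun v => ?_)) _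
      rw [Pi.pow_apply, Real.norm_eq_abs, abs_pow, ← mul_pow]
      refine pow_le_pow_left₀ (abs_nonneg _) (((fderiv ℝ (h j) _).le_opNorm _).trans ?_) 2
      exact mul_le_mul_of_nonneg_right ((hh j).2 _) (norm_nonneg _)
    rw [integral_finsetSum _ fun j _ => hi j]
    simp only [integral_const_mul, clm_sq]
    rw [← Finset.mul_sum]
    exact mul_le_mul_of_nonneg_left (hL _) (sq_nonneg _)
  · simp only [integral_const, probReal_univ, one_smul]
    refine mul_le_mul_of_nonneg_right ?_ hL0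
    rw [hκdef, div_pow, mul_pow, Real.sq_sqrt hs.le, Real.sq_sqrt hq.le, Real.sq_sqrt hσ.le,
      div_le_iff₀ hσ]
    nlinarith

lemma sq_unitInterval {f : ℝ → ℝ} (hf : ContinuousOn f (Icc (0 : ℝ) 1)) :
    (∫ r in (0 : ℝ)..1, f r) ^ 2 ≤ ∫ r in (0 : ℝ)..1, f r ^ 2 := by
  have hf' : ContinuousOn f (uIcc (0 : ℝ) 1) := by rwa [uIcc_of_le zero_le_one]
  set c := ∫ r in (0 : ℝ)..1, f r with hc
  have i2 : IntervalIntegrable (fun r => f r ^ 2) volume 0 1 := (hf'.pow 2).intervalIntegrable
  have i1 : IntervalIntegrable (fun r => 2 * c * f r - c ^ 2) volume 0 1 :=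
    ((continuousOn_const.mul hf').sub continuousOn_const).intervalIntegrable
  have h := intervalIntegral.integral_mono_on zero_le_one i1 i2
    fun r _ => by nlinarith [sq_nonneg (f r - c)]
  rw [intervalIntegral.integral_sub (hf'.intervalIntegrable.const_mul _) intervalIntegrable_const,
    intervalIntegral.integral_const_mul, ← hc, intervalIntegral.integral_const] at h
  simp at h
  nlinarith

/-- Integration by parts along the segment, and Cauchy-Schwarz. -/
lemma seg_sq {f : Rn n → ℝ} {M : ℝ} (hf : C1B M f) (hs : 0 < s) (hτ : 2 * s ≤ τ)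
    (p : Rn n × Rn n) :
    (∫ r in (0 : ℝ)..1, (1 - r) * fderiv ℝ f (pt τ s y d r p) d) ^ 2
      ≤ 3 * f (pt τ s y d 0 p) ^ 2 + 3 * (∫ r in (0 : ℝ)..1, f (pt τ s y d r p) ^ 2)
        + 3 * ∫ r in (0 : ℝ)..1, fderiv ℝ f (pt τ s y d r p) (vel τ s r p) ^ 2 := by
  have hI : uIcc (0 : ℝ) 1 = Icc 0 1 := uIcc_of_le zero_le_one
  have hdc := hf.1.continuous_fderiv one_ne_zero
  have hφ : Continuous fun r => f (pt τ s y d r p) := hf.1.continuous.comp (continuous_pt' p)
  have hA : ContinuousOn (fun r => fderiv ℝ f (pt τ s y d r p) (vel τ s r p)) (Icc 0 1) :=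
    (hdc.comp (continuous_pt' p)).continuousOn.clm_apply (continuous_vel' hs hτ p)
  have hD : Continuous fun r => fderiv ℝ f (pt τ s y d r p) d :=
    (hdc.comp (continuous_pt' p)).clm_apply continuous_const
  have hder : ∀ r ∈ uIcc (0 : ℝ) 1, HasDerivAt (fun r => f (pt τ s y d r p))
      (fderiv ℝ f (pt τ s y d r p) (vel τ s r p) + fderiv ℝ f (pt τ s y d r p) d) r := by
    intro r hr
    rw [hI] at hr
    rw [← map_add]
    exact (hf.1.differentiable one_ne_zero _).hasFDerivAt.comp_hasDerivAt r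
      (hasDerivAt_pt (by linarith [(res_bd hs hτ hr).1]) p)
  have hib := intervalIntegral.integral_mul_deriv_eq_deriv_mul
    (u := fun r : ℝ => 1 - r) (u' := fun _ => (-1 : ℝ))
    (fun r _ => (hasDerivAt_id' r).const_sub 1) hder intervalIntegrable_const
    (ContinuousOn.intervalIntegrable (by rw [hI]; exact hA.add hD.continuousOn))
  have iA : IntervalIntegrable
      (fun r => (1 - r) * fderiv ℝ f (pt τ s y d r p) (vel τ s r p)) volume 0 1 :=
    ContinuousOn.intervalIntegrable (by rw [hI]; exact (by fun_prop : Continuous fun r : ℝ => 1 - r).continuousOn.mul hA)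
  have iD : IntervalIntegrable (fun r => (1 - r) * fderiv ℝ f (pt τ s y d r p) d) volume 0 1 :=
    (((continuous_const.sub continuous_id).mul hD)).intervalIntegrable _ _
  simp only [mul_add, sub_self, zero_mul, sub_zero, one_mul, neg_mul] at hib
  rw [intervalIntegral.integral_add iA iD, intervalIntegral.integral_neg] at hib
  have h1 := sq_unitInterval hφ.continuousOn
  have h2 := sq_unitInterval ((by fun_prop : Continuous fun r : ℝ => 1 - r).continuousOn.mul hA)
  have h3 : ∫ r in (0 : ℝ)..1, ((1 - r) * fderiv ℝ f (pt τ s y d r p) (vel τ s r p)) ^ 2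
      ≤ ∫ r in (0 : ℝ)..1, fderiv ℝ f (pt τ s y d r p) (vel τ s r p) ^ 2 := by
    refine intervalIntegral.integral_mono_on zero_le_one
      (ContinuousOn.intervalIntegrable (by
        rw [hI]
        exact ((by fun_prop : Continuous fun r : ℝ => 1 - r).continuousOn.mul hA).pow 2))
      (ContinuousOn.intervalIntegrable (by rw [hI]; exact hA.pow 2)) fun r hr => ?_
    rw [mul_pow]
    exact mul_le_of_le_one_left (sq_nonneg _) (pow_le_one₀ (by linarith [hr.2]) (by linarith [hr.1]))
  simp only [Pi.mul_apply] at h2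
  generalize (∫ r in (0 : ℝ)..1, (1 - r) * fderiv ℝ f (pt τ s y d r p) d) = D at hib ⊢
  generalize (∫ r in (0 : ℝ)..1, (1 - r) * fderiv ℝ f (pt τ s y d r p) (vel τ s r p)) = A at hib h2
  generalize (∫ r in (0 : ℝ)..1, f (pt τ s y d r p)) = I at hib h1
  have hDe : D = -f (pt τ s y d 0 p) + I - A := by linarith
  rw [hDe]
  nlinarith [sq_nonneg (-f (pt τ s y d 0 p) - I), sq_nonneg (I + A),
    sq_nonneg (-f (pt τ s y d 0 p) + A)]

/-- The averaged bound, for the function smoothed at half the scale. -/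
lemma seg_avg {h : Fin n → Rn n → ℝ} {M : Fin n → ℝ} (hh : ∀ j, C1B (M j) (h j)) {K L : ℝ}
    (hK : ∀ x, ∑ j, h j x ^ 2 ≤ K ^ 2) (hL : ∀ x, ∑ j, ∑ k, fderiv ℝ (h j) x (unit k) ^ 2 ≤ L)
    (hL0 : 0 ≤ L) (hs : 0 < s) (hτ : 2 * s ≤ τ) :
    ∫ p, ∑ j, (∫ r in (0 : ℝ)..1, (1 - r) * fderiv ℝ (h j) (pt τ s y d r p) d) ^ 2
        ∂(gam n).prod (gam n) ≤ 6 * K ^ 2 + 12 * (s * L) := by
  set P := (gam n).prod (gam n) with hP
  set G : (Rn n × Rn n) → ℝ → ℝ :=
    fun p r => ∑ j, fderiv ℝ (h j) (pt τ s y d r p) (vel τ s r p) ^ 2 with hG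
  set a := Real.sqrt s
  set b := Real.sqrt (2 * s)
  have hGd : ∀ p r, r ∈ Icc (0 : ℝ) 1 →
      G p r ≤ (∑ j, M j ^ 2) * (2 * s * ‖p.1‖ ^ 2 + 4 * s * ‖p.2‖ ^ 2) := by
    intro p r hr
    have hσ := (res_bd hs hτ hr).1
    rw [Finset.sum_mul]
    refine Finset.sum_le_sum fun j _ => ?_
    have hv : ‖vel τ s r p‖ ≤ a * ‖p.1‖ + b * ‖p.2‖ := by
      refine (norm_sub_le _ _).trans (add_le_add (le_of_eq ?_) ?_)
      · rw [norm_smul, Real.norm_eq_abs, abs_of_nonneg (Real.sqrt_nonneg _)]
      · rw [norm_smul, Real.norm_eq_abs,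
          abs_of_nonneg (div_nonneg (mul_nonneg hs.le hr.1) (Real.sqrt_nonneg _))]
        refine mul_le_mul_of_nonneg_right ?_ (norm_nonneg _)
        refine Real.le_sqrt_of_sq_le ?_
        rw [div_pow, Real.sq_sqrt (by linarith), div_le_iff₀ (by linarith)]
        have : r ^ 2 ≤ 1 := pow_le_one₀ hr.1 hr.2
        nlinarith [sq_nonneg s, sq_nonneg r]
    rw [← sq_abs]
    refine (pow_le_pow_left₀ (abs_nonneg _) (((fderiv ℝ (h j) _).le_opNorm _).trans
      (mul_le_mul ((hh j).2 _) hv (norm_nonneg _) (hh j).nonneg)) 2).trans ?_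
    rw [mul_pow]
    refine mul_le_mul_of_nonneg_left ?_ (sq_nonneg _)
    have ha : a ^ 2 = s := Real.sq_sqrt hs.le
    have hb : b ^ 2 = 2 * s := Real.sq_sqrt (by linarith)
    nlinarith [sq_nonneg (a * ‖p.1‖ - b * ‖p.2‖)]
  have hpm : Measurable fun q : (Rn n × Rn n) × ℝ => pt τ s y d q.2 q.1 := by
    unfold pt res; fun_prop
  have hvm : Measurable fun q : (Rn n × Rn n) × ℝ => vel τ s q.2 q.1 := by
    unfold vel res; fun_prop
  have hGm : Measurable (Function.uncurry G) := by
    refine Finset.measurable_sum _ fun j _ => ?_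
    have hc : Continuous fun q : Rn n × Rn n => fderiv ℝ (h j) q.1 q.2 :=
      (((hh j).1.continuous_fderiv one_ne_zero).comp continuous_fst).clm_apply continuous_snd
    exact (hc.measurable.comp (hpm.prodMk hvm)).pow_const 2
  set m := (volume : Measure ℝ).restrict (Ioc (0 : ℝ) 1) with hm
  have : IsFiniteMeasure m := isFiniteMeasure_restrict.2 (by simp)
  have hGi : Integrable (Function.uncurry G) (P.prod m) := by
    refine ((((integrable_norm_sq_gam.comp_fst (gam n)).const_mul (2 * s)).add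
      ((integrable_norm_sq_gam.comp_snd (gam n)).const_mul (4 * s))).const_mul
      (∑ j, M j ^ 2) |>.comp_fst m).mono' hGm.aestronglyMeasurable ?_
    have hae : ∀ᵐ q ∂P.prod m, q.2 ∈ Ioc (0 : ℝ) 1 :=
      Measure.quasiMeasurePreserving_snd.ae (ae_restrict_mem measurableSet_Ioc)
    filter_upwards [hae] with q hq
    rw [Real.norm_eq_abs]
    simp only [Function.uncurry]
    rw [abs_of_nonneg (Finset.sum_nonneg fun j _ => sq_nonneg _)]
    exact hGd q.1 q.2 ⟨hq.1.le, hq.2⟩
  have hI : uIcc (0 : ℝ) 1 = Icc 0 1 := uIcc_of_le zero_le_one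
  have hpt : ∀ p, ∑ j, (∫ r in (0 : ℝ)..1, (1 - r) * fderiv ℝ (h j) (pt τ s y d r p) d) ^ 2
      ≤ 6 * K ^ 2 + 3 * ∫ r in (0 : ℝ)..1, G p r := by
    intro p
    refine (Finset.sum_le_sum fun j _ => seg_sq (hh j) hs hτ p).trans ?_
    rw [Finset.sum_add_distrib, Finset.sum_add_distrib, ← Finset.mul_sum, ← Finset.mul_sum,
      ← Finset.mul_sum]
    have e2 : ∑ j, ∫ r in (0 : ℝ)..1, h j (pt τ s y d r p) ^ 2 ≤ K ^ 2 := by
      have hc : ∀ j, Continuous fun r => h j (pt τ s y d r p) ^ 2 := fun j =>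
        ((hh j).1.continuous.comp (continuous_pt' p)).pow 2
      rw [← intervalIntegral.integral_finsetSum fun j _ => (hc j).intervalIntegrable _ _]
      refine (intervalIntegral.integral_mono_on (g := fun _ => K ^ 2) zero_le_one
        ((continuous_finsetSum _ fun j _ => hc j).intervalIntegrable _ _)
        intervalIntegrable_const fun r _ => hK _).trans ?_
      simp
    have e3 : ∫ r in (0 : ℝ)..1, G p r
        = ∑ j, ∫ r in (0 : ℝ)..1, fderiv ℝ (h j) (pt τ s y d r p) (vel τ s r p) ^ 2 := by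
      refine intervalIntegral.integral_finsetSum fun j _ => ContinuousOn.intervalIntegrable ?_
      rw [hI]
      exact ((((hh j).1.continuous_fderiv one_ne_zero).comp (continuous_pt' p)).continuousOn.clm_apply
        (continuous_vel' hs hτ p)).pow 2
    linarith [hK (pt τ s y d 0 p)]
  have eI : ∀ p, ∫ r in (0 : ℝ)..1, G p r = ∫ r, G p r ∂m := fun p =>
    intervalIntegral.integral_of_le zero_le_one
  simp only [eI] at hpt
  have hR : Integrable (fun p => 6 * K ^ 2 + 3 * ∫ r, G p r ∂m) P :=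
    (integrable_const _).add (hGi.integral_prod_left.const_mul 3)
  refine (integral_mono_of_nonneg (ae_of_all _ fun p => Finset.sum_nonneg fun j _ => sq_nonneg _)
    hR (ae_of_all _ hpt)).trans ?_
  have i3 : Integrable (fun p => 3 * ∫ r, G p r ∂m) P := hGi.integral_prod_left.const_mul 3
  rw [integral_add (integrable_const _) i3, integral_const, integral_const_mul,
    integral_integral_swap hGi]
  have hin : ∫ r, (∫ p, G p r ∂P) ∂m ≤ ∫ _r, 4 * s * L ∂m := by
    refine integral_mono_ae hGi.integral_prod_right (integrable_const _) ?_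
    filter_upwards [ae_restrict_mem measurableSet_Ioc] with r hr
    exact vel_sq hh hL hL0 hs hτ ⟨hr.1.le, hr.2⟩
  simp only [integral_const, probReal_univ, one_smul, hm, measureReal_restrict_apply_univ,
    Real.volume_real_Ioc, sub_zero, max_eq_left (zero_le_one' ℝ)] at hin ⊢
  linarith

lemma mean_sq {α : Type*} [MeasurableSpace α] {P : Measure α} [IsProbabilityMeasure P]
    {F : α → ℝ} (hF : Integrable F P) (hF2 : Integrable (fun x => F x ^ 2) P) :
    (∫ x, F x ∂P) ^ 2 ≤ ∫ x, F x ^ 2 ∂P := by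
  set c := ∫ x, F x ∂P
  have h := integral_mono ((hF.const_mul (2 * c)).sub (integrable_const (c ^ 2))) hF2
    fun x => by show 2 * c * F x - c ^ 2 ≤ F x ^ 2; nlinarith [sq_nonneg (F x - c)]
  simp only [Pi.sub_apply] at h
  rw [integral_sub (hF.const_mul _) (integrable_const _), integral_const_mul, integral_const,
    probReal_univ, one_smul] at h
  nlinarith

lemma smooth_w {g : Fin n → Rn n → ℝ} (hg : ∀ j, ∃ M B, C1B M (g j) ∧ ∀ x, |g j x| ≤ B) {K : ℝ}
    (hK : ∀ x, ∑ j, g j x ^ 2 ≤ K ^ 2) (hs : 0 < s) (hτ : 2 * s ≤ τ) :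
    ∫ xi, ∑ j, (∫ r in (0 : ℝ)..1, (1 - r) * ∫ z, fderiv ℝ (g j)
        (y + (Real.sqrt s * r) • xi + r • d + Real.sqrt (τ - s * r ^ 2) • z) d ∂gam n) ^ 2
      ∂gam n ≤ 30 * K ^ 2 := by
  have hgr := fun x => smo_grad hg hK (half_pos hs) x
  choose M B hM hB using hg
  set e := Real.sqrt (s / 2)
  set h : Fin n → Rn n → ℝ := fun j => sm e (g j) with hhdef
  have hh : ∀ j, C1B (M j) (h j) := fun j =>
    ⟨(test_sm (hM j) (hB j) (Real.sqrt_pos.2 (half_pos hs))).1, fun x => by
      rw [hhdef, fderiv_sm (hM j) (hB j)]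
      refine (norm_integral_le_of_norm_le (integrable_const (M j))
        (ae_of_all _ fun z => (hM j).2 _)).trans ?_
      simp⟩
  have hdg : ∀ j x v, fderiv ℝ (h j) x v = ∫ z, fderiv ℝ (g j) (x + e • z) v ∂gam n := by
    intro j x v
    rw [hhdef, fderiv_sm (hM j) (hB j), ContinuousLinearMap.integral_apply]
    have hdc := (hM j).1.continuous_fderiv one_ne_zero
    exact Integrable.of_bound (by fun_prop : Continuous _).aestronglyMeasurable (M j)
      (ae_of_all _ fun z => (hM j).2 _)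
  have hgi : ∀ j x, Integrable (fun z => g j (x + e • z)) (gam n) := fun j x =>
    Integrable.of_bound ((hM j).1.continuous.comp (by fun_prop)).aestronglyMeasurable (B j)
      (ae_of_all _ fun z => by simpa using hB j _)
  have hgi2 : ∀ j x, Integrable (fun z => g j (x + e • z) ^ 2) (gam n) := fun j x =>
    Integrable.of_bound (((hM j).1.continuous.comp (by fun_prop)).pow 2).aestronglyMeasurable
      (B j ^ 2) (ae_of_all _ fun z => by
        rw [Real.norm_eq_abs, abs_pow]; exact pow_le_pow_left₀ (abs_nonneg _) (hB j _) 2)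
  have hhK : ∀ x, ∑ j, h j x ^ 2 ≤ K ^ 2 := fun x => by
    refine (Finset.sum_le_sum fun j _ => mean_sq (hgi j x) (hgi2 j x)).trans ?_
    rw [← integral_finsetSum _ fun j _ => hgi2 j x]
    refine (integral_mono (integrable_finsetSum _ fun j _ => hgi2 j x)
      (integrable_const (K ^ 2)) fun z => hK _).trans ?_
    simp
  have hL : ∀ x, ∑ j, ∑ k, fderiv ℝ (h j) x (unit k) ^ 2 ≤ K ^ 2 / (s / 2) := fun x => by
    simp only [hdg]; exact hgr x
  set D : Fin n → Rn n × Rn n → ℝ :=
    fun j p => ∫ r in (0 : ℝ)..1, (1 - r) * fderiv ℝ (h j) (pt τ s y d r p) d with hD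
  have hsc : ∀ j, Continuous fun q : (Rn n × Rn n) × ℝ =>
      (1 - q.2) * fderiv ℝ (h j) (pt τ s y d q.2 q.1) d := fun j => by
    have hdc := (hh j).1.continuous_fderiv one_ne_zero
    unfold pt res; fun_prop
  set m := (volume : Measure ℝ).restrict (Ioc (0 : ℝ) 1) with hm
  have : IsFiniteMeasure m := isFiniteMeasure_restrict.2 (by simp)
  have hDbd : ∀ j p, |D j p| ≤ M j * ‖d‖ := by
    intro j p
    have h1 := intervalIntegral.norm_integral_le_of_norm_le_const (a := (0 : ℝ)) (b := 1)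
      (C := M j * ‖d‖) (f := fun r => (1 - r) * fderiv ℝ (h j) (pt τ s y d r p) d) fun r hr => by
        rw [uIoc_of_le zero_le_one] at hr
        rw [norm_mul]
        refine (mul_le_of_le_one_left (norm_nonneg _) ?_).trans
          (((fderiv ℝ (h j) _).le_opNorm _).trans
            (mul_le_mul_of_nonneg_right ((hh j).2 _) (norm_nonneg _)))
        rw [Real.norm_eq_abs, abs_le]
        constructor <;> linarith [hr.1, hr.2]
    simpa [hD] using h1
  have hDm : ∀ j, AEStronglyMeasurable (D j) ((gam n).prod (gam n)) := fun j => by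
    have e : D j = fun p => ∫ r, (1 - r) * fderiv ℝ (h j) (pt τ s y d r p) d ∂m :=
      funext fun p => intervalIntegral.integral_of_le zero_le_one
    rw [e]
    exact ((hsc j).stronglyMeasurable.integral_prod_right').aestronglyMeasurable
  have hDi : ∀ j, Integrable (fun p => D j p ^ 2) ((gam n).prod (gam n)) := fun j =>
    Integrable.of_bound ((hDm j).pow 2) ((M j * ‖d‖) ^ 2) (ae_of_all _ fun p => by
      rw [Real.norm_eq_abs, abs_pow]; exact pow_le_pow_left₀ (abs_nonneg _) (hDbd j p) 2)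
  have key : ∀ xi j, (∫ r in (0 : ℝ)..1, (1 - r) * ∫ z, fderiv ℝ (g j)
      (y + (Real.sqrt s * r) • xi + r • d + Real.sqrt (τ - s * r ^ 2) • z) d ∂gam n) ^ 2
      ≤ ∫ z, D j (xi, z) ^ 2 ∂gam n := by
    intro xi j
    have hdc : Continuous fun x => fderiv ℝ (g j) x d :=
      ((hM j).1.continuous_fderiv one_ne_zero).clm_apply continuous_const
    have e1 : ∀ r ∈ uIcc (0 : ℝ) 1, (1 - r) * ∫ z, fderiv ℝ (g j)
        (y + (Real.sqrt s * r) • xi + r • d + Real.sqrt (τ - s * r ^ 2) • z) d ∂gam n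
        = ∫ z, (1 - r) * fderiv ℝ (h j) (pt τ s y d r (xi, z)) d ∂gam n := by
      intro r hr
      rw [uIcc_of_le zero_le_one] at hr
      have hσ := (res_bd hs hτ hr).1
      rw [show τ - s * r ^ 2 = res τ s r + s / 2 by unfold res; ring,
        smo_add hdc (by linarith) (half_pos hs), integral_const_mul, integral_prod]
      · simp only [hdg, pt, e]
      · exact Integrable.of_bound ((hdc.comp (by fun_prop)).aestronglyMeasurable) (M j * ‖d‖)
          (ae_of_all _ fun p => ((fderiv ℝ (g j) _).le_opNorm _).trans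
            (mul_le_mul_of_nonneg_right ((hM j).2 _) (norm_nonneg _)))
    rw [intervalIntegral.integral_congr e1, intervalIntegral.integral_of_le zero_le_one]
    have hi : Integrable (Function.uncurry fun r z =>
        (1 - r) * fderiv ℝ (h j) (pt τ s y d r (xi, z)) d) (m.prod (gam n)) := by
      refine Integrable.of_bound ((hsc j).comp
        (show Continuous fun q : ℝ × Rn n => ((xi, q.2), q.1) by fun_prop)).aestronglyMeasurable
        (M j * ‖d‖) ?_
      filter_upwards [Measure.quasiMeasurePreserving_fst.ae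
        (ae_restrict_mem measurableSet_Ioc)] with q hq
      simp only [Function.uncurry]
      rw [norm_mul]
      refine (mul_le_of_le_one_left (norm_nonneg _) ?_).trans
        (((fderiv ℝ (h j) _).le_opNorm _).trans
          (mul_le_mul_of_nonneg_right ((hh j).2 _) (norm_nonneg _)))
      rw [Real.norm_eq_abs, abs_le]
      constructor <;> linarith [hq.1, hq.2]
    rw [integral_integral_swap hi]
    have e2 : ∀ z, ∫ r, (1 - r) * fderiv ℝ (h j) (pt τ s y d r (xi, z)) d ∂m = D j (xi, z) :=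
      fun z => (intervalIntegral.integral_of_le zero_le_one).symm
    simp only [e2]
    have hm1 : AEStronglyMeasurable (fun z => D j (xi, z)) (gam n) :=
      (hi.integral_prod_right.aestronglyMeasurable).congr (ae_of_all _ e2)
    exact mean_sq (Integrable.of_bound hm1 (M j * ‖d‖) (ae_of_all _ fun z => hDbd j _))
      (Integrable.of_bound (hm1.pow 2) ((M j * ‖d‖) ^ 2) (ae_of_all _ fun z => by
        rw [Real.norm_eq_abs, abs_pow]; exact pow_le_pow_left₀ (abs_nonneg _) (hDbd j _) 2))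
  refine (integral_mono_of_nonneg (ae_of_all _ fun xi => Finset.sum_nonneg fun j _ => sq_nonneg _)
    (integrable_finsetSum _ fun j _ => (hDi j).integral_prod_left)
    (ae_of_all _ fun xi => Finset.sum_le_sum fun j _ => key xi j)).trans ?_
  rw [integral_finsetSum _ fun j _ => (hDi j).integral_prod_left]
  simp only [← integral_prod _ (hDi _)]
  rw [← integral_finsetSum _ fun j _ => hDi j]
  refine (seg_avg hh hhK hL (by positivity) hs hτ).trans (le_of_eq ?_)
  field_simp
  ring

end Smo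

open Smo in
theorem smoothGrad : SmoothGrad := by
  intro n g K hg _ hK σ y hσ
  have h : ∀ j k, D1 k (g j) = fun x => fderiv ℝ (g j) x (unit k) := fun j k =>
    funext fun x => d1_eq ((hg j 1).2.1.differentiable one_ne_zero) k x
  simp only [smo, h]
  exact smo_grad (fun j => c1b_of (hg j)) hK hσ y

open Smo in
theorem smoothW : SmoothW := by
  refine ⟨30, by norm_num, fun n g K hg _ hK s τ y d hs hτ => ?_⟩
  choose M B hM hB using fun j => c1b_of (hg j)
  have e : ∀ j xi r, ∑ k, d k * smo (τ - s * r ^ 2) (D1 k (g j))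
      (y + (Real.sqrt s * r) • xi + r • d) = ∫ z, fderiv ℝ (g j)
      (y + (Real.sqrt s * r) • xi + r • d + Real.sqrt (τ - s * r ^ 2) • z) d ∂gam n := by
    intro j xi r
    simp only [smo, ← integral_const_mul]
    rw [← integral_finsetSum]
    · refine integral_congr_ae (ae_of_all _ fun z => ?_)
      simp only [d1_eq ((hM j).1.differentiable one_ne_zero)]
      exact (clm_eq_sum _ d).symm
    · intro k _
      have hdc := (hM j).1.continuous_fderiv one_ne_zero
      simp only [d1_eq ((hM j).1.differentiable one_ne_zero)]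
      refine (Integrable.of_bound ((hdc.comp (by fun_prop)).clm_apply
        continuous_const).aestronglyMeasurable (M j) (ae_of_all _ fun z => ?_)).const_mul _
      refine ((fderiv ℝ (g j) _).le_opNorm _).trans ?_
      simpa [unit] using (hM j).2 _
  simp only [e]
  exact smooth_w (fun j => c1b_of (hg j)) hK hs hτ

end Vale.Agent.P245.Poly
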